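import Vale.Agent.P220.R2.H180.T.Par

/-!
# Division by a coordinate
-/

open Set Filter Topology MeasureTheory
open scoped ContDiff

set_option linter.unusedSectionVars false

namespace Vale.Agent.P220.H446

theorem integral_I {Y : Type} [NormedAddCommGroup Y] [NormedSpace ℝ Y] (f : ℝ → Y) :
    ∫ g : Icc (0 : ℝ) 1, f g = ∫ x in (0 : ℝ)..1, f x := by
  change ∫ g : Icc (0 : ℝ) 1, f g ∂(Measure.comap Subtype.val volume) = _
  rw [integral_subtype_comap (measurableSet_Icc) f, integral_Icc_eq_integral_Ioc,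
    intervalIntegral.integral_of_le zero_le_one]

/-- **Division of a smooth function by the variable.** -/
theorem exists_div {F : Type} [NormedAddCommGroup F] [NormedSpace ℝ F] [FiniteDimensional ℝ F]
    {γ : ℝ → F} (hγ : ContDiff ℝ ∞ γ) (h0 : γ 0 = 0) :
    ∃ δ : ℝ → F, ContDiff ℝ ∞ δ ∧ (∀ t, γ t = t • δ t) ∧ δ 0 = deriv γ 0 := by
  have hd : ContDiff ℝ ∞ (deriv γ) := ((contDiff_infty_iff_deriv (𝕜 := ℝ)).1 hγ).2
  refine ⟨fun t => ∫ g : Icc (0 : ℝ) 1, deriv γ (g * t), ?_, ?_, ?_⟩
  · have h1 : ContDiff ℝ ∞ fun p : ℝ × ℝ => deriv γ (p.1 * p.2) :=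
      hd.comp (contDiff_fst.mul contDiff_snd)
    exact Vale.Agent.P220.R2.H180.T.contDiff_par (Γ := Icc (0 : ℝ) 1) volume
      (a := fun g => (g : ℝ)) continuous_subtype_val h1
  · intro t
    beta_reduce
    rw [integral_I (fun x => deriv γ (x * t))]
    have h2 : ∀ x ∈ uIcc (0 : ℝ) 1, HasDerivAt (fun x => γ (x * t)) (t • deriv γ (x * t)) x := by
      intro x _
      have e1 : HasDerivAt (fun x : ℝ => x * t) t x := by
        simpa using (hasDerivAt_id x).mul_const t
      exact ((hγ.differentiable (by simp) (x * t)).hasDerivAt).scomp x e1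
    have h3 : IntervalIntegrable (fun x => t • deriv γ (x * t)) volume 0 1 := by
      refine Continuous.intervalIntegrable ?_ _ _
      have := hd.continuous
      fun_prop
    have h4 := intervalIntegral.integral_eq_sub_of_hasDerivAt h2 h3
    rw [intervalIntegral.integral_smul, zero_mul, one_mul, h0, sub_zero] at h4
    exact h4.symm
  · simp only [mul_zero]
    rw [integral_I (fun _ => deriv γ 0)]
    simp

end Vale.Agent.P220.H446
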