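import Vale.Agent.P220.H446.Sat
import Vale.Agent.P220.H446.Had
import Vale.Agent.P220.R2.H481.Mfd

/-!
# The reduced curve
-/

open Set Filter Topology
open scoped ContDiff RealInnerProductSpace

set_option linter.unusedSectionVars false

namespace Vale.Agent.P220.H446

open Vale.Agent.P220.R2.H481 Vale.Agent.P220.R2

variable {E : Type} [NormedAddCommGroup E] [InnerProductSpace ℝ E] [FiniteDimensional ℝ E]

namespace LG

variable {D : TN E} (Λ : LG D) {Φ : ℝ → E × E → E × E}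

/-- a direction which leaves the focal points of the zero section -/
theorem exists_dir {z : E × E} (hz : z ∈ Λ.L) (hf : D.f z.1 ^ 2 = 1) :
    ∃ u ∈ tan Λ.L z, D.A z.1 u.1 ≠ 0 ∨ u.2 ≠ 0 := by
  by_contra hno
  push Not at hno
  have hq := (Λ.sub z hz).1
  obtain ⟨w, hw⟩ := D.exists_A_ne Λ.hM hq hf
  have h0 : (0 : E) ∈ tan D.Q z.1 :=
    ⟨fun _ => z.1, contDiff_const, fun _ => hq, rfl, hasDerivAt_const _ _⟩
  have h1 := D.hP.mem_tan_cotangent (Λ.sub z hz) h0 (D.A z.1 w)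
  rw [map_zero, _root_.zero_apply, zero_add, D.hP.id z.1 hq _ (D.A_mem hq w)] at h1
  have h2 : ((0, D.A z.1 w) : E × E) ∈ tan Λ.L z := by
    refine Λ.maxi hz h1 fun u hu => ?_
    unfold om
    rw [D.A_symm hq, (hno u hu).1, inner_zero_right, inner_zero_right, sub_zero]
  exact hw (hno _ h2).2

variable (hΦ : IsGeo D.Q D.P Φ)

include hΦ

/-- a smooth curve of parameters through a cone point -/
theorem cone_curve {z : E × E} (hz : z ∈ Λ.L) (h0 : z.2 = 0) {s₀ : ℝ} (hs : Real.sin s₀ = 0)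
    (hf : D.f z.1 = Real.cos s₀) : ∃ (η : ℝ → ℝ × ℝ) (w : ℝ × ℝ), w ≠ 0 ∧ ContDiff ℝ ∞ η ∧
      η 0 = (s₀, 0) ∧ HasDerivAt η w 0 ∧ ∀ᶠ ε in 𝓝[≠] (0 : ℝ), ∃ m ∈ D.M, D.Psi Φ (m, η ε) ∈ Λ.L := by
  have hq := (Λ.sub z hz).1
  have hc2 : Real.cos s₀ ^ 2 = 1 := by
    have := Real.sin_sq_add_cos_sq s₀
    rw [hs] at this
    linarith
  have hf2 : D.f z.1 ^ 2 = 1 := by rw [hf, hc2]
  obtain ⟨u, hu, hu2⟩ := Λ.exists_dir hz hf2
  obtain ⟨γ, g1, g2, g3, g4⟩ := hu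
  have hu1 : u.1 ∈ tan D.Q z.1 :=
    ⟨fun t => (γ t).1, contDiff_fst.comp g1, fun t => (Λ.sub _ (g2 t)).1, by simp only [g3],
      hd_fst g4⟩
  -- division
  have c1 : ContDiff ℝ ∞ fun t => D.g (γ t).1 := D.hg.comp (contDiff_fst.comp g1)
  have c2 : ContDiff ℝ ∞ fun t => (γ t).2 := contDiff_snd.comp g1
  obtain ⟨G, G1, G2, G3⟩ := exists_div c1 (by simp only [g3]; exact D.g_zero hq hf2)
  obtain ⟨Y, Y1, Y2, Y3⟩ := exists_div c2 (by simp only [g3]; exact h0)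
  have hG0 : G 0 = D.A z.1 u.1 := by
    rw [G3]
    have e1 : HasDerivAt (fun t => D.g (γ t).1) (fderiv ℝ D.g z.1 u.1) 0 :=
      hd_comp D.hg (hd_fst g4) (by rw [g3])
    rw [e1.deriv]
    exact D.dg_focal hq hf2 hu1
  have hY0 : Y 0 = u.2 := by
    rw [Y3]
    exact (hd_snd g4).deriv
  obtain ⟨a, b, hab⟩ : ∃ a b : ℝ, a • G 0 + b • Y 0 ≠ 0 := by
    rcases hu2 with h | h
    · exact ⟨1, 0, by rw [hG0]; simpa using h⟩
    · exact ⟨0, 1, by rw [hY0]; simpa using h⟩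
  set N : ℝ → E := fun t => a • G t + b • Y t with hN
  have hNs : ContDiff ℝ ∞ N := (G1.const_smul a).add (Y1.const_smul b)
  have hN0 : N 0 ≠ 0 := hab
  set V : ℝ → E := fun t => ‖N t‖⁻¹ • N t with hV
  set O : Set ℝ := {t | N t ≠ 0} with hO
  have hOo : IsOpen O := isOpen_ne_fun hNs.continuous continuous_const
  have h0O : (0 : ℝ) ∈ O := hN0
  have hVs : ContDiffOn ℝ ∞ V O := by
    intro t ht
    exact (((hNs.contDiffAt.norm ℝ ht).inv (norm_ne_zero_iff.2 ht)).smul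
      hNs.contDiffAt).contDiffWithinAt
  -- the normal direction
  have key : ∀ t ≠ 0, t ∈ O → ∃ θ τ : ℝ, D.NV (γ t).1 (V t) θ ∧ (γ t).2 = τ • V t := by
    intro t ht htO
    obtain ⟨v, θ, τ, h1, h2⟩ := Λ.nv (g2 t)
    have e1 : G t = -((Real.sin θ / t) • v) := by
      have e : t • G t = -(Real.sin θ • v) := by rw [← G2 t, h1.hg]
      calc G t = t⁻¹ • (t • G t) := by rw [smul_smul, inv_mul_cancel₀ ht, one_smul]
        _ = -((Real.sin θ / t) • v) := by rw [e, smul_neg, smul_smul, div_eq_inv_mul]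
    have e2 : Y t = (τ / t) • v := by
      have e : t • Y t = τ • v := by rw [← Y2 t, h2]
      calc Y t = t⁻¹ • (t • Y t) := by rw [smul_smul, inv_mul_cancel₀ ht, one_smul]
        _ = (τ / t) • v := by rw [e, smul_smul, div_eq_inv_mul]
    have e3 : N t = (b * (τ / t) - a * (Real.sin θ / t)) • v := by
      simp only [hN]
      rw [e1, e2]
      module
    set κ := b * (τ / t) - a * (Real.sin θ / t) with hκ
    have hκ0 : κ ≠ 0 := by
      intro h
      apply htO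
      rw [e3, h, zero_smul]
    rcases lt_or_gt_of_ne hκ0 with hk | hk
    · have hVt : V t = -v := by
        simp only [hV]
        rw [e3, norm_smul, h1.norm, mul_one, Real.norm_of_nonpos hk.le, smul_smul]
        rw [show (-κ)⁻¹ * κ = -1 by field_simp, neg_smul, one_smul]
      rw [hVt]
      exact ⟨-θ, -τ, h1.neg, by rw [h2]; simp⟩
    · have hVt : V t = v := by
        simp only [hV]
        rw [e3, norm_smul, h1.norm, mul_one, Real.norm_of_nonneg hk.le, smul_smul,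
          inv_mul_cancel₀ hk.ne', one_smul]
      rw [hVt]
      exact ⟨θ, τ, h1, h2⟩
  -- the curve
  set S : ℝ → ℝ := fun t => -(Real.cos s₀ * ⟪D.g (γ t).1, V t⟫) with hS
  have hSs : ContDiffOn ℝ ∞ S O := (contDiffOn_const.mul (c1.contDiffOn.inner ℝ hVs)).neg
  have hS0 : S 0 = 0 := by
    simp only [hS, g3]
    rw [D.g_zero hq hf2, inner_zero_left, mul_zero, neg_zero]
  set η₀ : ℝ → ℝ × ℝ := fun t => (s₀ + Real.arcsin (S t), ⟪(γ t).2, V t⟫) with hη₀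
  have hη0 : ∃ W ∈ 𝓝 (0 : ℝ), ContDiffOn ℝ ∞ η₀ W := by
    refine ⟨O ∩ S ⁻¹' (Ioo (-1) 1), ?_, ?_⟩
    · refine (hSs.continuousOn.isOpen_inter_preimage hOo isOpen_Ioo).mem_nhds ⟨h0O, ?_⟩
      change S 0 ∈ Ioo (-1 : ℝ) 1
      rw [hS0]
      constructor <;> norm_num
    · intro t ht
      have k1 : ContDiffAt ℝ ∞ S t := hSs.contDiffAt (hOo.mem_nhds ht.1)
      have k2 : ContDiffAt ℝ ∞ (fun t => Real.arcsin (S t)) t :=
        ContDiffAt.comp (g := Real.arcsin) t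
          (Real.contDiffAt_arcsin (ne_of_gt ht.2.1) (ne_of_lt ht.2.2)) k1
      exact ((contDiffAt_const.add k2).prodMk (c2.contDiffAt.inner ℝ
        (hVs.contDiffAt (hOo.mem_nhds ht.1)))).contDiffWithinAt
  obtain ⟨W, hW, hWs⟩ := hη0
  obtain ⟨η, η1, η2⟩ := exists_germ_ext hW hWs
  have hV0 : ContinuousAt V 0 := hVs.continuousOn.continuousAt (hOo.mem_nhds h0O)
  have hVd : DifferentiableAt ℝ V 0 :=
    (hVs.contDiffAt (hOo.mem_nhds h0O)).differentiableAt (by simp)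
  have dG : HasDerivAt (fun t => ⟪D.g (γ t).1, V t⟫) ⟪G 0, V 0⟫ 0 := by
    have e1 : HasDerivAt (fun t => D.g (γ t).1) (G 0) 0 := by
      rw [G3]
      exact (c1.differentiable (by simp) 0).hasDerivAt
    have e2 := e1.inner ℝ hVd.hasDerivAt
    simp only [g3] at e2
    rw [D.g_zero hq hf2, inner_zero_left, zero_add] at e2
    exact e2
  have dY : HasDerivAt (fun t => ⟪(γ t).2, V t⟫) ⟪Y 0, V 0⟫ 0 := by
    have e1 : HasDerivAt (fun t => (γ t).2) (Y 0) 0 := by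
      rw [Y3]
      exact (c2.differentiable (by simp) 0).hasDerivAt
    have e2 := e1.inner ℝ hVd.hasDerivAt
    simp only [g3] at e2
    rw [h0, inner_zero_left, zero_add] at e2
    exact e2
  have dS : HasDerivAt S (-(Real.cos s₀ * ⟪G 0, V 0⟫)) 0 := (dG.const_mul (Real.cos s₀)).neg
  have dA : HasDerivAt (fun t => Real.arcsin (S t)) (-(Real.cos s₀ * ⟪G 0, V 0⟫)) 0 := by
    have k1 : HasDerivAt Real.arcsin (1 / √(1 - 0 ^ 2)) (S 0) := by
      rw [hS0]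
      exact Real.hasDerivAt_arcsin (by norm_num) (by norm_num)
    have k2 := k1.comp 0 dS
    have k3 : (1 / √(1 - 0 ^ 2) : ℝ) = 1 := by norm_num
    rw [k3, one_mul] at k2
    exact k2
  have dη : HasDerivAt η (-(Real.cos s₀ * ⟪G 0, V 0⟫), ⟪Y 0, V 0⟫) 0 :=
    ((dA.const_add s₀).prodMk dY).congr_of_eventuallyEq η2
  refine ⟨η, _, ?_, η1, ?_, dη, ?_⟩
  · intro hw
    have w1 : -(Real.cos s₀ * ⟪G 0, V 0⟫) = 0 := congrArg Prod.fst hw
    have w2 : ⟪Y 0, V 0⟫ = 0 := congrArg Prod.snd hw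
    have hc0 : Real.cos s₀ ≠ 0 := by
      intro h
      rw [h] at hc2
      norm_num at hc2
    have w3 : ⟪G 0, V 0⟫ = 0 := by
      rcases mul_eq_zero.1 (neg_eq_zero.1 w1) with h | h
      · exact absurd h hc0
      · exact h
    have w4 : ⟪N 0, V 0⟫ = 0 := by
      simp only [hN]
      rw [inner_add_left, real_inner_smul_left, real_inner_smul_left, w2, w3]
      ring
    have w5 : ⟪N 0, V 0⟫ = ‖N 0‖ := by
      simp only [hV]
      rw [real_inner_smul_right, real_inner_self_eq_norm_sq, sq, ← mul_assoc,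
        inv_mul_cancel₀ (norm_ne_zero_iff.2 hN0), one_mul]
    rw [w5, norm_eq_zero] at w4
    exact hN0 w4
  · rw [η2.self_of_nhds]
    simp only [hη₀, hS0, Real.arcsin_zero, add_zero, g3, h0, inner_zero_left]
  · have hfc : ∀ᶠ t in 𝓝 (0 : ℝ), 0 < D.f (γ t).1 * Real.cos s₀ := by
      have hc : Continuous fun t => D.f (γ t).1 * Real.cos s₀ :=
        (D.hf.continuous.comp (continuous_fst.comp g1.continuous)).mul continuous_const
      refine (isOpen_lt continuous_const hc).mem_nhds ?_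
      change 0 < D.f (γ 0).1 * Real.cos s₀
      rw [g3, hf, ← sq, hc2]
      exact one_pos
    filter_upwards [self_mem_nhdsWithin, mem_nhdsWithin_of_mem_nhds (hOo.mem_nhds h0O),
      mem_nhdsWithin_of_mem_nhds hfc, mem_nhdsWithin_of_mem_nhds η2] with t t1 t2 t3 t4
    obtain ⟨θ, τ, h1, h2⟩ := key t t1 t2
    have hgV : ⟪D.g (γ t).1, V t⟫ = -Real.sin θ := by
      rw [h1.hg, inner_neg_left, real_inner_smul_left, real_inner_self_eq_norm_sq, h1.norm]
      ring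
    have hSt : S t = Real.sin (θ - s₀) := by
      simp only [hS]
      rw [hgV, Real.sin_sub, hs]
      ring
    have hct : 0 < Real.cos (θ - s₀) := by
      rw [Real.cos_sub, hs, ← h1.hf]
      linarith
    obtain ⟨k, hk⟩ := TN.exists_shift hΦ hct
    have h3 : (η₀ t).1 = θ + k * (2 * Real.pi) := by
      simp only [hη₀]
      rw [hSt, hk]
    have h4 : D.NV (γ t).1 (V t) (η₀ t).1 := by
      rw [h3]
      exact h1.per k
    have h5 := TN.NV.mh hΦ h4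
    refine ⟨_, h5.1, ?_⟩
    rw [t4]
    have h6 : (η₀ t).2 = τ := by
      simp only [hη₀]
      rw [h2, real_inner_smul_left, real_inner_self_eq_norm_sq, h1.norm]
      ring
    have h7 : D.Psi Φ ((Φ (Real.pi / 2 - (η₀ t).1) ((γ t).1, V t)).1, η₀ t) = γ t := by
      unfold TN.Psi
      simp only
      rw [h5.2, h6, ← h2]
    rw [h7]
    exact g2 t

/-- a smooth curve of parameters through a point which is not a cone point -/
theorem reg_curve {m : E} (hm : m ∈ D.M) {s τ : ℝ} (hκ : 0 < Real.sin s * Real.sin s + τ * τ)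
    (hz : D.Psi Φ (m, (s, τ)) ∈ Λ.L) : ∃ (η : ℝ → ℝ × ℝ) (w : ℝ × ℝ), w ≠ 0 ∧ ContDiff ℝ ∞ η ∧
      η 0 = (s, τ) ∧ HasDerivAt η w 0 ∧ ∀ ε, ∃ m ∈ D.M, D.Psi Φ (m, η ε) ∈ Λ.L := by
  have h0 : (0 : E) ∈ tan D.M m :=
    ⟨fun _ => m, contDiff_const, fun _ => hm, rfl, hasDerivAt_const _ _⟩
  by_cases hex : ∃ u ∈ tan Λ.L (D.Psi Φ (m, (s, τ))), ∀ w : E × (ℝ × ℝ), w.1 ∈ tan D.M m →
      fderiv ℝ (D.Psi Φ) (m, (s, τ)) w = u → w.2 ≠ 0
  · obtain ⟨u, hu, hw⟩ := hex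
    obtain ⟨w, ⟨x, x1, x2, x3, x4⟩, w2, w3, w4⟩ := Λ.lift hΦ hm hκ hu
    refine ⟨fun t => (x t).2, w.2, hw w w2 w3, contDiff_snd.comp x1, by simp only [x3],
      hd_snd x4, fun ε => ⟨(x ε).1, (x2 ε).1, ?_⟩⟩
    rw [Prod.mk.eta]
    exact (x2 ε).2
  · exfalso
    push Not at hex
    have hξt : fderiv ℝ (D.Psi Φ) (m, (s, τ)) (0, (1, 0)) ∈
        tan (cotangent D.Q) (D.Psi Φ (m, (s, τ))) := by
      refine ⟨fun t => D.Psi Φ (m, (s + t, τ)), (TN.Psi_smooth hΦ).comp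
        (contDiff_const.prodMk ((contDiff_const.add contDiff_id).prodMk contDiff_const)),
        fun t => TN.Psi_cot hΦ hm _ _, by simp only [add_zero], ?_⟩
      have e1 : HasDerivAt (fun t : ℝ => ((m, (s + t, τ)) : E × (ℝ × ℝ))) (0, (1, 0)) 0 :=
        (hasDerivAt_const _ _).prodMk
          (((hasDerivAt_id (0 : ℝ)).const_add s).prodMk (hasDerivAt_const _ _))
      exact hd_comp (TN.Psi_smooth hΦ) e1 (by simp only [add_zero])
    have hξL : fderiv ℝ (D.Psi Φ) (m, (s, τ)) (0, (1, 0)) ∈ tan Λ.L (D.Psi Φ (m, (s, τ))) := by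
      refine Λ.maxi hz hξt fun u hu => ?_
      obtain ⟨⟨a', b', c'⟩, w1, w2, w3⟩ := hex u hu
      have hb : b' = 0 := congrArg Prod.fst w3
      have hc : c' = 0 := congrArg Prod.snd w3
      rw [← w2, TN.om_psi hΦ hm h0 w1, hb, hc]
      ring
    obtain ⟨⟨a', b', c'⟩, w1, w2, w3⟩ := hex _ hξL
    have hb : b' = 0 := congrArg Prod.fst w3
    have hc : c' = 0 := congrArg Prod.snd w3
    have e1 := TN.om_psi hΦ hm w1 h0 s τ b' c' 0 1
    rw [w2, TN.om_psi hΦ hm h0 h0, hb, hc] at e1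
    norm_num at e1

/-- the set of the parameters of the Lagrangian -/
def Gm (Φ : ℝ → E × E → E × E) : Set (ℝ × ℝ) := {p | ∃ m ∈ D.M, D.Psi Φ (m, p) ∈ Λ.L}

/-- **Saturation.** -/
theorem sat {p : ℝ × ℝ} (hp : p ∈ Λ.Gm Φ) {m : E} (hm : m ∈ D.M) : D.Psi Φ (m, p) ∈ Λ.L := by
  obtain ⟨s, τ⟩ := p
  obtain ⟨m', hm', hz⟩ := hp
  by_cases hκ : 0 < Real.sin s * Real.sin s + τ * τ
  · exact Λ.sat_reg hΦ hm' hm hκ hz
  · have h1 : Real.sin s = 0 := by
      have := mul_self_nonneg (Real.sin s)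
      have := mul_self_nonneg τ
      nlinarith [not_lt.1 hκ]
    have h2 : τ = 0 := by
      have := mul_self_nonneg (Real.sin s)
      have := mul_self_nonneg τ
      nlinarith [not_lt.1 hκ]
    subst h2
    have hn := TN.nv_sg hΦ hm' s
    obtain ⟨η, w, hw, η1, η2, η3, η4⟩ := Λ.cone_curve hΦ hz (by
      unfold TN.Psi
      simp) h1 hn.hf
    have hne : ∀ᶠ ε in 𝓝[≠] (0 : ℝ), η ε ≠ (s, 0) := by
      have := η3.eventually_ne hw (c := (s, 0))
      exact this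
    have hnear : ∀ᶠ ε in 𝓝[≠] (0 : ℝ), |(η ε).1 - s| < Real.pi := by
      refine mem_nhdsWithin_of_mem_nhds ?_
      have hc : Continuous fun ε => |(η ε).1 - s| :=
        ((continuous_fst.comp η1.continuous).sub continuous_const).abs
      refine (isOpen_lt hc continuous_const).mem_nhds ?_
      change |(η 0).1 - s| < Real.pi
      rw [η2, sub_self, abs_zero]
      exact Real.pi_pos
    have hreg : ∀ᶠ ε in 𝓝[≠] (0 : ℝ), D.Psi Φ (m, η ε) ∈ Λ.L := by
      filter_upwards [η4, hne, hnear] with ε e1 e2 e3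
      obtain ⟨m₁, hm₁, hz₁⟩ := e1
      refine Λ.sat_reg (s := (η ε).1) (τ := (η ε).2) hΦ hm₁ hm ?_ hz₁
      by_contra hcon
      have k1 : Real.sin (η ε).1 = 0 := by
        have := mul_self_nonneg (Real.sin (η ε).1)
        have := mul_self_nonneg (η ε).2
        nlinarith [not_lt.1 hcon]
      have k2 : (η ε).2 = 0 := by
        have := mul_self_nonneg (Real.sin (η ε).1)
        have := mul_self_nonneg (η ε).2
        nlinarith [not_lt.1 hcon]
      apply e2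
      refine Prod.ext ?_ k2
      have k3 : Real.sin ((η ε).1 - s) = 0 := by rw [Real.sin_sub, k1, h1]; ring
      obtain ⟨l1, l2⟩ := abs_lt.1 e3
      have := (Real.sin_eq_zero_iff_of_lt_of_lt l1 l2).1 k3
      linarith
    have hlim : Tendsto (fun ε => D.Psi Φ (m, η ε)) (𝓝[≠] (0 : ℝ)) (𝓝 (D.Psi Φ (m, (s, 0)))) := by
      have hc : Continuous fun ε => D.Psi Φ (m, η ε) :=
        (TN.Psi_smooth hΦ).continuous.comp (continuous_const.prodMk η1.continuous)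
      have := (hc.tendsto 0).mono_left (nhdsWithin_le_nhds (s := {(0 : ℝ)}ᶜ))
      rwa [η2] at this
    exact Λ.cL.isClosed.mem_of_tendsto hlim hreg

theorem sat_iff {p : ℝ × ℝ} {m : E} (hm : m ∈ D.M) : p ∈ Λ.Gm Φ ↔ D.Psi Φ (m, p) ∈ Λ.L :=
  ⟨fun h => Λ.sat hΦ h hm, fun h => ⟨m, hm, h⟩⟩

theorem Gm_closed : IsClosed (Λ.Gm Φ) := by
  obtain ⟨m, hm1, hm2⟩ := Λ.hM
  have hm : m ∈ D.M := ⟨hm1, hm2⟩
  have : Λ.Gm Φ = (fun p : ℝ × ℝ => D.Psi Φ (m, p)) ⁻¹' Λ.L :=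
    Set.ext fun p => Λ.sat_iff hΦ hm
  rw [this]
  exact Λ.cL.isClosed.preimage ((TN.Psi_smooth hΦ).continuous.comp
    (continuous_const.prodMk continuous_id))

theorem Gm_tan {p : ℝ × ℝ} (hp : p ∈ Λ.Gm Φ) : ∃ w ≠ 0, w ∈ tan (Λ.Gm Φ) p := by
  obtain ⟨s, τ⟩ := p
  obtain ⟨m', hm', hz⟩ := hp
  by_cases hκ : 0 < Real.sin s * Real.sin s + τ * τ
  · obtain ⟨η, w, hw, η1, η2, η3, η4⟩ := Λ.reg_curve hΦ hm' hκ hz
    exact ⟨w, hw, η, η1, η4, η2, η3⟩
  · have h1 : Real.sin s = 0 := by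
      have := mul_self_nonneg (Real.sin s)
      have := mul_self_nonneg τ
      nlinarith [not_lt.1 hκ]
    have h2 : τ = 0 := by
      have := mul_self_nonneg (Real.sin s)
      have := mul_self_nonneg τ
      nlinarith [not_lt.1 hκ]
    subst h2
    have hn := TN.nv_sg hΦ hm' s
    obtain ⟨η, w, hw, η1, η2, η3, η4⟩ := Λ.cone_curve hΦ hz (by
      unfold TN.Psi
      simp) h1 hn.hf
    have hall : ∀ᶠ ε in 𝓝 (0 : ℝ), ∃ m ∈ D.M, D.Psi Φ (m, η ε) ∈ Λ.L := by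
      have := eventually_nhdsWithin_iff.1 η4
      filter_upwards [this] with ε hε
      by_cases h : ε = 0
      · rw [h, η2]
        exact ⟨m', hm', hz⟩
      · exact hε h
    exact ⟨w, hw, tan_of_local hall η1.contDiffOn (fun t ht => ht) η2 η3⟩

theorem Gm_per {s τ : ℝ} (h : (s, τ) ∈ Λ.Gm Φ) (k : ℤ) : (s + k * (2 * Real.pi), τ) ∈ Λ.Gm Φ := by
  obtain ⟨m, hm1, hm2⟩ := Λ.hM
  have hm : m ∈ D.M := ⟨hm1, hm2⟩
  obtain ⟨m', hm', h1⟩ := TN.Psi_per hΦ hm k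
  refine ⟨m, hm, ?_⟩
  rw [h1]
  exact Λ.sat hΦ h hm'

theorem Gm_neg {s τ : ℝ} (h : (s, τ) ∈ Λ.Gm Φ) : (-s, -τ) ∈ Λ.Gm Φ := by
  obtain ⟨m, hm1, hm2⟩ := Λ.hM
  have hm : m ∈ D.M := ⟨hm1, hm2⟩
  obtain ⟨m', hm', h1⟩ := TN.Psi_neg hΦ hm
  refine ⟨m, hm, ?_⟩
  rw [h1]
  exact Λ.sat hΦ h hm'

end LG

end Vale.Agent.P220.H446
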