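import Vale.Agent.P220.H446.Mt

/-!
# The dynamics in the plane
-/

open Set Filter Topology
open scoped ContDiff RealInnerProductSpace

set_option linter.unusedSectionVars false

namespace Vale.Agent.P220.H446

open Vale.Agent.P220.R2.H481 Vale.Agent.P220.R2
open H180 (Orth InPl Circ XF SS Refl Sph)

/-- **The planar dynamics is complete.** -/
theorem exists_kappa {K : ℝ × (ℝ × ℝ) → ℝ} (hK : ContDiff ℝ ∞ K)
    (hper : ∀ (t s τ : ℝ) (k : ℤ), K (t, (s + k * (2 * Real.pi), τ)) = K (t, (s, τ))) {R : ℝ}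
    (hsupp : ∀ t s τ : ℝ, R ≤ |τ| → K (t, (s, τ)) = 0) (p₀ : ℝ × ℝ) :
    ∃ κ : ℝ → ℝ × ℝ, κ 0 = p₀ ∧ ∀ t ∈ Icc (0 : ℝ) 1, HasDerivAt κ
      (fderiv ℝ (fun p => K (t, p)) (κ t) (0, 1), -fderiv ℝ (fun p => K (t, p)) (κ t) (1, 0)) t := by
  obtain ⟨χ, hχ, hχc, hχ1⟩ := H57.exists_cutoff (F := ℝ) 1
  have hdK : ContDiff ℝ ∞ (fderiv ℝ K) := hK.fderiv_right (m := ∞) (by simp)
  set G : ℝ × (ℝ × ℝ) → (ℝ × (ℝ × ℝ) →L[ℝ] ℝ) := fun x => χ x.1 • fderiv ℝ K x with hG
  have hGs : ContDiff ℝ ∞ G := (hχ.comp contDiff_fst).smul hdK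
  have hbound : ∃ C, ∀ x, ‖G x‖ ≤ C := by
    have hS : IsCompact (tsupport χ ×ˢ (Icc (0 : ℝ) (2 * Real.pi) ×ˢ Icc (-R) R)) :=
      IsCompact.prod hχc (isCompact_Icc.prod isCompact_Icc)
    obtain ⟨C, hC⟩ := hS.exists_bound_of_continuousOn hGs.continuous.continuousOn
    refine ⟨max C 0, ?_⟩
    rintro ⟨t, s, τ⟩
    by_cases ht : t ∈ tsupport χ
    · by_cases hτ : |τ| ≤ R
      · set k := toIcoDiv Real.two_pi_pos 0 s with hk
        have e1 := toIcoMod_add_toIcoDiv_zsmul Real.two_pi_pos 0 s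
        have e2 := toIcoMod_mem_Ico Real.two_pi_pos 0 s
        set s' := toIcoMod Real.two_pi_pos 0 s with hs'
        rw [zsmul_eq_mul] at e1
        have e3 : fderiv ℝ K (t, (s, τ)) = fderiv ℝ K (t, (s', τ)) := by
          have e4 : (fun x : ℝ × (ℝ × ℝ) => K (x + (0, ((k : ℝ) * (2 * Real.pi), 0)))) = K := by
            funext x
            obtain ⟨a, b, c⟩ := x
            simp only [Prod.mk_add_mk, add_zero]
            exact hper a b c k
          have e5 := fderiv_comp_add_right (𝕜 := ℝ) (f := K) (x := (t, (s', τ)))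
            ((0, ((k : ℝ) * (2 * Real.pi), 0)) : ℝ × (ℝ × ℝ))
          rw [e4] at e5
          rw [e5]
          simp only [Prod.mk_add_mk, add_zero]
          rw [← hk] at e1
          rw [e1]
        have e6 : G (t, (s, τ)) = G (t, (s', τ)) := by
          simp only [hG]
          rw [e3]
        rw [e6]
        refine (hC _ ⟨ht, ⟨e2.1, ?_⟩, abs_le.1 hτ⟩).trans (le_max_left _ _)
        have := e2.2
        linarith
      · have hopen : IsOpen {x : ℝ × (ℝ × ℝ) | R < |x.2.2|} :=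
          isOpen_lt continuous_const (continuous_snd.comp continuous_snd).abs
        have e1 : K =ᶠ[𝓝 (t, (s, τ))] fun _ => 0 := by
          filter_upwards [hopen.mem_nhds (not_le.1 hτ)] with x hx
          exact hsupp _ _ _ (le_of_lt hx)
        have e2 : fderiv ℝ K (t, (s, τ)) = 0 := by
          rw [e1.fderiv_eq]
          exact fderiv_const_apply _
        simp only [hG]
        rw [e2, smul_zero, norm_zero]
        exact le_max_right _ _
    · have e1 : χ t = 0 := image_eq_zero_of_notMem_tsupport ht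
      simp only [hG]
      rw [e1, zero_smul, norm_zero]
      exact le_max_right _ _
  obtain ⟨C, hC⟩ := hbound
  set Y : ℝ × (ℝ × ℝ) → ℝ × (ℝ × ℝ) := fun x => (1, (G x (0, (0, 1)), -(G x (0, (1, 0))))) with hY
  have hYs : ContDiff ℝ ∞ Y := contDiff_const.prodMk
    ((hGs.clm_apply contDiff_const).prodMk (hGs.clm_apply contDiff_const).neg)
  have hYb : ∀ x, ‖Y x‖ ≤ max 1 C := by
    intro x
    have n1 : ‖((0 : ℝ), ((0 : ℝ), (1 : ℝ)))‖ = 1 := by simp [Prod.norm_def]
    have n2 : ‖((0 : ℝ), ((1 : ℝ), (0 : ℝ)))‖ = 1 := by simp [Prod.norm_def]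
    have k1 : ‖G x (0, (0, 1))‖ ≤ C := by
      have := (G x).le_opNorm (0, (0, 1))
      rw [n1, mul_one] at this
      exact this.trans (hC x)
    have k2 : ‖G x (0, (1, 0))‖ ≤ C := by
      have := (G x).le_opNorm (0, (1, 0))
      rw [n2, mul_one] at this
      exact this.trans (hC x)
    simp only [hY]
    rw [Prod.norm_def, Prod.norm_def]
    simp only
    rw [norm_neg, norm_one]
    exact max_le_max le_rfl (max_le k1 k2)
  obtain ⟨Ψ, hΨ⟩ := H57.exists_flow_bounded hYs hYb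
  set z : ℝ → ℝ × (ℝ × ℝ) := fun t => Ψ t (0, p₀) with hz
  have hzd : ∀ t, HasDerivAt z (Y (z t)) t := fun t => hΨ.deriv t _
  have hz1 : ∀ t, (z t).1 = t := by
    intro t
    have h1 : ∀ t, HasDerivAt (fun t => (z t).1 - t) 0 t := by
      intro t
      have h0 : HasDerivAt (fun t => (z t).1) 1 t := hd_fst (hzd t)
      have := h0.sub (hasDerivAt_id t)
      rw [sub_self] at this
      exact this
    have h2 := is_const_of_deriv_eq_zero (fun t => (h1 t).differentiableAt)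
      (fun t => (h1 t).deriv) t 0
    have h3 : (z 0).1 = 0 := by simp only [hz, hΨ.zero]
    rw [h3] at h2
    linarith
  refine ⟨fun t => (z t).2, by simp only [hz, hΨ.zero], fun t ht => ?_⟩
  have h1 := hd_snd (hzd t)
  have h2 : χ t = 1 := hχ1 t (by
    rw [Real.norm_eq_abs, abs_le]
    constructor <;> linarith [ht.1, ht.2])
  have h3 : ∀ v, fderiv ℝ (fun p => K (t, p)) (z t).2 v = G (z t) (0, v) := by
    intro v
    have e1 : HasFDerivAt K (fderiv ℝ K (t, (z t).2)) (t, (z t).2) :=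
      (hK.differentiable (by simp) _).hasFDerivAt
    have e2 := (e1.comp (z t).2 (hasFDerivAt_prodMk_right t (z t).2)).fderiv
    have e3 : fderiv ℝ (fun p => K (t, p)) (z t).2 = (fderiv ℝ K (t, (z t).2)).comp
      (ContinuousLinearMap.inr ℝ ℝ (ℝ × ℝ)) := e2
    rw [e3]
    simp only [hG]
    have e4 : z t = (t, (z t).2) := Prod.ext (hz1 t) rfl
    rw [hz1 t, h2, one_smul, ← e4]
    rfl
  rw [h3, h3]
  exact h1

variable {V : Type} [NormedAddCommGroup V] [InnerProductSpace ℝ V] [FiniteDimensional ℝ V]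

/-- the dynamics in polar coordinates -/
theorem P0_flow {e u : V} (h : Orth e u) {P : V → V →L[ℝ] V} (hP : IsProj (Circ e u) P)
    {H : ℝ × (V × V) → ℝ} (hH : ContDiff ℝ ∞ H) {φ : ℝ × (V × V) → V × V}
    (hφ : HFlow (Circ e u) P H φ) {κ : ℝ → ℝ × ℝ}
    (hκ : ∀ t ∈ Icc (0 : ℝ) 1, HasDerivAt κ (fderiv ℝ (fun p => H (t, P0 e u p)) (κ t) (0, 1),
      -fderiv ℝ (fun p => H (t, P0 e u p)) (κ t) (1, 0)) t) :
    ∀ t ∈ Icc (0 : ℝ) 1, P0 e u (κ t) = φ (t, P0 e u (κ 0)) := by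
  refine hflow_uniq hP hH hφ (γ := fun t => P0 e u (κ t)) fun t ht => ?_
  set s := (κ t).1 with hs1
  set τ := (κ t).2 with hτ1
  have hκt : κ t = (s, τ) := rfl
  set b := fderiv ℝ (fun p => H (t, P0 e u p)) (κ t) (0, 1) with hb
  set c := -fderiv ℝ (fun p => H (t, P0 e u p)) (κ t) (1, 0) with hc
  have hHt : ContDiff ℝ ∞ fun y : V × V => H (t, y) := hH.comp (contDiff_const.prodMk contDiff_id)
  refine ⟨P0_cot h _, fderiv ℝ (P0 e u) (κ t) (b, c),
    (hd_comp (P0_smooth e u) (hκ t ht) rfl).hasDerivWithinAt, ?_, ?_⟩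
  · refine ⟨fun r => P0 e u (s + r * b, τ + r * c), (P0_smooth e u).comp
      ((contDiff_const.add (contDiff_id.mul contDiff_const)).prodMk
        (contDiff_const.add (contDiff_id.mul contDiff_const))),
      fun r => P0_cot h _, by simp [hκt], ?_⟩
    have k10 : HasDerivAt (fun t : ℝ => ((s + t * b, τ + t * c) : ℝ × ℝ)) (b, c) 0 := by
      refine HasDerivAt.prodMk ?_ ?_
      · simpa using ((hasDerivAt_id (0 : ℝ)).mul_const b).const_add s
      · simpa using ((hasDerivAt_id (0 : ℝ)).mul_const c).const_add τ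
    exact hd_comp (P0_smooth e u) k10 (by simp [hκt])
  · intro w hw
    obtain ⟨a, rfl⟩ := tan_P0 h (s := s) (τ := τ) hw
    beta_reduce
    rw [hκt, om_P0 h]
    have e1 : fderiv ℝ (fun y => H (t, y)) (P0 e u (s, τ)) (fderiv ℝ (P0 e u) (s, τ) a) =
        fderiv ℝ (fun p => H (t, P0 e u p)) (κ t) a := by
      have d1 : HasFDerivAt (fun y => H (t, y)) (fderiv ℝ (fun y => H (t, y)) (P0 e u (s, τ)))
          (P0 e u (s, τ)) := (hHt.differentiable (by simp) _).hasFDerivAt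
      have d2 : HasFDerivAt (P0 e u) (fderiv ℝ (P0 e u) (s, τ)) (s, τ) :=
        ((P0_smooth e u).differentiable (by simp) _).hasFDerivAt
      have d3 := (d1.comp (s, τ) d2).fderiv
      have d4 : fderiv ℝ (fun p => H (t, P0 e u p)) (s, τ) =
        (fderiv ℝ (fun y => H (t, y)) (P0 e u (s, τ))).comp (fderiv ℝ (P0 e u) (s, τ)) := d3
      rw [hκt, d4]
      rfl
    rw [e1]
    have e2 : fderiv ℝ (fun p => H (t, P0 e u p)) (κ t) a = -(c * a.1) + b * a.2 := by
      have : a = a.1 • ((1 : ℝ), (0 : ℝ)) + a.2 • ((0 : ℝ), (1 : ℝ)) := by ext <;> simp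
      conv_lhs => rw [this]
      rw [map_add, map_smul, map_smul, hb, hc, smul_eq_mul, smul_eq_mul]
      ring
    rw [e2]
    ring

end Vale.Agent.P220.H446
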