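import Vale.Agent.P220.H446.Had
import Vale.Agent.P264.H403.Seeley

/-!
# Even smooth functions are smooth functions of the square, with parameters
-/

open Set Filter Topology MeasureTheory
open scoped ContDiff

set_option linter.unusedSectionVars false

namespace Vale.Agent.P220.H446

variable {W Y : Type} [NormedAddCommGroup W] [NormedSpace ℝ W] [FiniteDimensional ℝ W]
  [NormedAddCommGroup Y] [NormedSpace ℝ Y] [FiniteDimensional ℝ Y]

/-- **Division by a coordinate, with parameters.** -/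
theorem exists_div_par {F : W × ℝ → Y} (hF : ContDiff ℝ ∞ F) (h0 : ∀ w, F (w, 0) = 0) :
    ∃ G : W × ℝ → Y, ContDiff ℝ ∞ G ∧ ∀ w x, F (w, x) = x • G (w, x) := by
  set dF : W × ℝ → Y := fun p => fderiv ℝ F p (0, 1) with hdF
  have hd : ContDiff ℝ ∞ dF := (hF.fderiv_right (m := ∞) (by simp)).clm_apply contDiff_const
  refine ⟨fun p => ∫ g : Icc (0 : ℝ) 1, dF (p.1, g * p.2), ?_, ?_⟩
  · have h1 : ContDiff ℝ ∞ fun p : ℝ × (W × ℝ) => dF (p.2.1, p.1 * p.2.2) :=
      hd.comp ((contDiff_fst.comp contDiff_snd).prodMk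
        (contDiff_fst.mul (contDiff_snd.comp contDiff_snd)))
    exact Vale.Agent.P220.R2.H180.T.contDiff_par (Γ := Icc (0 : ℝ) 1) volume
      (a := fun g => (g : ℝ)) continuous_subtype_val h1
  · intro w t
    beta_reduce
    rw [integral_I (fun x => dF (w, x * t))]
    have h2 : ∀ x ∈ uIcc (0 : ℝ) 1, HasDerivAt (fun x => F (w, x * t)) (t • dF (w, x * t)) x := by
      intro x _
      have e1 : HasDerivAt (fun x : ℝ => ((w, x * t) : W × ℝ)) (0, t) x := by
        refine (hasDerivAt_const x w).prodMk ?_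
        simpa using (hasDerivAt_id x).mul_const t
      have e2 : HasFDerivAt F (fderiv ℝ F (w, x * t)) (w, x * t) :=
        (hF.differentiable (by simp) _).hasFDerivAt
      have e3 := e2.comp_hasDerivAt x e1
      have e4 : fderiv ℝ F (w, x * t) (0, t) = t • dF (w, x * t) := by
        have : ((0 : W), t) = t • ((0 : W), (1 : ℝ)) := by simp
        rw [this, map_smul]
      rwa [e4] at e3
    have h3 : IntervalIntegrable (fun x => t • dF (w, x * t)) volume 0 1 := by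
      refine Continuous.intervalIntegrable ?_ _ _
      have := hd.continuous
      fun_prop
    have h4 := intervalIntegral.integral_eq_sub_of_hasDerivAt h2 h3
    rw [intervalIntegral.integral_smul, zero_mul, one_mul, h0, sub_zero] at h4
    exact h4.symm

/-- the derivative of an even function, as a function of the square -/
theorem exists_der {F : W × ℝ → Y} (hF : ContDiff ℝ ∞ F) (he : ∀ w x, F (w, -x) = F (w, x)) :
    ∃ F' : W × ℝ → (W × ℝ →L[ℝ] Y), ContDiff ℝ ∞ F' ∧ (∀ w x, F' (w, -x) = F' (w, x)) ∧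
      ∀ p : W × ℝ, 0 ≤ p.2 → HasFDerivWithinAt (fun p : W × ℝ => F (p.1, √p.2))
        (F' (p.1, √p.2)) {p | 0 ≤ p.2} p := by
  have hR : ∀ w x, ∀ v : W, ∀ y : ℝ,
      fderiv ℝ F (w, -x) (v, -y) = fderiv ℝ F (w, x) (v, y) := by
    intro w x v y
    have e0 : HasDerivAt (fun t : ℝ => ((w + t • v, x + t * y) : W × ℝ)) (v, y) 0 := by
      refine HasDerivAt.prodMk ?_ ?_
      · simpa using ((hasDerivAt_id (0 : ℝ)).smul_const v).const_add w
      · simpa using ((hasDerivAt_id (0 : ℝ)).mul_const y).const_add x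
    have e0' : HasDerivAt (fun t : ℝ => ((w + t • v, -(x + t * y)) : W × ℝ)) (v, -y) 0 := by
      refine HasDerivAt.prodMk ?_ ?_
      · simpa using ((hasDerivAt_id (0 : ℝ)).smul_const v).const_add w
      · have k : HasDerivAt (fun t : ℝ => x + t * y) y 0 := by
          simpa using ((hasDerivAt_id (0 : ℝ)).mul_const y).const_add x
        exact k.neg
    have d1 : HasFDerivAt F (fderiv ℝ F (w, x)) (w + (0 : ℝ) • v, x + 0 * y) := by
      rw [zero_smul, add_zero, zero_mul, add_zero]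
      exact (hF.differentiable (by simp) _).hasFDerivAt
    have d2 : HasFDerivAt F (fderiv ℝ F (w, -x)) (w + (0 : ℝ) • v, -(x + 0 * y)) := by
      rw [zero_smul, add_zero, zero_mul, add_zero]
      exact (hF.differentiable (by simp) _).hasFDerivAt
    have e1 := HasFDerivAt.comp_hasDerivAt
      (f := fun t : ℝ => ((w + t • v, x + t * y) : W × ℝ)) 0 d1 e0
    have e2 := HasFDerivAt.comp_hasDerivAt
      (f := fun t : ℝ => ((w + t • v, -(x + t * y)) : W × ℝ)) 0 d2 e0'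
    have e3 : (F ∘ fun t : ℝ => ((w + t • v, -(x + t * y)) : W × ℝ)) =
        F ∘ fun t : ℝ => ((w + t • v, x + t * y) : W × ℝ) := funext fun t => he _ _
    rw [e3] at e2
    exact e2.unique e1
  set dF : W × ℝ → Y := fun p => fderiv ℝ F p (0, 1) with hdF
  have hd : ContDiff ℝ ∞ dF := (hF.fderiv_right (m := ∞) (by simp)).clm_apply contDiff_const
  have hodd : ∀ w x, dF (w, -x) = -dF (w, x) := by
    intro w x
    have := hR w x 0 (-1)
    rw [neg_neg] at this
    have h1 : ((0 : W), (-1 : ℝ)) = -((0 : W), (1 : ℝ)) := by simp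
    rw [h1, map_neg] at this
    exact this
  have h00 : ∀ w, dF (w, 0) = 0 := by
    intro w
    have := hodd w 0
    rw [neg_zero] at this
    have h2 : (2 : ℝ) • dF (w, 0) = 0 := by
      rw [two_smul]
      nth_rewrite 1 [this]
      exact neg_add_cancel _
    exact (smul_eq_zero.1 h2).resolve_left two_ne_zero
  obtain ⟨G₀, hG₀, hG₁⟩ := exists_div_par hd h00
  have hng : ContDiff ℝ ∞ fun p : W × ℝ => ((p.1, -p.2) : W × ℝ) :=
    contDiff_fst.prodMk contDiff_snd.neg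
  set G : W × ℝ → Y := fun p => (1 / 2 : ℝ) • (G₀ p + G₀ (p.1, -p.2)) with hG
  have hGs : ContDiff ℝ ∞ G := (hG₀.add (hG₀.comp hng)).const_smul _
  have hGe : ∀ w x, G (w, -x) = G (w, x) := by
    intro w x
    simp only [hG, neg_neg]
    rw [add_comm]
  have hGm : ∀ w x, dF (w, x) = x • G (w, x) := by
    intro w x
    simp only [hG]
    have h1 := hG₁ w x
    have h2 := hG₁ w (-x)
    rw [hodd, neg_smul, neg_inj] at h2
    calc dF (w, x) = (1 / 2 : ℝ) • (dF (w, x) + dF (w, x)) := by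
          rw [← two_smul ℝ (dF (w, x)), smul_smul]
          norm_num
      _ = (1 / 2 : ℝ) • (x • G₀ (w, x) + x • G₀ (w, -x)) := by
          rw [← h1, ← h2]
      _ = x • (1 / 2 : ℝ) • (G₀ (w, x) + G₀ (w, -x)) := by
          rw [← smul_add, smul_comm]
  set F' : W × ℝ → (W × ℝ →L[ℝ] Y) := fun p =>
    (fderiv ℝ F p).comp ((ContinuousLinearMap.inl ℝ W ℝ).comp (ContinuousLinearMap.fst ℝ W ℝ)) +
      (1 / 2 : ℝ) • (ContinuousLinearMap.snd ℝ W ℝ).smulRight (G p) with hF'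
  have hF's : ContDiff ℝ ∞ F' := by
    have h1 : ContDiff ℝ ∞ fun p => (fderiv ℝ F p).comp
        ((ContinuousLinearMap.inl ℝ W ℝ).comp (ContinuousLinearMap.fst ℝ W ℝ)) :=
      (hF.fderiv_right (m := ∞) (by simp)).clm_comp contDiff_const
    have h2 : ContDiff ℝ ∞ fun p => (ContinuousLinearMap.snd ℝ W ℝ).smulRight (G p) :=
      ContDiff.smulRight contDiff_const hGs
    exact h1.add (h2.const_smul _)
  have hF'a : ∀ p : W × ℝ, ∀ v : W, ∀ y : ℝ, F' p (v, y) =
      fderiv ℝ F p (v, 0) + (1 / 2 : ℝ) • (y • G p) := fun p v y => rfl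
  refine ⟨F', hF's, ?_, ?_⟩
  · intro w x
    ext v
    · have := hR w x v 0
      rw [neg_zero] at this
      simp only [ContinuousLinearMap.coe_comp, Function.comp_apply,
        ContinuousLinearMap.inl_apply, hF'a, this, zero_smul]
    · simp only [ContinuousLinearMap.coe_comp, Function.comp_apply,
        ContinuousLinearMap.inr_apply, hF'a, hGe]
      have h1 : ((0 : W), (0 : ℝ)) = 0 := rfl
      rw [h1, map_zero, map_zero]
  -- the derivative in the interior
  have hint : ∀ p : W × ℝ, 0 < p.2 →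
      HasFDerivAt (fun p : W × ℝ => F (p.1, √p.2)) (F' (p.1, √p.2)) p := by
    intro p hp
    have hsq : 0 < √p.2 := Real.sqrt_pos.2 hp
    have e1 : HasFDerivAt (fun p : W × ℝ => √p.2)
        ((1 / (2 * √p.2)) • ContinuousLinearMap.snd ℝ W ℝ) p :=
      (Real.hasDerivAt_sqrt hp.ne').comp_hasFDerivAt p hasFDerivAt_snd
    have e2 : HasFDerivAt (fun p : W × ℝ => ((p.1, √p.2) : W × ℝ))
        ((ContinuousLinearMap.fst ℝ W ℝ).prod
          ((1 / (2 * √p.2)) • ContinuousLinearMap.snd ℝ W ℝ)) p := hasFDerivAt_fst.prodMk e1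
    have e3 : HasFDerivAt F (fderiv ℝ F (p.1, √p.2)) (p.1, √p.2) :=
      (hF.differentiable (by simp) _).hasFDerivAt
    have e4 : HasFDerivAt (fun p : W × ℝ => F (p.1, √p.2)) ((fderiv ℝ F (p.1, √p.2)).comp
        ((ContinuousLinearMap.fst ℝ W ℝ).prod
          ((1 / (2 * √p.2)) • ContinuousLinearMap.snd ℝ W ℝ))) p :=
      HasFDerivAt.comp (g := F) p e3 e2
    have e5 : (fderiv ℝ F (p.1, √p.2)).comp ((ContinuousLinearMap.fst ℝ W ℝ).prod
          ((1 / (2 * √p.2)) • ContinuousLinearMap.snd ℝ W ℝ)) = F' (p.1, √p.2) := by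
      refine ContinuousLinearMap.ext fun x => ?_
      obtain ⟨v, y⟩ := x
      rw [hF'a]
      change fderiv ℝ F (p.1, √p.2) (v, (1 / (2 * √p.2)) * y) = _
      have h1 : ((v, (1 / (2 * √p.2)) * y) : W × ℝ) =
          (v, 0) + ((1 / (2 * √p.2)) * y) • ((0 : W), (1 : ℝ)) := by simp
      rw [h1, map_add, map_smul]
      have h2 : fderiv ℝ F (p.1, √p.2) (0, 1) = √p.2 • G (p.1, √p.2) := hGm _ _
      have h3 : 1 / (2 * √p.2) * y * √p.2 = 1 / 2 * y := by field_simp
      rw [h2, smul_smul, h3, mul_smul]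
    rwa [e5] at e4
  have hcl : closure {p : W × ℝ | 0 < p.2} = {p | 0 ≤ p.2} := by
    have : {p : W × ℝ | 0 < p.2} = univ ×ˢ Ioi (0 : ℝ) := by ext p; simp
    rw [this, closure_prod_eq, closure_Ioi, closure_univ]
    ext p
    simp
  have hcont : Continuous fun p : W × ℝ => F (p.1, √p.2) :=
    hF.continuous.comp (continuous_fst.prodMk (Real.continuous_sqrt.comp continuous_snd))
  intro p hp
  rcases lt_or_eq_of_le hp with h | h
  · exact (hint p h).hasFDerivWithinAt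
  · have hopen : IsOpen {p : W × ℝ | 0 < p.2} := isOpen_lt continuous_const continuous_snd
    rw [← hcl]
    refine hasFDerivWithinAt_closure_of_tendsto_fderiv ?_ ?_ hopen
      (fun y _ => hcont.continuousWithinAt) ?_
    · exact fun q hq => (hint q hq).differentiableAt.differentiableWithinAt
    · exact (convex_Ioi (0 : ℝ)).is_linear_preimage (ContinuousLinearMap.snd ℝ W ℝ).isLinear
    · have hc2 : Continuous fun p : W × ℝ => F' (p.1, √p.2) :=
        hF's.continuous.comp (continuous_fst.prodMk (Real.continuous_sqrt.comp continuous_snd))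
      refine ((hc2.tendsto p).mono_left nhdsWithin_le_nhds).congr' ?_
      filter_upwards [self_mem_nhdsWithin] with q hq
      exact (hint q hq).fderiv.symm

theorem half_unique : UniqueDiffOn ℝ {p : W × ℝ | 0 ≤ p.2} :=
  P264.Seeley.rG3_unique (ContinuousLinearMap.snd ℝ W ℝ) (e := (0, 1)) rfl

theorem sqrt_smooth_nat (n : ℕ) : ∀ {Y : Type} [NormedAddCommGroup Y] [NormedSpace ℝ Y]
    [FiniteDimensional ℝ Y] {F : W × ℝ → Y}, ContDiff ℝ ∞ F → (∀ w x, F (w, -x) = F (w, x)) →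
      ContDiffOn ℝ n (fun p : W × ℝ => F (p.1, √p.2)) {p | 0 ≤ p.2} := by
  induction n with
  | zero =>
    intro Y _ _ _ F hF he
    rw [Nat.cast_zero, contDiffOn_zero]
    exact (hF.continuous.comp (continuous_fst.prodMk
      (Real.continuous_sqrt.comp continuous_snd))).continuousOn
  | succ n ih =>
    intro Y _ _ _ F hF he
    obtain ⟨F', h1, h2, h3⟩ := exists_der hF he
    rw [Nat.cast_succ]
    refine contDiffOn_succ_of_fderivWithin (fun p hp => (h3 p hp).differentiableWithinAt)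
      (by simp) ?_
    refine (ih h1 h2).congr fun p hp => ?_
    exact (h3 p hp).fderivWithin (half_unique p hp)

theorem sqrt_smooth {F : W × ℝ → Y} (hF : ContDiff ℝ ∞ F) (he : ∀ w x, F (w, -x) = F (w, x)) :
    ContDiffOn ℝ ∞ (fun p : W × ℝ => F (p.1, √p.2)) {p | 0 ≤ p.2} :=
  contDiffOn_infty.2 fun n => sqrt_smooth_nat n hF he

/-- extension from a half space -/
theorem half_ext {f : W × ℝ → ℝ} (hf : ContDiffOn ℝ ∞ f {p | 0 ≤ p.2}) {R : ℝ} (hR : 0 < R) :
    ∃ F : W × ℝ → ℝ, ContDiff ℝ ∞ F ∧ ∀ p, 0 ≤ p.2 → ‖p‖ < R → F p = f p := by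
  let ℓ : W × ℝ →L[ℝ] ℝ := ContinuousLinearMap.snd ℝ W ℝ
  have he : ℓ (0, 1) = 1 := rfl
  let χ : ContDiffBump (0 : W × ℝ) := ⟨R, 2 * R, hR, by linarith⟩
  have hχ0 : ∀ x : W × ℝ, 2 * R < ‖x‖ → (fun y => χ y * f y) =ᶠ[𝓝 x] fun _ => (0 : ℝ) := by
    intro x hx
    have hc : Continuous fun y : W × ℝ => ‖y‖ := continuous_norm
    have : ∀ᶠ y in 𝓝 x, 2 * R < ‖y‖ := hc.continuousAt.eventually_const_lt hx
    filter_upwards [this] with y hy
    have h1 : χ y = 0 := χ.zero_of_le_dist (by rw [dist_zero_right]; exact hy.le)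
    rw [h1, zero_mul]
  have hsm : ContDiffOn ℝ ∞ (fun y => χ y * f y) {x | 0 ≤ ℓ x} :=
    χ.contDiff.contDiffOn.mul hf
  obtain ⟨F, hF, hF'⟩ := P264.Seeley.rG3_seeley ℓ he hsm (fun m => by
    have hc := hsm.continuousOn_iteratedFDerivWithin (m := m) (by exact_mod_cast le_top)
      (P264.Seeley.rG3_unique ℓ he)
    have hcl : IsClosed {x | 0 ≤ ℓ x} := isClosed_le continuous_const ℓ.continuous
    have hK : IsCompact ({x | 0 ≤ ℓ x} ∩ Metric.closedBall (0 : W × ℝ) (2 * R)) :=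
      (isCompact_closedBall _ _).inter_left hcl
    obtain ⟨C, hC⟩ := hK.exists_bound_of_continuousOn (hc.mono inter_subset_left)
    refine ⟨max C 0, fun x hx => ?_⟩
    rcases le_or_gt ‖x‖ (2 * R) with h | h
    · exact (hC x ⟨hx, by rwa [mem_closedBall_zero_iff]⟩).trans (le_max_left _ _)
    · have h1 := hχ0 x h
      have h2 := ((h1.filter_mono nhdsWithin_le_nhds).iteratedFDerivWithin ℝ
        (s := {x | 0 ≤ ℓ x}) m).eq_of_nhdsWithin hx
      rw [h2]
      simp only [iteratedFDerivWithin_fun_zero, Pi.zero_apply, norm_zero, le_sup_right])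
  refine ⟨F, hF, fun p hp hpR => ?_⟩
  rw [hF' p hp, χ.one_of_mem_closedBall (by rw [mem_closedBall_zero_iff]; exact hpR.le), one_mul]

/-- **Even functions are functions of the square.** -/
theorem exists_even {F : W × ℝ → ℝ} (hF : ContDiff ℝ ∞ F) (he : ∀ w x, F (w, -x) = F (w, x))
    {R : ℝ} (hR : 0 < R) : ∃ G : W × ℝ → ℝ, ContDiff ℝ ∞ G ∧
      ∀ w x, ‖w‖ < R → x ^ 2 < R → G (w, x ^ 2) = F (w, x) := by
  obtain ⟨G, h1, h2⟩ := half_ext (sqrt_smooth hF he) hR
  refine ⟨G, h1, fun w x hw hx => ?_⟩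
  rw [h2 (w, x ^ 2) (sq_nonneg x) (by
    rw [Prod.norm_def, max_lt_iff]
    exact ⟨hw, by rw [Real.norm_of_nonneg (sq_nonneg x)]; exact hx⟩)]
  simp only
  rw [Real.sqrt_sq_eq_abs]
  rcases abs_choice x with h | h
  · rw [h]
  · rw [h, he]

/-- **Functions which are even in two variables.** -/
theorem exists_even2 {F : W × (ℝ × ℝ) → ℝ} (hF : ContDiff ℝ ∞ F)
    (ha : ∀ w a b, F (w, (-a, b)) = F (w, (a, b))) (hb : ∀ w a b, F (w, (a, -b)) = F (w, (a, b)))
    {R : ℝ} (hR : 0 < R) : ∃ G : W × (ℝ × ℝ) → ℝ, ContDiff ℝ ∞ G ∧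
      ∀ w a b, ‖w‖ < R → a ^ 2 < R → b ^ 2 < R → |a| < R → G (w, (a ^ 2, b ^ 2)) = F (w, (a, b)) := by
  -- first in the second variable
  have hF1 : ContDiff ℝ ∞ fun p : (W × ℝ) × ℝ => F (p.1.1, (p.1.2, p.2)) :=
    hF.comp ((contDiff_fst.comp contDiff_fst).prodMk
      ((contDiff_snd.comp contDiff_fst).prodMk contDiff_snd))
  obtain ⟨G₁, h1, h2⟩ := exists_even (W := W × ℝ) hF1 (fun w x => hb _ _ _) hR
  -- symmetrize
  set G₂ : (W × ℝ) × ℝ → ℝ := fun p => (1 / 2) * (G₁ ((p.1.1, p.2), p.1.2) +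
    G₁ ((p.1.1, -p.2), p.1.2)) with hG₂
  have h3 : ContDiff ℝ ∞ G₂ := by
    have k1 : ContDiff ℝ ∞ fun p : (W × ℝ) × ℝ => G₁ ((p.1.1, p.2), p.1.2) :=
      h1.comp (((contDiff_fst.comp contDiff_fst).prodMk contDiff_snd).prodMk
        (contDiff_snd.comp contDiff_fst))
    have k2 : ContDiff ℝ ∞ fun p : (W × ℝ) × ℝ => G₁ ((p.1.1, -p.2), p.1.2) :=
      h1.comp (((contDiff_fst.comp contDiff_fst).prodMk contDiff_snd.neg).prodMk
        (contDiff_snd.comp contDiff_fst))
    exact contDiff_const.mul (k1.add k2)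
  obtain ⟨G₃, h4, h5⟩ := exists_even (W := W × ℝ) h3 (fun w x => by
    simp only [hG₂, neg_neg]
    ring) hR
  refine ⟨fun p => G₃ ((p.1, p.2.2), p.2.1), h4.comp ((contDiff_fst.prodMk
    (contDiff_snd.comp contDiff_snd)).prodMk (contDiff_fst.comp contDiff_snd)), ?_⟩
  intro w a b hw ha2 hb2 haR
  have k1 : ‖((w, b ^ 2) : W × ℝ)‖ < R := by
    rw [Prod.norm_def, max_lt_iff]
    exact ⟨hw, by rw [Real.norm_of_nonneg (sq_nonneg b)]; exact hb2⟩
  have k2 : ‖((w, a) : W × ℝ)‖ < R := by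
    rw [Prod.norm_def, max_lt_iff]
    exact ⟨hw, by rw [Real.norm_eq_abs]; exact haR⟩
  have k3 : ‖((w, -a) : W × ℝ)‖ < R := by
    rw [Prod.norm_def, max_lt_iff]
    exact ⟨hw, by rw [Real.norm_eq_abs, abs_neg]; exact haR⟩
  change G₃ ((w, b ^ 2), a ^ 2) = _
  rw [h5 _ _ k1 ha2]
  simp only [hG₂]
  rw [h2 _ _ k2 hb2, h2 _ _ k3 hb2]
  simp only [ha]
  ring

/-- **Functions which are invariant under the simultaneous change of two signs.** -/
theorem exists_even3 {F : W × (ℝ × ℝ) → ℝ} (hF : ContDiff ℝ ∞ F)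
    (hab : ∀ w a b, F (w, (-a, -b)) = F (w, (a, b))) {R : ℝ} (hR : 0 < R) :
    ∃ A B : W × (ℝ × ℝ) → ℝ, ContDiff ℝ ∞ A ∧ ContDiff ℝ ∞ B ∧
      ∀ w a b, ‖w‖ < R → a ^ 2 < R → b ^ 2 < R → |a| < R →
        F (w, (a, b)) = A (w, (a ^ 2, b ^ 2)) + a * b * B (w, (a ^ 2, b ^ 2)) := by
  have hn : ContDiff ℝ ∞ fun p : W × (ℝ × ℝ) => F (p.1, (-p.2.1, p.2.2)) :=
    hF.comp (contDiff_fst.prodMk ((contDiff_fst.comp contDiff_snd).neg.prodMk
      (contDiff_snd.comp contDiff_snd)))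
  -- the even part
  obtain ⟨A, hA, hA2⟩ := exists_even2 (F := fun p => (1 / 2) * (F p + F (p.1, (-p.2.1, p.2.2))))
    (contDiff_const.mul (hF.add hn)) (fun w a b => by
      simp only [neg_neg]
      ring) (fun w a b => by
      have h1 := hab w a b
      have h2 := hab w a (-b)
      rw [neg_neg] at h2
      simp only [h1, ← h2]
      ring) hR
  -- the odd part, divided by the first variable
  set O : W × (ℝ × ℝ) → ℝ := fun p => (1 / 2) * (F p - F (p.1, (-p.2.1, p.2.2))) with hO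
  have hOs : ContDiff ℝ ∞ O := contDiff_const.mul (hF.sub hn)
  have hOa : ∀ w a b, O (w, (-a, b)) = -O (w, (a, b)) := by
    intro w a b
    simp only [hO, neg_neg]
    ring
  have hOb : ∀ w a b, O (w, (a, -b)) = -O (w, (a, b)) := by
    intro w a b
    have h1 := hab w a b
    have h2 := hab w a (-b)
    rw [neg_neg] at h2
    simp only [hO, h1, ← h2]
    ring
  obtain ⟨G₁, g1, g2⟩ := exists_div_par (W := W × ℝ) (F := fun p => O (p.1.1, (p.2, p.1.2)))
    (hOs.comp ((contDiff_fst.comp contDiff_fst).prodMk (contDiff_snd.prodMk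
      (contDiff_snd.comp contDiff_fst)))) (fun w => by
      have := hOa w.1 0 w.2
      rw [neg_zero] at this
      change O (w.1, (0, w.2)) = 0
      linarith)
  have g2' : ∀ w a b, O (w, (a, b)) = a * G₁ ((w, b), a) := fun w a b => g2 (w, b) a
  -- antisymmetrize in the second variable
  set G₂ : (W × ℝ) × ℝ → ℝ := fun p => (1 / 2) * (G₁ ((p.1.1, p.2), p.1.2) -
    G₁ ((p.1.1, -p.2), p.1.2)) with hG₂
  have g3 : ContDiff ℝ ∞ G₂ := by
    have k1 : ContDiff ℝ ∞ fun p : (W × ℝ) × ℝ => G₁ ((p.1.1, p.2), p.1.2) :=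
      g1.comp (((contDiff_fst.comp contDiff_fst).prodMk contDiff_snd).prodMk
        (contDiff_snd.comp contDiff_fst))
    have k2 : ContDiff ℝ ∞ fun p : (W × ℝ) × ℝ => G₁ ((p.1.1, -p.2), p.1.2) :=
      g1.comp (((contDiff_fst.comp contDiff_fst).prodMk contDiff_snd.neg).prodMk
        (contDiff_snd.comp contDiff_fst))
    exact contDiff_const.mul (k1.sub k2)
  have g4 : ∀ w a b, O (w, (a, b)) = a * G₂ ((w, a), b) := by
    intro w a b
    simp only [hG₂]
    have h1 := g2' w a b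
    have h2 := g2' w a (-b)
    rw [hOb] at h2
    linear_combination (1 / 2) * h1 - (1 / 2) * h2
  obtain ⟨G₃, g5, g6⟩ := exists_div_par g3 (fun w => by
    simp only [hG₂, neg_zero]
    ring)
  have g7 : ∀ w a b, O (w, (a, b)) = a * b * G₃ ((w, a), b) := by
    intro w a b
    rw [g4, g6, smul_eq_mul]
    ring
  -- symmetrize
  set C : W × (ℝ × ℝ) → ℝ := fun p => (1 / 4) * (G₃ ((p.1, p.2.1), p.2.2) +
    G₃ ((p.1, -p.2.1), p.2.2) + G₃ ((p.1, p.2.1), -p.2.2) + G₃ ((p.1, -p.2.1), -p.2.2)) with hC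
  have hCs : ContDiff ℝ ∞ C := by
    have c1 : ContDiff ℝ ∞ fun p : W × (ℝ × ℝ) => p.2.1 := contDiff_fst.comp contDiff_snd
    have c2 : ContDiff ℝ ∞ fun p : W × (ℝ × ℝ) => p.2.2 := contDiff_snd.comp contDiff_snd
    have k1 : ContDiff ℝ ∞ fun p : W × (ℝ × ℝ) => G₃ ((p.1, p.2.1), p.2.2) :=
      g5.comp ((contDiff_fst.prodMk c1).prodMk c2)
    have k2 : ContDiff ℝ ∞ fun p : W × (ℝ × ℝ) => G₃ ((p.1, -p.2.1), p.2.2) :=
      g5.comp ((contDiff_fst.prodMk c1.neg).prodMk c2)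
    have k3 : ContDiff ℝ ∞ fun p : W × (ℝ × ℝ) => G₃ ((p.1, p.2.1), -p.2.2) :=
      g5.comp ((contDiff_fst.prodMk c1).prodMk c2.neg)
    have k4 : ContDiff ℝ ∞ fun p : W × (ℝ × ℝ) => G₃ ((p.1, -p.2.1), -p.2.2) :=
      g5.comp ((contDiff_fst.prodMk c1.neg).prodMk c2.neg)
    exact contDiff_const.mul (((k1.add k2).add k3).add k4)
  have hOC : ∀ w a b, O (w, (a, b)) = a * b * C (w, (a, b)) := by
    intro w a b
    simp only [hC]
    have h1 := g7 w a b
    have h2 := g7 w (-a) b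
    have h3 := g7 w a (-b)
    have h4 := g7 w (-a) (-b)
    rw [hOa] at h2
    rw [hOb] at h3
    rw [hOa, hOb] at h4
    linear_combination (1 / 4) * h1 - (1 / 4) * h2 - (1 / 4) * h3 + (1 / 4) * h4
  obtain ⟨B, hB, hB2⟩ := exists_even2 hCs (fun w a b => by
    simp only [hC, neg_neg]
    ring) (fun w a b => by
    simp only [hC, neg_neg]
    ring) hR
  refine ⟨A, B, hA, hB, fun w a b hw ha2 hb2 haR => ?_⟩
  rw [hA2 w a b hw ha2 hb2 haR, hB2 w a b hw ha2 hb2 haR, ← hOC]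
  simp only [hO]
  ring

end Vale.Agent.P220.H446
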