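import Vale.Agent.P220.H446.Pl3
import Vale.Agent.P220.H446.Pd
import Vale.Agent.P220.H446.Wh

/-!
# The Hamiltonian isotopy
-/

open Set Filter Topology
open scoped ContDiff RealInnerProductSpace

set_option linter.unusedSectionVars false

namespace Vale.Agent.P220.H446

open Vale.Agent.P220.R2.H481 Vale.Agent.P220.R2
open H180 (Orth InPl Circ XF SS Refl Sph)

variable {V : Type} [NormedAddCommGroup V] [InnerProductSpace ℝ V] [FiniteDimensional ℝ V]

/-- **The symmetric Hamiltonian as a function of the invariants.** -/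
theorem exists_hh {e u : V} (h : Orth e u) {H : ℝ × (V × V) → ℝ} (hH : ContDiff ℝ ∞ H)
    (hsym : ∀ s z, H (s, SS u z) = H (s, z)) {R₀ : ℝ}
    (hR₀ : ∀ t s τ : ℝ, R₀ ≤ |τ| → H (t, P0 e u (s, τ)) = 0) :
    ∃ (hh : ℝ × (ℝ × (ℝ × ℝ)) → ℝ) (R : ℝ), ContDiff ℝ ∞ hh ∧
      (∀ t x y w, R ^ 2 ≤ w → hh (t, (x, (y, w))) = 0) ∧ 0 < R ∧
      ∀ t ∈ Icc (0 : ℝ) 1, ∀ p, hh (t, cm p) = H (t, P0 e u p) := by
  set R₁ : ℝ := max R₀ 0 with hR₁
  have hR10 : 0 ≤ R₁ := le_max_right _ _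
  have hR1R : R₀ ≤ R₁ := le_max_left _ _
  set R₂ : ℝ := R₁ + 1 with hR₂
  have hR2 : 1 ≤ R₂ := by linarith
  set R : ℝ := R₂ ^ 2 + 2 with hR
  have hR0 : 0 < R := by positivity
  have hRR : R₂ < R := by nlinarith
  set F : (ℝ × (ℝ × ℝ)) × (ℝ × ℝ) → ℝ := fun p =>
    H (p.1.1, (p.1.2.1 • e + p.2.1 • u, p.1.2.2 • e + p.2.2 • u)) with hF
  have hFs : ContDiff ℝ ∞ F := by
    have c1 : ContDiff ℝ ∞ fun p : (ℝ × (ℝ × ℝ)) × (ℝ × ℝ) => p.1.1 :=
      contDiff_fst.comp contDiff_fst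
    have c2 : ContDiff ℝ ∞ fun p : (ℝ × (ℝ × ℝ)) × (ℝ × ℝ) => p.1.2.1 :=
      contDiff_fst.comp (contDiff_snd.comp contDiff_fst)
    have c3 : ContDiff ℝ ∞ fun p : (ℝ × (ℝ × ℝ)) × (ℝ × ℝ) => p.1.2.2 :=
      contDiff_snd.comp (contDiff_snd.comp contDiff_fst)
    have c4 : ContDiff ℝ ∞ fun p : (ℝ × (ℝ × ℝ)) × (ℝ × ℝ) => p.2.1 :=
      contDiff_fst.comp contDiff_snd
    have c5 : ContDiff ℝ ∞ fun p : (ℝ × (ℝ × ℝ)) × (ℝ × ℝ) => p.2.2 :=
      contDiff_snd.comp contDiff_snd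
    exact hH.comp (c1.prodMk (((c2.smul contDiff_const).add (c4.smul contDiff_const)).prodMk
      ((c3.smul contDiff_const).add (c5.smul contDiff_const))))
  have hu : Refl u u = -u := by
    rw [H180.Refl_apply h.w1, h.ww]
    module
  have hFe : ∀ w a b, F (w, (-a, -b)) = F (w, (a, b)) := by
    intro w a b
    simp only [hF]
    rw [← hsym]
    congr 2
    rw [H180.SS_apply]
    simp only [map_add, map_smul, h.Refl_e, hu]
    refine Prod.ext ?_ ?_
    · module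
    · module
  obtain ⟨A, B, hA, hB, hAB⟩ := exists_even3 hFs hFe hR0
  set χ : ℝ → ℝ := fun w => Real.smoothTransition ((R₂ ^ 2 - w) / (R₂ ^ 2 - R₁ ^ 2)) with hχ
  have hden : 0 < R₂ ^ 2 - R₁ ^ 2 := by nlinarith
  have hχs : ContDiff ℝ ∞ χ :=
    Real.smoothTransition.contDiff.comp ((contDiff_const.sub contDiff_id).div_const _)
  have hχ0 : ∀ w, R₂ ^ 2 ≤ w → χ w = 0 := fun w hw =>
    Real.smoothTransition.zero_of_nonpos (div_nonpos_of_nonpos_of_nonneg (by linarith) hden.le)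
  have hχ1 : ∀ w, w ≤ R₁ ^ 2 → χ w = 1 := fun w hw =>
    Real.smoothTransition.one_of_one_le (by
      rw [le_div_iff₀ hden]
      linarith)
  set hh : ℝ × (ℝ × (ℝ × ℝ)) → ℝ := fun x => χ x.2.2.2 *
    (A ((x.1, (x.2.1, x.2.2.1)), (1 - x.2.1 ^ 2, x.2.2.2 - x.2.2.1 ^ 2)) -
      x.2.1 * x.2.2.1 * B ((x.1, (x.2.1, x.2.2.1)), (1 - x.2.1 ^ 2, x.2.2.2 - x.2.2.1 ^ 2)))
    with hhh
  refine ⟨hh, R₂, ?_, ?_, by linarith, ?_⟩
  · have c1 : ContDiff ℝ ∞ fun x : ℝ × (ℝ × (ℝ × ℝ)) => x.1 := contDiff_fst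
    have c2 : ContDiff ℝ ∞ fun x : ℝ × (ℝ × (ℝ × ℝ)) => x.2.1 := contDiff_fst.comp contDiff_snd
    have c3 : ContDiff ℝ ∞ fun x : ℝ × (ℝ × (ℝ × ℝ)) => x.2.2.1 :=
      contDiff_fst.comp (contDiff_snd.comp contDiff_snd)
    have c4 : ContDiff ℝ ∞ fun x : ℝ × (ℝ × (ℝ × ℝ)) => x.2.2.2 :=
      contDiff_snd.comp (contDiff_snd.comp contDiff_snd)
    have c5 : ContDiff ℝ ∞ fun x : ℝ × (ℝ × (ℝ × ℝ)) =>
        (((x.1, (x.2.1, x.2.2.1)), (1 - x.2.1 ^ 2, x.2.2.2 - x.2.2.1 ^ 2)) :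
          (ℝ × (ℝ × ℝ)) × (ℝ × ℝ)) :=
      (c1.prodMk (c2.prodMk c3)).prodMk ((contDiff_const.sub (c2.pow 2)).prodMk
        (c4.sub (c3.pow 2)))
    exact (hχs.comp c4).mul ((hA.comp c5).sub ((c2.mul c3).mul (hB.comp c5)))
  · intro t x y w hw
    simp only [hhh]
    rw [hχ0 w hw, zero_mul]
  · rintro t ht ⟨s, τ⟩
    by_cases hτ : R₂ ≤ |τ|
    · have h1 : R₂ ^ 2 ≤ τ * τ := by
        rw [← abs_mul_abs_self τ]
        nlinarith
      simp only [hhh, cm]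
      rw [hχ0 _ h1, zero_mul, hR₀ t s τ (by linarith)]
    · have hτ' : |τ| < R₂ := not_le.1 hτ
      have hsc := Real.sin_sq_add_cos_sq s
      have hτ2 : τ ^ 2 < R := by
        rw [← sq_abs]
        nlinarith [abs_nonneg τ]
      have hs1 := Real.abs_sin_le_one s
      have hc1 := Real.abs_cos_le_one s
      have n1 : ‖((t, (Real.cos s, -(τ * Real.sin s))) : ℝ × (ℝ × ℝ))‖ < R := by
        rw [Prod.norm_def, Prod.norm_def, max_lt_iff, max_lt_iff]
        refine ⟨?_, ?_, ?_⟩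
        · simp only
          rw [Real.norm_of_nonneg ht.1]
          linarith [ht.2]
        · simp only
          rw [Real.norm_eq_abs]
          linarith
        · simp only
          rw [norm_neg, norm_mul, Real.norm_eq_abs, Real.norm_eq_abs]
          calc |τ| * |Real.sin s| ≤ |τ| * 1 := mul_le_mul_of_nonneg_left hs1 (abs_nonneg _)
            _ < R := by linarith
      have n2 : Real.sin s ^ 2 < R := by nlinarith [Real.cos_sq_add_sin_sq s, sq_nonneg (Real.cos s)]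
      have n3 : (τ * Real.cos s) ^ 2 < R := by
        rw [mul_pow]
        have : τ ^ 2 * Real.cos s ^ 2 ≤ τ ^ 2 * 1 :=
          mul_le_mul_of_nonneg_left (by nlinarith [sq_nonneg (Real.sin s)]) (sq_nonneg _)
        linarith
      have n4 : |Real.sin s| < R := by linarith
      have key := hAB (t, (Real.cos s, -(τ * Real.sin s))) (Real.sin s) (τ * Real.cos s) n1 n2 n3 n4
      have hFP : F ((t, (Real.cos s, -(τ * Real.sin s))), (Real.sin s, τ * Real.cos s)) =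
          H (t, P0 e u (s, τ)) := by
        simp only [hF]
        congr 2
        unfold P0 rr nn
        simp only
        refine Prod.ext rfl ?_
        simp only
        module
      rw [hFP] at key
      have e1 : 1 - Real.cos s ^ 2 = Real.sin s ^ 2 := by linarith
      have e2 : τ * τ - (-(τ * Real.sin s)) ^ 2 = (τ * Real.cos s) ^ 2 := by
        have : Real.cos s ^ 2 = 1 - Real.sin s ^ 2 := by linarith
        rw [mul_pow, this]
        ring
      have hhv : hh (t, cm (s, τ)) = χ (τ * τ) * H (t, P0 e u (s, τ)) := by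
        simp only [hhh, cm]
        rw [e1, e2, key]
        ring
      rw [hhv]
      by_cases hτ1 : |τ| ≤ R₁
      · have : τ * τ ≤ R₁ ^ 2 := by
          rw [← abs_mul_abs_self τ]
          nlinarith [abs_nonneg τ]
        rw [hχ1 _ this, one_mul]
      · rw [hR₀ t s τ (by linarith [not_le.1 hτ1]), mul_zero]

variable {E : Type} [NormedAddCommGroup E] [InnerProductSpace ℝ E] [FiniteDimensional ℝ E]

/-- **The main theorem in the normalized case.** -/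
theorem LG.main {D : TN E} (Λ : LG D) : H57.HamIsotopicToZero D.Q Λ.L := by
  obtain ⟨Φ, hΦ⟩ := exists_geo D.cQ D.hP
  -- the plane
  set e : EuclideanSpace ℝ (Fin 2) := EuclideanSpace.single 0 1 with he
  set u : EuclideanSpace ℝ (Fin 2) := EuclideanSpace.single 1 1 with hu
  have h : Orth e u := by
    refine ⟨by simp [he], by simp [hu], ?_⟩
    simp [he, hu, EuclideanSpace.inner_single_left]
  have hV : Module.finrank ℝ (EuclideanSpace ℝ (Fin 2)) = 2 := by simp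
  obtain ⟨hall, hC⟩ := circ_eq h hV
  obtain ⟨H₀, φ₀, hH₀, hsym, hφ₀, himg⟩ := Λ.plane_ham hΦ h hV
  obtain ⟨R₀, hR₀⟩ := hH₀.supp
  have hP0n : ∀ s τ : ℝ, ‖(P0 e u (s, τ)).2‖ = |τ| := by
    intro s τ
    have h1 : ‖nn e u s‖ = 1 := by
      rw [← sq_eq_sq₀ (norm_nonneg _) zero_le_one, ← real_inner_self_eq_norm_sq, nn_nn h, sub_self,
        Real.cos_zero, one_pow]
    unfold P0
    simp only
    rw [norm_smul, h1, mul_one, Real.norm_eq_abs]
  have hP0c : ∀ p, P0 e u p ∈ H57.Cot (Sph (EuclideanSpace ℝ (Fin 2))) := by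
    intro p
    rw [← hC, ← cotangent_eq_Cot]
    exact P0_cot h p
  have hR₀' : ∀ t s τ : ℝ, R₀ ≤ |τ| → H₀ (t, P0 e u (s, τ)) = 0 := fun t s τ hτ =>
    hR₀ t _ (hP0c _) (by rwa [hP0n])
  obtain ⟨hh, R, hhs, hh0, hR, hhK⟩ := exists_hh h hH₀.smooth hsym hR₀'
  -- the Hamiltonian
  set H : ℝ × (E × E) → ℝ := fun x => hh (x.1, qm D x.2) with hH
  have hHs : ContDiff ℝ ∞ H := hhs.comp (contDiff_fst.prodMk ((qm_smooth D).comp contDiff_snd))
  have hsupp : ∀ s, ∀ z : E × E, R ≤ ‖z.2‖ → H (s, z) = 0 := by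
    intro s z hz
    simp only [hH, qm]
    refine hh0 _ _ _ _ ?_
    rw [real_inner_self_eq_norm_sq]
    exact pow_le_pow_left₀ hR.le hz 2
  have hH1 : H57.IsHam D.Q H := ⟨hHs, R, fun s z _ hz => hsupp s z hz⟩
  have hH2 : H481.IsHam D.Q H := by
    refine ⟨hHs, D.Q ×ˢ Metric.closedBall (0 : E) R, D.cQ.prod (isCompact_closedBall _ _),
      fun s z hz hzK => hsupp s z ?_⟩
    by_contra hcon
    refine hzK ⟨hz.1, ?_⟩
    rw [Metric.mem_closedBall, dist_zero_right]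
    exact (not_le.1 hcon).le
  obtain ⟨φ, hφ⟩ := hH2.exists_hflow D.hQ.isClosed D.hP
  -- the flow in the plane
  obtain ⟨US, rS, hrS⟩ := H180.exists_sph_ret (E := EuclideanSpace ℝ (Fin 2))
  obtain ⟨P, hP⟩ := exists_proj_of_isRet hrS
  have hH₀2 : H481.IsHam (Sph (EuclideanSpace ℝ (Fin 2))) H₀ := by
    refine ⟨hH₀.smooth, Sph (EuclideanSpace ℝ (Fin 2)) ×ˢ
      Metric.closedBall (0 : EuclideanSpace ℝ (Fin 2)) R₀,
      (isCompact_sphere _ _).prod (isCompact_closedBall _ _), fun s z hz hzK => ?_⟩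
    refine hR₀ s z (by rwa [← cotangent_eq_Cot]) ?_
    by_contra hcon
    refine hzK ⟨hz.1, ?_⟩
    rw [Metric.mem_closedBall, dist_zero_right]
    exact (not_le.1 hcon).le
  obtain ⟨ψ, hψ⟩ := hH₀2.exists_hflow hrS.isClosed hP
  have key1 : ∀ z ∈ cotangent (Sph (EuclideanSpace ℝ (Fin 2))), φ₀ 1 z = ψ (1, z) := by
    intro z hz
    have hz' := hz
    rw [cotangent_eq_Cot] at hz'
    have := hflow_uniq hP hH₀.smooth hψ (γ := fun s => φ₀ s z) (fun s hs => by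
      obtain ⟨h1, w, h2, h3, h4⟩ := hφ₀.2 z hz' s hs
      rw [cotangent_eq_Cot]
      refine ⟨h1, w, h3, ?_, fun u hu => ?_⟩
      · rw [tan_eq_Tan]
        exact h2
      · rw [tan_eq_Tan] at hu
        exact h4 u hu) 1 (by constructor <;> norm_num)
    rw [hφ₀.1 z hz'] at this
    exact this
  have key2 : ∀ p₀ : ℝ × ℝ, ∃ p₁ : ℝ × ℝ, P0 e u p₁ = φ₀ 1 (P0 e u p₀) ∧
      ∀ m ∈ D.M, D.Psi Φ (m, p₁) = φ (1, D.Psi Φ (m, p₀)) := by
    intro p₀
    obtain ⟨κ, κ0, κd⟩ := exists_kappa (K := fun x => H₀ (x.1, P0 e u x.2))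
      (hH₀.smooth.comp (contDiff_fst.prodMk ((P0_smooth e u).comp contDiff_snd)))
      (fun t s τ k => by
        simp only
        rw [P0_per h]) hR₀' p₀
    refine ⟨κ 1, ?_, fun m hm => ?_⟩
    · have h1 := P0_flow h (P := P) (by rwa [hC]) hH₀.smooth (φ := ψ) (by rwa [hC]) κd 1
        (by constructor <;> norm_num)
      rw [h1, κ0, key1]
      rw [cotangent_eq_Cot]
      exact hP0c _
    · have h1 := Psi_flow hΦ hhs hφ (κ := κ) (fun t ht => by
        have e1 : (fun p => hh (t, cm p)) = fun p => H₀ (t, P0 e u p) :=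
          funext fun p => hhK t ht p
        rw [e1]
        exact κd t ht) hm 1 (by constructor <;> norm_num)
      rw [h1, κ0]
  refine ⟨H, fun s z => φ (s, z), hH1, ?_, ?_⟩
  · have h1 := hφ.isFlow D.hP hHs
    refine ⟨fun z _ => hφ.zero z, fun z hz s hs => ?_⟩
    rw [← cotangent_eq_Cot] at hz
    obtain ⟨h2, v, h3, h4, h5⟩ := (h1 z hz).2 s hs
    rw [← cotangent_eq_Cot]
    refine ⟨h2, v, ?_, h3, fun u hu => ?_⟩
    · rw [← tan_eq_Tan]
      exact h4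
    · rw [← tan_eq_Tan] at hu
      exact h5 u hu
  · apply Subset.antisymm
    · rintro _ ⟨⟨q, y⟩, ⟨hq, hy⟩, rfl⟩
      simp only at hq hy
      subst hy
      have h0 : (0 : E) ∈ tan D.Q q :=
        ⟨fun _ => q, contDiff_const, fun _ => hq, rfl, hasDerivAt_const _ _⟩
      obtain ⟨v, θ, τ, h1, -⟩ := D.exists_NV Λ.hM hq h0 (map_zero _)
        (fun _ => ⟨0, by rw [zero_smul]⟩)
      have h3 := TN.NV.mh hΦ h1
      set m := (Φ (Real.pi / 2 - θ) (q, v)).1 with hm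
      have h4 : D.Psi Φ (m, (θ, 0)) = (q, 0) := by
        unfold TN.Psi
        simp only
        rw [h3.2, zero_smul]
      obtain ⟨p₁, k1, k2⟩ := key2 (θ, 0)
      have h5 : P0 e u p₁ ∈ Λ.Lp Φ e u := by
        rw [k1, ← himg]
        refine ⟨_, ⟨(hP0c _).1, ?_⟩, rfl⟩
        unfold P0
        simp only [zero_smul]
      obtain ⟨p, hp, hpp⟩ := h5
      obtain ⟨s, τ'⟩ := p
      obtain ⟨s₁, τ₁⟩ := p₁
      obtain ⟨k, hk1, hk2⟩ := P0_inj h hpp
      have h6 : (s₁, τ₁) ∈ Λ.Gm Φ := by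
        rw [hk1, ← hk2]
        exact Λ.Gm_per hΦ hp k
      change φ (1, (q, 0)) ∈ Λ.L
      rw [← h4, ← k2 m h3.1]
      exact Λ.sat hΦ h6 h3.1
    · intro z hz
      obtain ⟨v, s, τ, h1, h2⟩ := Λ.nv hz
      have h3 := TN.NV.mh hΦ h1
      set m := (Φ (Real.pi / 2 - s) (z.1, v)).1 with hm
      have h4 : D.Psi Φ (m, (s, τ)) = z := by
        unfold TN.Psi
        simp only
        rw [h3.2, ← h2]
      have h5 : P0 e u (s, τ) ∈ Λ.Lp Φ e u := ⟨_, ⟨m, h3.1, by rwa [h4]⟩, rfl⟩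
      rw [← himg] at h5
      obtain ⟨ζ, ⟨hζ1, hζ2⟩, hζ3⟩ := h5
      have hζ : ζ ∈ cotangent (Circ e u) := by
        rw [hC]
        refine ⟨hζ1, ?_⟩
        rw [hζ2]
        exact ⟨fun _ => ζ.1, contDiff_const, fun _ => hζ1, rfl, hasDerivAt_const _ _⟩
      obtain ⟨⟨θ, τ₀⟩, rfl⟩ := P0_surj h hζ
      have hτ₀ : τ₀ = 0 := by
        have := hP0n θ τ₀
        rw [hζ2, norm_zero] at this
        exact abs_eq_zero.1 this.symm
      subst hτ₀
      obtain ⟨⟨s₁, τ₁⟩, k1, k2⟩ := key2 (θ, 0)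
      rw [hζ3] at k1
      obtain ⟨k, hk1, hk2⟩ := P0_inj h k1.symm
      obtain ⟨m', hm', hm2⟩ := TN.Psi_per hΦ h3.1 (-k)
      have h6 : D.Psi Φ (m', (s₁, τ₁)) = z := by
        rw [← hm2, hk1, ← hk2]
        have : s + k * (2 * Real.pi) + ((-k : ℤ) : ℝ) * (2 * Real.pi) = s := by
          push_cast
          ring
        rw [this, h4]
      refine ⟨D.Psi Φ (m', (θ, 0)), ⟨(TN.Psi_cot hΦ hm' _ _).1, ?_⟩, ?_⟩
      · unfold TN.Psi
        simp only [zero_smul]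
      · change φ (1, _) = z
        rw [← k2 m' hm', h6]

end Vale.Agent.P220.H446
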