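import Vale.Agent.P220.H446.Geo

/-!
# The geodesic flow
-/

open Set Filter Topology
open scoped ContDiff RealInnerProductSpace

set_option linter.unusedSectionVars false

namespace Vale.Agent.P220.H446

open Vale.Agent.P220.R2.H481 Vale.Agent.P220.R2

variable {E : Type} [NormedAddCommGroup E] [InnerProductSpace ℝ E] [FiniteDimensional ℝ E]

/-- the geodesic vector field -/
noncomputable def geoF (P : E → E →L[ℝ] E) (z : E × E) : E × E :=
  (z.2, fderiv ℝ P z.1 z.2 z.2)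

theorem geoF_smooth {P : E → E →L[ℝ] E} (hP : ContDiff ℝ ∞ P) : ContDiff ℝ ∞ (geoF P) :=
  contDiff_snd.prodMk ((((hP.fderiv_right (m := ∞) (by simp)).comp contDiff_fst).clm_apply
    contDiff_snd).clm_apply contDiff_snd)

theorem geoF_tan {Q : Set E} {P : E → E →L[ℝ] E} (hP : IsProj Q P) {z : E × E}
    (hz : z ∈ cotangent Q) : geoF P z ∈ tan (cotangent Q) z := by
  have h := hP.mem_tan_cotangent hz hz.2 0
  rwa [map_zero, add_zero] at h

/-- `Φ` restricted to the unit tangent vectors of `Q` is the geodesic flow -/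
structure IsGeo (Q : Set E) (P : E → E →L[ℝ] E) (Φ : ℝ → E × E → E × E) : Prop where
  smooth : ContDiff ℝ ∞ fun q : ℝ × (E × E) => Φ q.1 q.2
  zero : ∀ z, Φ 0 z = z
  add : ∀ s t z, Φ (s + t) z = Φ s (Φ t z)
  mem : ∀ z ∈ cotangent Q, ∀ t, Φ t z ∈ cotangent Q
  norm : ∀ z ∈ cotangent Q, ∀ t, ‖(Φ t z).2‖ = ‖z.2‖
  deriv : ∀ z ∈ cotangent Q, ‖z.2‖ = 1 → ∀ t, HasDerivAt (fun s => Φ s z) (geoF P (Φ t z)) t
  rev : ∀ z ∈ cotangent Q, ‖z.2‖ = 1 → ∀ t, Φ t (z.1, -z.2) = ((Φ (-t) z).1, -(Φ (-t) z).2)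

theorem neg_mem_cotangent {Q : Set E} {P : E → E →L[ℝ] E} (hP : IsProj Q P) {z : E × E}
    (hz : z ∈ cotangent Q) : ((z.1, -z.2) : E × E) ∈ cotangent Q := by
  refine ⟨hz.1, ?_⟩
  rw [mem_tan_iff hP hz.1, map_neg, hP.id _ hz.1 _ hz.2]

theorem exists_geo {Q : Set E} {P : E → E →L[ℝ] E} (cQ : IsCompact Q) (hP : IsProj Q P) :
    ∃ Φ, IsGeo Q P Φ := by
  have hcl := cotangent_closed cQ.isClosed hP
  obtain ⟨R, hR⟩ := cQ.isBounded.exists_norm_le
  obtain ⟨χ, hχ, hχc, hχ1⟩ := H57.exists_cutoff (F := E × E) (max R 1)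
  have hone : ∀ z ∈ cotangent Q, ‖z.2‖ = 1 → χ z = 1 := by
    intro z hz h1
    refine hχ1 z ?_
    rw [Prod.norm_def]
    exact max_le_max (hR _ hz.1) h1.le
  set Y : E × E → E × E := fun z => χ z • geoF P z with hY
  have hYs : ContDiff ℝ ∞ Y := hχ.smul (geoF_smooth hP.smooth)
  have hYc : HasCompactSupport Y := hχc.smul_right
  obtain ⟨Φ, hΦ⟩ := H57.exists_flow_compact hYs hYc
  have htan : ∀ z ∈ cotangent Q, Y z ∈ tan (cotangent Q) z := fun z hz =>
    tan_smul' _ (geoF_tan hP hz)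
  have hmem : ∀ z ∈ cotangent Q, ∀ t, Φ t z ∈ cotangent Q := fun z hz t =>
    invariant hcl hYs htan (γ := fun s => Φ s z) (fun s => hΦ.deriv s z)
      (by simpa [hΦ.zero] using hz) t
  have hnorm : ∀ z ∈ cotangent Q, ∀ t, ‖(Φ t z).2‖ = ‖z.2‖ := by
    intro z hz t
    have hd : ∀ t, HasDerivAt (fun s => ‖(Φ s z).2‖ ^ 2) 0 t := by
      intro t
      have h1 : HasDerivAt (fun s => (Φ s z).2) (Y (Φ t z)).2 t := (hΦ.deriv t z).snd
      have h2 := h1.norm_sq
      refine h2.congr_deriv ?_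
      have h3 := hmem z hz t
      have h4 : (Y (Φ t z)).2 = χ (Φ t z) • fderiv ℝ P (Φ t z).1 (Φ t z).2 (Φ t z).2 := rfl
      rw [h4, inner_smul_right, real_inner_comm, hP.second h3.1 h3.2 h3.2 h3.2]
      ring
    have h5 := is_const_of_deriv_eq_zero (fun t => (hd t).differentiableAt)
      (fun t => (hd t).deriv) t 0
    simp only [hΦ.zero] at h5
    exact (sq_eq_sq₀ (norm_nonneg _) (norm_nonneg _)).1 h5
  refine ⟨Φ, hΦ.smooth, hΦ.zero, fun s t z => hΦ.add s t z, hmem, hnorm, ?_, ?_⟩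
  · intro z hz h1 t
    have h2 := hΦ.deriv t z
    have h3 : Y (Φ t z) = geoF P (Φ t z) := by
      simp only [hY]
      rw [hone _ (hmem z hz t) ((hnorm z hz t).trans h1), one_smul]
    rwa [h3] at h2
  · intro z hz h1 t
    set c : ℝ → E × E := fun s => ((Φ (-s) z).1, -(Φ (-s) z).2) with hc
    have h2 := hΦ.uniq c (fun s => ?_) t
    · have h3 : c 0 = (z.1, -z.2) := by simp [hc, hΦ.zero]
      rw [h3] at h2
      exact h2.symm
    · have h3 := hmem z hz (-s)
      have h4 : ‖(Φ (-s) z).2‖ = 1 := (hnorm z hz (-s)).trans h1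
      have h5 : HasDerivAt (fun s => Φ (-s) z) ((-1 : ℝ) • geoF P (Φ (-s) z)) s := by
        have h6 := hΦ.deriv (-s) z
        have h7 : Y (Φ (-s) z) = geoF P (Φ (-s) z) := by
          simp only [hY]
          rw [hone _ h3 h4, one_smul]
        rw [h7] at h6
        exact h6.scomp s (hasDerivAt_neg s)
      have h6 := neg_mem_cotangent hP h3
      have h7 : Y (c s) = geoF P (c s) := by
        simp only [hY]
        rw [hone _ h6 (by rw [norm_neg]; exact h4), one_smul]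
      rw [h7]
      have h8 : HasDerivAt c (((-1 : ℝ) • geoF P (Φ (-s) z)).1,
          -((-1 : ℝ) • geoF P (Φ (-s) z)).2) s :=
        (hasDerivAt_fst h5).prodMk (hasDerivAt_snd h5).neg
      refine h8.congr_deriv ?_
      simp only [geoF, hc, map_neg, neg_apply, neg_neg, neg_smul, one_smul, Prod.fst_neg,
        Prod.snd_neg]

end Vale.Agent.P220.H446
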