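import Vale.Agent.P220.H446.Fin
import Vale.Agent.P220.R2.H562.S.Scale
import Vale.Agent.P220.R2.H180.T.Sym

/-!
# The theorem for transnormal functions
-/

open Set Filter Topology
open scoped ContDiff RealInnerProductSpace

set_option linter.unusedSectionVars false

namespace Vale.Agent.P220.H446

open Vale.Agent.P220.R2.H481 Vale.Agent.P220.R2
open H57 (Tan IsClosedManifold IsClosedExactLagrangian)

variable {E : Type} [NormedAddCommGroup E] [InnerProductSpace ℝ E] [FiniteDimensional ℝ E]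

theorem main_unit {n : ℕ} {Q : Set E} (hQ : IsClosedManifold n Q) {f : E → ℝ}
    (hf : ContDiff ℝ ∞ f) (hT : ∀ q ∈ Q, ∃ w ∈ Tan Q q,
      (∀ v ∈ Tan Q q, fderiv ℝ f q v = inner ℝ w v) ∧ ‖w‖ ^ 2 = 1 - f q ^ 2)
    (hM : IsConnected {q | q ∈ Q ∧ f q = 0}) {L : Set (E × E)}
    (hL : IsClosedExactLagrangian n Q L)
    (ha : ∀ z ∈ L, |f z.1| < 1 → ∀ v ∈ Tan Q z.1, fderiv ℝ f z.1 v = 0 → inner ℝ z.2 v = (0 : ℝ)) :
    H57.HamIsotopicToZero Q L := by
  obtain ⟨UQ, r, hr, hdr⟩ := H57.exists_ret hQ.sub hQ.compact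
  obtain ⟨P, hP⟩ := exists_proj_of_isRet hr
  have hg1 : ∀ q ∈ Q, ∀ v ∈ tan Q q,
      (inner ℝ (P q (H481.grad (fderiv ℝ f q))) v : ℝ) = fderiv ℝ f q v := by
    intro q hq v hv
    rw [hP.symm q hq, hP.id q hq v hv, inner_grad]
  let D : TN E :=
    { Q := Q
      UQ := UQ
      r := r
      hQ := hr
      P := P
      hP := hP
      cQ := hQ.compact
      connQ := hQ.conn
      f := f
      hf := hf
      g := fun x => P x (H481.grad (fderiv ℝ f x))
      hg := hP.smooth.clm_apply (H481.grad.contDiff.comp (hf.fderiv_right (m := ∞) (by simp)))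
      gT := fun q hq => hP.mem q hq _
      gf := hg1
      gn := by
        intro q hq
        obtain ⟨w, hw, h1, h2⟩ := hT q hq
        rw [← tan_eq_Tan] at hw
        have h3 : P q (H481.grad (fderiv ℝ f q)) = w := by
          have h4 : P q (P q (H481.grad (fderiv ℝ f q)) - w) =
              P q (H481.grad (fderiv ℝ f q)) - w := by
            rw [map_sub, hP.sq hq, hP.id q hq w hw]
          have h5 : P q (H481.grad (fderiv ℝ f q)) - w ∈ tan Q q := by
            rw [← h4]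
            exact hP.mem q hq _
          have h6 : (inner ℝ (P q (H481.grad (fderiv ℝ f q)) - w)
              (P q (H481.grad (fderiv ℝ f q)) - w) : ℝ) = 0 := by
            rw [inner_sub_left, hg1 q hq _ h5, h1 _ (by rwa [← tan_eq_Tan]), sub_self]
          exact sub_eq_zero.1 (inner_self_eq_zero.1 h6)
        rw [h3, h2] }
  obtain ⟨UL, ρ, hρ, hdρ⟩ := H57.exists_ret hL.mfd hL.compact
  obtain ⟨F, hF, hex⟩ := hL.exact
  let Λ : LG D :=
    { n := n
      dQ := hdr
      L := L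
      UL := UL
      ρ := ρ
      hL := hρ
      cL := hL.compact
      dL := hdρ
      ne := hL.nonempty
      sub := by
        intro z hz
        have := hL.sub hz
        rwa [← cotangent_eq_Cot] at this
      F := F
      hF := hF
      ex := by
        intro z hz v hv
        rw [tan_eq_Tan] at hv
        exact hex z hz v hv
      par := by
        intro z hz h1 v hv h2
        have hq : z.1 ∈ Q := (hL.sub hz).1
        have h3 : fderiv ℝ f z.1 v = 0 := by
          rw [← hg1 z.1 hq v hv]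
          exact h2
        refine ha z hz ?_ v (by rwa [← tan_eq_Tan]) h3
        have h1' : D.f z.1 ^ 2 < 1 := h1
        exact abs_lt.2 ⟨by nlinarith, by nlinarith⟩
      conn := hM }
  exact Λ.main

/-- **Transnormal functions.** -/
theorem main_gen {n : ℕ} {Q : Set E} (hQ : IsClosedManifold n Q) {f : E → ℝ}
    (hf : ContDiff ℝ ∞ f) {c : ℝ} (hc : 0 < c) (hT : ∀ q ∈ Q, ∃ w ∈ Tan Q q,
      (∀ v ∈ Tan Q q, fderiv ℝ f q v = inner ℝ w v) ∧ ‖w‖ ^ 2 = c ^ 2 * (1 - f q ^ 2))
    (hM : IsConnected {q | q ∈ Q ∧ f q = 0}) {L : Set (E × E)}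
    (hL : IsClosedExactLagrangian n Q L)
    (ha : ∀ z ∈ L, |f z.1| < 1 → ∀ v ∈ Tan Q z.1, fderiv ℝ f z.1 v = 0 → inner ℝ z.2 v = (0 : ℝ)) :
    H57.HamIsotopicToZero Q L := by
  have hc0 : c ≠ 0 := hc.ne'
  have hback : (fun x : E => c⁻¹ • x) '' ((fun x : E => c • x) '' Q) = Q := by
    rw [image_image]
    simp [smul_smul, inv_mul_cancel₀ hc0]
  have htan : ∀ q v : E, v ∈ Tan ((fun x : E => c • x) '' Q) (c • q) → c⁻¹ • v ∈ Tan Q q := by
    intro q v hv
    have := H562.S.tan_smul hv (inv_ne_zero hc0) c⁻¹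
    rwa [hback, smul_smul, inv_mul_cancel₀ hc0, one_smul] at this
  have hfd : ∀ q v : E, fderiv ℝ (fun x => f (c⁻¹ • x)) (c • q) v = fderiv ℝ f q (c⁻¹ • v) := by
    intro q v
    have h1 : HasFDerivAt f (fderiv ℝ f q) (c⁻¹ • (c • q)) := by
      rw [smul_smul, inv_mul_cancel₀ hc0, one_smul]
      exact (hf.differentiable (by simp) q).hasFDerivAt
    have h2 : HasFDerivAt (fun x : E => c⁻¹ • x) (c⁻¹ • ContinuousLinearMap.id ℝ E) (c • q) :=
      (hasFDerivAt_id (c • q)).const_smul c⁻¹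
    have h3 := (HasFDerivAt.comp (g := f) (c • q) h1 h2).fderiv
    have h4 : fderiv ℝ (fun x => f (c⁻¹ • x)) (c • q) =
      (fderiv ℝ f q).comp (c⁻¹ • ContinuousLinearMap.id ℝ E) := h3
    rw [h4]
    rfl
  have hfc : ∀ q : E, f (c⁻¹ • (c • q)) = f q := fun q => by
    rw [smul_smul, inv_mul_cancel₀ hc0, one_smul]
  refine H562.S.scale_ham hc0 (main_unit (n := n) (f := fun x => f (c⁻¹ • x)) ?_
    (hf.comp (contDiff_const.smul contDiff_id)) ?_ ?_ (H562.S.scale_lag hc0 hL) ?_)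
  · refine ⟨?_, hQ.compact.image (by fun_prop), hQ.conn.image _ (by fun_prop)⟩
    exact H562.S.submanifold_image hQ.sub
      (ContinuousLinearEquiv.smulLeft (R₁ := ℝ) (M₁ := E) (Units.mk0 c hc0))
  · rintro _ ⟨q, hq, rfl⟩
    obtain ⟨w, hw, h1, h2⟩ := hT q hq
    refine ⟨c⁻¹ • w, H562.S.tan_smul hw hc0 c⁻¹, ?_, ?_⟩
    · intro v hv
      beta_reduce at hv ⊢
      rw [hfd, h1 _ (htan q v hv), inner_smul_right, inner_smul_left]
      simp
    · beta_reduce
      rw [hfc, norm_smul, mul_pow, h2, Real.norm_eq_abs, sq_abs]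
      field_simp
  · have h1 : {q | q ∈ (fun x : E => c • x) '' Q ∧ f (c⁻¹ • q) = 0} =
        (fun x : E => c • x) '' {q | q ∈ Q ∧ f q = 0} := by
      ext x
      constructor
      · rintro ⟨⟨q, hq, rfl⟩, h2⟩
        beta_reduce at h2
        rw [hfc] at h2
        exact ⟨q, ⟨hq, h2⟩, rfl⟩
      · rintro ⟨q, ⟨hq, h2⟩, rfl⟩
        refine ⟨⟨q, hq, rfl⟩, ?_⟩
        beta_reduce
        rw [hfc, h2]
    rw [h1]
    exact hM.image _ (by fun_prop)
  · rintro _ ⟨z, hz, rfl⟩ h1 v hv h2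
    have e1 : (H562.S.scl E c z).1 = c • z.1 := rfl
    have e2 : (H562.S.scl E c z).2 = c⁻¹ • z.2 := rfl
    rw [e1] at h1 hv h2
    rw [hfc] at h1
    rw [hfd] at h2
    have h3 := ha z hz h1 _ (htan _ v hv) h2
    rw [e2, inner_smul_left]
    rw [inner_smul_right] at h3
    simpa using h3

end Vale.Agent.P220.H446
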