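import Vale.Agent.P220.R2.H481.HamExt
import Vale.Agent.P220.R2.H57.Tub

/-!
# The geodesic flow of a submanifold of Euclidean space, and transnormal functions
-/

open Set Filter Topology
open scoped ContDiff RealInnerProductSpace

set_option linter.unusedSectionVars false

namespace Vale.Agent.P220.H446

open Vale.Agent.P220.R2.H481 Vale.Agent.P220.R2

variable {E : Type} [NormedAddCommGroup E] [InnerProductSpace ℝ E] [FiniteDimensional ℝ E]

/-- A closed submanifold with a transnormal function, its gradient, and auxiliary data. -/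
structure TN (E : Type) [NormedAddCommGroup E] [InnerProductSpace ℝ E]
    [FiniteDimensional ℝ E] where
  Q : Set E
  UQ : Set E
  r : E → E
  hQ : H57.IsRet Q UQ r
  P : E → E →L[ℝ] E
  hP : IsProj Q P
  cQ : IsCompact Q
  connQ : IsConnected Q
  f : E → ℝ
  hf : ContDiff ℝ ∞ f
  g : E → E
  hg : ContDiff ℝ ∞ g
  gT : ∀ q ∈ Q, g q ∈ tan Q q
  gf : ∀ q ∈ Q, ∀ v ∈ tan Q q, ⟪g q, v⟫ = fderiv ℝ f q v
  gn : ∀ q ∈ Q, ‖g q‖ ^ 2 = 1 - f q ^ 2

/-- tangent spaces through the projection -/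
theorem mem_tan_iff {Q : Set E} {P : E → E →L[ℝ] E} (hP : IsProj Q P) {q v : E} (hq : q ∈ Q) :
    v ∈ tan Q q ↔ P q v = v :=
  ⟨hP.id q hq v, fun h => h ▸ hP.mem q hq v⟩

/-- identities along `Q` can be differentiated in tangential directions -/
theorem fderiv_congr_on {F G : Type} [NormedAddCommGroup F] [NormedSpace ℝ F]
    [NormedAddCommGroup G] [NormedSpace ℝ G] {K : Set F} {φ ψ : F → G} {φ' ψ' : F →L[ℝ] G} {x v : F}
    (hφ : HasFDerivAt φ φ' x) (hψ : HasFDerivAt ψ ψ' x) (h : ∀ y ∈ K, φ y = ψ y)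
    (hv : v ∈ tan K x) : φ' v = ψ' v := by
  obtain ⟨γ, -, h2, h3, h4⟩ := hv
  subst h3
  have e1 := hφ.comp_hasDerivAt 0 h4
  have e2 := hψ.comp_hasDerivAt 0 h4
  have e3 : (φ ∘ γ) = (ψ ∘ γ) := funext fun t => h _ (h2 t)
  rw [e3] at e1
  exact e1.unique e2

namespace TN

variable (D : TN E)

theorem fd_g (x : E) : HasFDerivAt D.g (fderiv ℝ D.g x) x :=
  (D.hg.differentiable (by simp) x).hasFDerivAt

theorem fd_f (x : E) : HasFDerivAt D.f (fderiv ℝ D.f x) x :=
  (D.hf.differentiable (by simp) x).hasFDerivAt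

theorem fd_P (x : E) : HasFDerivAt D.P (fderiv ℝ D.P x) x :=
  (D.hP.smooth.differentiable (by simp) x).hasFDerivAt

theorem Pg {q : E} (hq : q ∈ D.Q) : D.P q (D.g q) = D.g q := D.hP.id q hq _ (D.gT q hq)

/-- symmetry of the Hessian -/
theorem hess_symm {q a b : E} (hq : q ∈ D.Q) (ha : a ∈ tan D.Q q) (hb : b ∈ tan D.Q q) :
    ⟪fderiv ℝ D.g q a, b⟫ = ⟪fderiv ℝ D.g q b, a⟫ := by
  have hr : ContDiff ℝ ∞ D.r := D.hQ.smooth
  have hr1 : ∀ x, HasFDerivAt (fderiv ℝ D.r) (fderiv ℝ (fderiv ℝ D.r) x) x := fun x =>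
    ((hr.fderiv_right (m := ∞) (by simp)).differentiable (by simp) x).hasFDerivAt
  have hf1 : ∀ x, HasFDerivAt (fderiv ℝ D.f) (fderiv ℝ (fderiv ℝ D.f) x) x := fun x =>
    ((D.hf.fderiv_right (m := ∞) (by simp)).differentiable (by simp) x).hasFDerivAt
  have key : ∀ {a b : E}, a ∈ tan D.Q q → b ∈ tan D.Q q →
      ⟪fderiv ℝ D.g q a, b⟫ + ⟪D.g q, fderiv ℝ (fderiv ℝ D.r) q a b⟫ =
        fderiv ℝ (fderiv ℝ D.f) q a b + fderiv ℝ D.f q (fderiv ℝ (fderiv ℝ D.r) q a b) := by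
    intro a b ha hb
    have hb' : fderiv ℝ D.r q b = b := by
      have : b ∈ H57.Tan D.Q q := by rw [← tan_eq_Tan]; exact hb
      exact (D.hQ.mem_Tan hq).1 this
    have e0 : HasFDerivAt (fun x => fderiv ℝ D.r x b)
        ((ContinuousLinearMap.apply ℝ E b).comp (fderiv ℝ (fderiv ℝ D.r) q)) q :=
      (ContinuousLinearMap.apply ℝ E b).hasFDerivAt.comp q (hr1 q)
    have e1 := (D.fd_g q).inner ℝ e0
    have e2 : HasFDerivAt (fun x => fderiv ℝ D.f x (fderiv ℝ D.r x b)) _ q :=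
      (hf1 q).clm_apply e0
    have e3 := fderiv_congr_on e1 e2 (K := D.Q) (fun x hx => ?_) ha
    · simp only [ContinuousLinearMap.comp_apply, ContinuousLinearMap.apply_apply,
        ContinuousLinearMap.prod_apply, fderivInnerCLM_apply, add_apply,
        ContinuousLinearMap.flip_apply, hb'] at e3
      linarith
    · refine D.gf x hx _ ?_
      rw [tan_eq_Tan, D.hQ.mem_Tan hx]
      exact D.hQ.fderiv_mem hx b
  have h1 := key ha hb
  have h2 := key hb ha
  have s1 := second_symm' hr q a b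
  have s2 := second_symm' D.hf q a b
  rw [s1, s2] at h1
  linarith

/-- the Hessian as an operator, extended by zero to the normal space -/
noncomputable def A (x : E) : E →L[ℝ] E := (D.P x).comp ((fderiv ℝ D.g x).comp (D.P x))

theorem A_apply (x v : E) : D.A x v = D.P x (fderiv ℝ D.g x (D.P x v)) := rfl

theorem A_smooth : ContDiff ℝ ∞ D.A :=
  D.hP.smooth.clm_comp ((D.hg.fderiv_right (m := ∞) (by simp)).clm_comp D.hP.smooth)

theorem A_mem {q : E} (hq : q ∈ D.Q) (v : E) : D.A q v ∈ tan D.Q q := D.hP.mem q hq _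

theorem A_tan {q v : E} (hq : q ∈ D.Q) (hv : v ∈ tan D.Q q) :
    D.A q v = D.P q (fderiv ℝ D.g q v) := by rw [A_apply, D.hP.id q hq v hv]

theorem A_P {q : E} (hq : q ∈ D.Q) (v : E) : D.A q (D.P q v) = D.A q v := by
  rw [A_apply, A_apply, D.hP.sq hq]

theorem A_symm {q : E} (hq : q ∈ D.Q) (a b : E) : ⟪D.A q a, b⟫ = ⟪a, D.A q b⟫ := by
  have e1 : ⟪D.A q a, b⟫ = ⟪fderiv ℝ D.g q (D.P q a), D.P q b⟫ := D.hP.symm q hq _ _
  have e2 : ⟪a, D.A q b⟫ = ⟪D.P q a, fderiv ℝ D.g q (D.P q b)⟫ := (D.hP.symm q hq _ _).symm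
  rw [e1, e2, D.hess_symm hq (D.hP.mem q hq a) (D.hP.mem q hq b), real_inner_comm]

/-- the Hessian plus `f` -/
noncomputable def B (x : E) : E →L[ℝ] E := D.A x + D.f x • D.P x

theorem B_apply (x v : E) : D.B x v = D.A x v + D.f x • D.P x v := rfl

theorem B_smooth : ContDiff ℝ ∞ D.B := D.A_smooth.add (D.hf.smul D.hP.smooth)

theorem Ag {q : E} (hq : q ∈ D.Q) : D.A q (D.g q) = -(D.f q • D.g q) := by
  have h1 : ∀ w ∈ tan D.Q q, ⟪fderiv ℝ D.g q w, D.g q⟫ = -(D.f q * ⟪D.g q, w⟫) := by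
    intro w hw
    have e1 := (D.fd_g q).norm_sq
    have e2 : HasFDerivAt (fun x => 1 - D.f x ^ 2) _ q := ((D.fd_f q).pow 2).const_sub 1
    have e3 := fderiv_congr_on e1 e2 (K := D.Q) (fun x hx => D.gn x hx) hw
    have e4 := D.gf q hq w hw
    simp only [neg_apply, smul_apply, smul_eq_mul,
      ContinuousLinearMap.comp_apply, innerSL_apply_apply, ← e4] at e3
    simp at e3
    rw [real_inner_comm]
    linarith
  have h2 : ∀ w, ⟪D.A q (D.g q) + D.f q • D.g q, w⟫ = 0 := by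
    intro w
    have e1 : ⟪D.A q (D.g q), w⟫ = -(D.f q * ⟪D.g q, D.P q w⟫) := by
      rw [D.A_symm hq, A_apply, ← D.hP.symm q hq, D.Pg hq, real_inner_comm]
      exact h1 _ (D.hP.mem q hq w)
    have e2 : ⟪D.g q, D.P q w⟫ = ⟪D.g q, w⟫ := by rw [← D.hP.symm q hq, D.Pg hq]
    rw [inner_add_left, e1, inner_smul_left, e2]
    simp
  have h3 := ext_inner_right ℝ (x := D.A q (D.g q) + D.f q • D.g q) (y := 0)
    (fun w => by rw [h2, inner_zero_left])
  exact eq_neg_of_add_eq_zero_left h3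

theorem g_zero {q : E} (hq : q ∈ D.Q) (h : D.f q ^ 2 = 1) : D.g q = 0 := by
  have h1 := D.gn q hq
  rw [h, sub_self] at h1
  exact norm_eq_zero.1 (pow_eq_zero_iff (by norm_num) |>.1 h1)

/-- the derivative of the gradient at a focal point -/
theorem dg_focal {q w : E} (hq : q ∈ D.Q) (h : D.f q ^ 2 = 1) (hw : w ∈ tan D.Q q) :
    fderiv ℝ D.g q w = D.A q w := by
  have h0 := D.g_zero hq h
  have e1 := (D.fd_P q).clm_apply (D.fd_g q)
  have e3 := fderiv_congr_on e1 (D.fd_g q) (K := D.Q) (fun x hx => D.Pg hx) hw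
  simp only [add_apply, ContinuousLinearMap.comp_apply,
    ContinuousLinearMap.flip_apply, h0, map_zero, add_zero] at e3
  rw [D.A_tan hq hw]
  exact e3.symm

theorem AA {q : E} (hq : q ∈ D.Q) (h : D.f q ^ 2 = 1) (w : E) :
    D.A q (D.A q w) = -(D.f q • D.A q w) := by
  have h0 := D.g_zero hq h
  have key : ∀ w ∈ tan D.Q q, D.A q (D.A q w) = -(D.f q • D.A q w) := by
    intro w hw
    have hA : HasFDerivAt D.A (fderiv ℝ D.A q) q :=
      (D.A_smooth.differentiable (by simp) q).hasFDerivAt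
    have e1 := hA.clm_apply (D.fd_g q)
    have e2 := ((D.fd_f q).smul (D.fd_g q)).neg
    have e3 := fderiv_congr_on e1 e2 (K := D.Q) (fun x hx => D.Ag hx) hw
    simp only [add_apply, ContinuousLinearMap.comp_apply,
      ContinuousLinearMap.flip_apply, neg_apply,
      smul_apply, ContinuousLinearMap.smulRight_apply,
      h0, map_zero, smul_zero, add_zero, D.dg_focal hq h hw] at e3
    exact e3
  have h1 := key _ (D.hP.mem q hq w)
  rwa [D.A_P hq] at h1

end TN

end Vale.Agent.P220.H446
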