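import Vale.Agent.P220.H446.Psi

/-!
# Local inverses of the family of the normal geodesics
-/

open Set Filter Topology
open scoped ContDiff RealInnerProductSpace

set_option linter.unusedSectionVars false

namespace Vale.Agent.P220.H446

open Vale.Agent.P220.R2.H481 Vale.Agent.P220.R2

variable {E : Type} [NormedAddCommGroup E] [InnerProductSpace ℝ E] [FiniteDimensional ℝ E]

/-- the derivative of the canonical one-form along a map on which it is `τ ds` -/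
theorem om_of_lam {ψ : E × (ℝ × ℝ) → E × E} {U : Set (E × (ℝ × ℝ))} (hU : IsOpen U)
    (hψ : ContDiffOn ℝ ∞ ψ U)
    (h : ∀ x ∈ U, ∀ w : E × (ℝ × ℝ), ⟪(ψ x).2, (fderiv ℝ ψ x w).1⟫ = x.2.2 * w.2.1)
    {x : E × (ℝ × ℝ)} (hx : x ∈ U) (w w' : E × (ℝ × ℝ)) :
    om (fderiv ℝ ψ x w) (fderiv ℝ ψ x w') = w.2.2 * w'.2.1 - w'.2.2 * w.2.1 := by
  have hat : ContDiffAt ℝ ∞ ψ x := hψ.contDiffAt (hU.mem_nhds hx)
  have h1 : HasFDerivAt ψ (fderiv ℝ ψ x) x := (hat.differentiableAt (by simp)).hasFDerivAt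
  have h2 : HasFDerivAt (fderiv ℝ ψ) (fderiv ℝ (fderiv ℝ ψ) x) x :=
    ((hat.fderiv_right (m := ∞) (by simp)).differentiableAt (by simp)).hasFDerivAt
  have key : ∀ w w' : E × (ℝ × ℝ), ⟪(fderiv ℝ ψ x w).2, (fderiv ℝ ψ x w').1⟫ +
      ⟪(ψ x).2, (fderiv ℝ (fderiv ℝ ψ) x w w').1⟫ = w.2.2 * w'.2.1 := by
    intro w w'
    have e0 : HasDerivAt (fun t : ℝ => x + t • w) w 0 := by
      simpa using ((hasDerivAt_id (0 : ℝ)).smul_const w).const_add x
    have e1 : HasDerivAt (fun t : ℝ => ψ (x + t • w)) (fderiv ℝ ψ x w) 0 := by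
      have h1' : HasFDerivAt ψ (fderiv ℝ ψ x) (x + (0 : ℝ) • w) := by
        rwa [zero_smul, add_zero]
      exact HasFDerivAt.comp_hasDerivAt (f := fun t : ℝ => x + t • w) 0 h1' e0
    have e2 : HasDerivAt (fun t : ℝ => fderiv ℝ ψ (x + t • w)) (fderiv ℝ (fderiv ℝ ψ) x w) 0 := by
      have h2' : HasFDerivAt (fderiv ℝ ψ) (fderiv ℝ (fderiv ℝ ψ) x) (x + (0 : ℝ) • w) := by
        rwa [zero_smul, add_zero]
      exact HasFDerivAt.comp_hasDerivAt (l := fderiv ℝ ψ) (l' := fderiv ℝ (fderiv ℝ ψ) x)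
        (f := fun t : ℝ => x + t • w) 0 h2' e0
    have e3 : HasDerivAt (fun t : ℝ => fderiv ℝ ψ (x + t • w) w')
        (fderiv ℝ (fderiv ℝ ψ) x w w') 0 := by
      have := e2.clm_apply (hasDerivAt_const (0 : ℝ) w')
      simpa using this
    have e4 := (hasDerivAt_snd e1).inner ℝ (hasDerivAt_fst e3)
    have e5 : HasDerivAt (fun t : ℝ => (x + t • w).2.2 * w'.2.1) (w.2.2 * w'.2.1) 0 := by
      have e5' : HasDerivAt (fun t : ℝ => (x.2.2 + t * w.2.2) * w'.2.1) (w.2.2 * w'.2.1) 0 := by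
        have := (((hasDerivAt_id (0 : ℝ)).mul_const w.2.2).const_add x.2.2).mul_const w'.2.1
        simpa using this
      exact e5'
    have e6 : (fun t : ℝ => (x + t • w).2.2 * w'.2.1) =ᶠ[𝓝 0]
        fun t => ⟪(ψ (x + t • w)).2, (fderiv ℝ ψ (x + t • w) w').1⟫ := by
      have hc : ContinuousAt (fun t : ℝ => x + t • w) 0 := e0.continuousAt
      have hm : U ∈ 𝓝 ((fun t : ℝ => x + t • w) 0) := by
        simpa using hU.mem_nhds hx
      filter_upwards [hc.preimage_mem_nhds hm] with t ht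
      exact (h _ ht w').symm
    have e7 := e4.unique (e5.congr_of_eventuallyEq e6.symm)
    simp only [zero_smul, add_zero] at e7
    rw [← e7]
    ring
  have s : fderiv ℝ (fderiv ℝ ψ) x w w' = fderiv ℝ (fderiv ℝ ψ) x w' w :=
    (hat.isSymmSndFDerivAt (by simpa using ENat.LEInfty.out)) w w'
  have k1 := key w w'
  have k2 := key w' w
  rw [s] at k1
  unfold om
  linarith

namespace TN

variable (D : TN E)

theorem nv_reg {x : E} (hx : x ∈ D.Q) (h : D.f x ^ 2 < 1) :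
    D.NV x (-(‖D.g x‖⁻¹ • D.g x)) (Real.arccos (D.f x)) := by
  have hle := abs_le_one_iff_mul_self_le_one.2 (by nlinarith [D.f_sq_le hx] : D.f x * D.f x ≤ 1)
  obtain ⟨hf1, hf2⟩ := abs_le.1 hle
  have hc : Real.cos (Real.arccos (D.f x)) = D.f x := Real.cos_arccos hf1 hf2
  have hs : Real.sin (Real.arccos (D.f x)) = ‖D.g x‖ := by
    rw [Real.sin_arccos, ← D.gn x hx, Real.sqrt_sq (norm_nonneg _)]
  have hgp : 0 < ‖D.g x‖ := by
    rcases eq_or_lt_of_le (norm_nonneg (D.g x)) with h' | h'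
    · have := D.gn x hx
      rw [← h'] at this
      nlinarith
    · exact h'
  refine ⟨hx, ?_, ?_, hc.symm, ?_, ?_⟩
  · rw [mem_tan_iff D.hP hx, map_neg, map_smul, D.Pg hx]
  · rw [norm_neg, norm_smul, norm_inv, norm_norm, inv_mul_cancel₀ hgp.ne']
  · rw [hs, smul_neg, neg_neg, smul_smul, mul_inv_cancel₀ hgp.ne', one_smul]
  · rw [hc, map_neg, map_smul, D.Ag hx]
    module

/-- the domain of the retraction to the middle level -/
def OM : Set E := {x | x ∈ D.UQ ∧ D.f (D.r x) ^ 2 < 1}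

theorem OM_open : IsOpen D.OM :=
  D.hQ.isOpen.inter (isOpen_lt ((D.hf.continuous.comp D.hQ.smooth.continuous).pow 2)
    continuous_const)

theorem M_sub_OM : D.M ⊆ D.OM := by
  intro m hm
  refine ⟨D.hQ.sub hm.1, ?_⟩
  rw [D.hQ.fix m hm.1, hm.2]
  norm_num

/-- the retraction to the middle level along the normal geodesics -/
noncomputable def rM (Φ : ℝ → E × E → E × E) (x : E) : E :=
  (Φ (Real.arcsin (D.f (D.r x))) (D.r x, -(‖D.g (D.r x)‖⁻¹ • D.g (D.r x)))).1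

section

variable {D} {Φ : ℝ → E × E → E × E} (hΦ : IsGeo D.Q D.P Φ)

include hΦ

theorem rM_mem {x : E} (hx : x ∈ D.OM) : D.rM Φ x ∈ D.M := by
  have h := (NV.mh hΦ (D.nv_reg (D.hQ.maps x hx.1) hx.2)).1
  unfold rM
  have : Real.arcsin (D.f (D.r x)) = Real.pi / 2 - Real.arccos (D.f (D.r x)) := by
    rw [Real.arccos]
    ring
  rw [this]
  exact h

theorem rM_fix {m : E} (hm : m ∈ D.M) : D.rM Φ m = m := by
  unfold rM
  rw [D.hQ.fix m hm.1, hm.2, Real.arcsin_zero, hΦ.zero]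

theorem g_ne {x : E} (hx : x ∈ D.OM) : D.g (D.r x) ≠ 0 := by
  intro h0
  have h1 := D.gn _ (D.hQ.maps x hx.1)
  rw [h0, norm_zero] at h1
  have := hx.2
  nlinarith

theorem rM_smooth : ContDiffOn ℝ ∞ (D.rM Φ) D.OM := by
  intro x hx
  refine ContDiffAt.contDiffWithinAt ?_
  have hg0 := g_ne hΦ hx
  have hr : ContDiffAt ℝ ∞ D.r x := D.hQ.smooth.contDiffAt
  have hfr : ContDiffAt ℝ ∞ (fun x => D.f (D.r x)) x := (D.hf.comp D.hQ.smooth).contDiffAt
  have hgr : ContDiffAt ℝ ∞ (fun x => D.g (D.r x)) x := (D.hg.comp D.hQ.smooth).contDiffAt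
  have h2 : -1 < D.f (D.r x) ∧ D.f (D.r x) < 1 := by
    have := hx.2
    constructor <;> nlinarith
  have h1 : ContDiffAt ℝ ∞ (fun x => Real.arcsin (D.f (D.r x))) x :=
    ContDiffAt.comp (g := Real.arcsin) x
      (Real.contDiffAt_arcsin (ne_of_gt h2.1) (ne_of_lt h2.2)) hfr
  have h3 : ContDiffAt ℝ ∞ (fun x => -(‖D.g (D.r x)‖⁻¹ • D.g (D.r x))) x :=
    (((hgr.norm ℝ hg0).inv (norm_ne_zero_iff.2 hg0)).smul hgr).neg
  exact contDiffAt_fst.comp x (hΦ.smooth.contDiffAt.comp x (h1.prodMk (hr.prodMk h3)))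

theorem rM_fd {x : E} (hx : x ∈ D.OM) : HasFDerivAt (D.rM Φ) (fderiv ℝ (D.rM Φ) x) x :=
  (((rM_smooth hΦ).contDiffAt (D.OM_open.mem_nhds hx)).differentiableAt (by simp)).hasFDerivAt

theorem rM_tan {x : E} (hx : x ∈ D.OM) (w : E) : fderiv ℝ (D.rM Φ) x w ∈ tan D.M (D.rM Φ x) := by
  have hc : Continuous fun t : ℝ => x + t • w := by fun_prop
  have hU : {t : ℝ | x + t • w ∈ D.OM} ∈ 𝓝 (0 : ℝ) := by
    refine (D.OM_open.preimage hc).mem_nhds ?_
    change x + (0 : ℝ) • w ∈ D.OM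
    rw [zero_smul, add_zero]
    exact hx
  refine tan_of_local (γ := fun t : ℝ => D.rM Φ (x + t • w)) hU ?_ (fun t ht => rM_mem hΦ ht)
    (by simp) ?_
  · exact (rM_smooth hΦ).comp (contDiff_const.add (contDiff_id.smul contDiff_const)).contDiffOn
      (fun t ht => ht)
  · have e0 : HasDerivAt (fun t : ℝ => x + t • w) w 0 := by
      simpa using ((hasDerivAt_id (0 : ℝ)).smul_const w).const_add x
    have e1 : HasFDerivAt (D.rM Φ) (fderiv ℝ (D.rM Φ) x) ((fun t : ℝ => x + t • w) 0) := by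
      simpa using rM_fd hΦ hx
    exact e1.comp_hasDerivAt 0 e0

theorem rM_id {m a : E} (hm : m ∈ D.M) (ha : a ∈ tan D.M m) : fderiv ℝ (D.rM Φ) m a = a := by
  obtain ⟨γ, h1, h2, h3, h4⟩ := ha
  have e1 : HasFDerivAt (D.rM Φ) (fderiv ℝ (D.rM Φ) m) (γ 0) := by
    rw [h3]
    exact rM_fd hΦ (D.M_sub_OM hm)
  have e2 := e1.comp_hasDerivAt 0 h4
  have e3 : (D.rM Φ) ∘ γ = γ := funext fun t => rM_fix hΦ (h2 t)
  rw [e3] at e2
  exact e2.unique h4

/-- the tangent spaces of the middle level -/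
theorem mem_tan_M {m a : E} (hm : m ∈ D.M) (ha : a ∈ tan D.Q m) (hg : ⟪D.g m, a⟫ = 0) :
    a ∈ tan D.M m := by
  have hO := D.M_sub_OM hm
  have h0 : fderiv ℝ (D.rM Φ) m a = a := by
    have ha' := ha
    obtain ⟨γ, h1, h2, h3, h4⟩ := ha'
    have e1 : HasFDerivAt (D.rM Φ) (fderiv ℝ (D.rM Φ) m) (γ 0) := by
      rw [h3]
      exact rM_fd hΦ hO
    have e2 := e1.comp_hasDerivAt 0 h4
    -- the same derivative through the flow
    have f1 : HasDerivAt (fun t => D.f (γ t)) 0 0 := by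
      have := hd_comp D.hf h4 h3
      rwa [← D.gf m hm.1 a ha, hg] at this
    have f2 : HasDerivAt (fun t => Real.arcsin (D.f (γ t))) 0 0 := by
      have h5 : HasDerivAt Real.arcsin (1 / √(1 - 0 ^ 2)) ((fun t => D.f (γ t)) 0) := by
        simp only [h3, hm.2]
        exact Real.hasDerivAt_arcsin (by norm_num) (by norm_num)
      have := h5.comp 0 f1
      rwa [mul_zero] at this
    have f3 : DifferentiableAt ℝ (fun t => -(‖D.g (γ t)‖⁻¹ • D.g (γ t))) 0 := by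
      have hg0 : D.g (γ 0) ≠ 0 := by
        have := g_ne hΦ hO
        rwa [D.hQ.fix m hm.1, ← h3] at this
      have hgd : DifferentiableAt ℝ (fun t => D.g (γ t)) 0 :=
        (D.hg.comp h1).differentiable (by simp) 0
      exact (((hgd.norm ℝ hg0).inv (norm_ne_zero_iff.2 hg0)).smul hgd).neg
    have f4 : HasDerivAt (fun t => ((Real.arcsin (D.f (γ t)),
        (γ t, -(‖D.g (γ t)‖⁻¹ • D.g (γ t)))) : ℝ × (E × E)))
        (0, (a, deriv (fun t => -(‖D.g (γ t)‖⁻¹ • D.g (γ t))) 0)) 0 :=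
      f2.prodMk (h4.prodMk f3.hasDerivAt)
    have f5 := hd_comp hΦ.smooth f4 rfl
    have f6 : (fun t => D.rM Φ (γ t)) = fun t => (Φ (Real.arcsin (D.f (γ t)))
        (γ t, -(‖D.g (γ t)‖⁻¹ • D.g (γ t)))).1 := by
      funext t
      unfold rM
      rw [D.hQ.fix _ (h2 t)]
    have f7 : HasDerivAt (fun t => D.rM Φ (γ t)) _ 0 := e2
    rw [f6] at f7
    have f8 := f7.unique (hasDerivAt_fst f5)
    rw [f8]
    -- the derivative of the flow at time zero
    set y : E × E := (γ 0, -(‖D.g (γ 0)‖⁻¹ • D.g (γ 0))) with hy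
    set w : E × E := (a, deriv (fun t => -(‖D.g (γ t)‖⁻¹ • D.g (γ t))) 0) with hw
    have k0 : HasDerivAt (fun t : ℝ => ((0, y + t • w) : ℝ × (E × E))) (0, w) 0 := by
      refine (hasDerivAt_const _ _).prodMk ?_
      simpa using ((hasDerivAt_id (0 : ℝ)).smul_const w).const_add y
    have k1 := hd_comp hΦ.smooth k0 (x := ((0 : ℝ), y)) (by simp)
    have k2 : (fun t : ℝ => Φ (((0, y + t • w) : ℝ × (E × E))).1
        (((0, y + t • w) : ℝ × (E × E))).2) = fun t : ℝ => y + t • w := by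
      funext t
      exact hΦ.zero _
    rw [k2] at k1
    have k3 : HasDerivAt (fun t : ℝ => y + t • w) w 0 := by
      simpa using ((hasDerivAt_id (0 : ℝ)).smul_const w).const_add y
    have k4 := k1.unique k3
    have k5 : Real.arcsin (D.f (γ 0)) = 0 := by rw [h3, hm.2, Real.arcsin_zero]
    rw [k5]
    exact congrArg Prod.fst k4
  have h1 := rM_tan hΦ hO a
  rwa [h0, rM_fix hΦ hm] at h1

/-- **The symplectic form on the family of the normal geodesics.** -/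
theorem om_psi {m a a' : E} (hm : m ∈ D.M) (ha : a ∈ tan D.M m) (ha' : a' ∈ tan D.M m)
    (s τ b c b' c' : ℝ) :
    om (fderiv ℝ (D.Psi Φ) (m, (s, τ)) (a, (b, c))) (fderiv ℝ (D.Psi Φ) (m, (s, τ)) (a', (b', c')))
      = c * b' - c' * b := by
  set ψ : E × (ℝ × ℝ) → E × E := fun x => D.Psi Φ (D.rM Φ x.1, x.2) with hψ
  set U : Set (E × (ℝ × ℝ)) := D.OM ×ˢ univ with hU
  have hUo : IsOpen U := D.OM_open.prod isOpen_univ
  have hψs : ContDiffOn ℝ ∞ ψ U :=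
    (Psi_smooth hΦ).comp_contDiffOn (((rM_smooth hΦ).comp contDiff_fst.contDiffOn
      (fun x hx => hx.1)).prodMk contDiff_snd.contDiffOn)
  have hfd : ∀ x ∈ U, ∀ w : E × (ℝ × ℝ), fderiv ℝ ψ x w =
      fderiv ℝ (D.Psi Φ) (D.rM Φ x.1, x.2) (fderiv ℝ (D.rM Φ) x.1 w.1, w.2) := by
    intro x hx w
    have e1 : HasFDerivAt (fun x : E × (ℝ × ℝ) => (D.rM Φ x.1, x.2))
        (((fderiv ℝ (D.rM Φ) x.1).comp (ContinuousLinearMap.fst ℝ E (ℝ × ℝ))).prod
          (ContinuousLinearMap.snd ℝ E (ℝ × ℝ))) x :=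
      ((rM_fd hΦ hx.1).comp x hasFDerivAt_fst).prodMk hasFDerivAt_snd
    have e2 : HasFDerivAt ψ ((fderiv ℝ (D.Psi Φ) (D.rM Φ x.1, x.2)).comp
        (((fderiv ℝ (D.rM Φ) x.1).comp (ContinuousLinearMap.fst ℝ E (ℝ × ℝ))).prod
          (ContinuousLinearMap.snd ℝ E (ℝ × ℝ)))) x :=
      HasFDerivAt.comp (g := D.Psi Φ) x
        (((Psi_smooth hΦ).differentiable (by simp) (D.rM Φ x.1, x.2)).hasFDerivAt) e1
    rw [e2.fderiv]
    rfl
  have hlam : ∀ x ∈ U, ∀ w : E × (ℝ × ℝ), ⟪(ψ x).2, (fderiv ℝ ψ x w).1⟫ = x.2.2 * w.2.1 := by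
    rintro ⟨x, s, τ⟩ hx ⟨w, b, c⟩
    rw [hfd _ hx]
    exact Psi_lam hΦ (rM_mem hΦ hx.1) s τ (rM_tan hΦ hx.1 w) b c
  have hx : ((m, (s, τ)) : E × (ℝ × ℝ)) ∈ U := ⟨D.M_sub_OM hm, mem_univ _⟩
  have h1 := om_of_lam hUo hψs hlam hx (a, (b, c)) (a', (b', c'))
  rw [hfd _ hx, hfd _ hx] at h1
  simp only [rM_id hΦ hm ha, rM_id hΦ hm ha', rM_fix hΦ hm] at h1
  exact h1

end

end TN

end Vale.Agent.P220.H446
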