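import Vale.Agent.P220.H446.Nor
import Vale.Agent.P220.R2.H180.Slice

/-!
# Exact Lagrangians whose covectors are parallel to the gradient
-/

open Set Filter Topology
open scoped ContDiff RealInnerProductSpace

set_option linter.unusedSectionVars false

namespace Vale.Agent.P220.H446

open Vale.Agent.P220.R2.H481 Vale.Agent.P220.R2

variable {E : Type} [NormedAddCommGroup E] [InnerProductSpace ℝ E] [FiniteDimensional ℝ E]

/-- an exact Lagrangian along which the covectors are parallel to the gradient, with all data -/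
structure LG (D : TN E) where
  n : ℕ
  dQ : ∀ q ∈ D.Q, Module.finrank ℝ (H57.Tn D.r q) = n
  L : Set (E × E)
  UL : Set (E × E)
  ρ : E × E → E × E
  hL : H57.IsRet L UL ρ
  cL : IsCompact L
  dL : ∀ z ∈ L, Module.finrank ℝ (H57.Tn ρ z) = n
  ne : L.Nonempty
  sub : ∀ z ∈ L, z ∈ cotangent D.Q
  F : E × E → ℝ
  hF : ContDiff ℝ ∞ F
  ex : ∀ z ∈ L, ∀ v ∈ tan L z, fderiv ℝ F z v = ⟪z.2, v.1⟫
  par : ∀ z ∈ L, D.f z.1 ^ 2 < 1 → ∀ v ∈ tan D.Q z.1, ⟪D.g z.1, v⟫ = 0 → ⟪z.2, v⟫ = 0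
  conn : IsConnected {q | q ∈ D.Q ∧ D.f q = 0}

/-- a curve that is in a set near zero has a tangential velocity -/
theorem tan_of_local {F : Type} [NormedAddCommGroup F] [NormedSpace ℝ F] {K : Set F} {x v : F}
    {γ : ℝ → F} {U : Set ℝ} (hU : U ∈ 𝓝 (0 : ℝ)) (hγ : ContDiffOn ℝ ∞ γ U)
    (hK : ∀ t ∈ U, γ t ∈ K) (h0 : γ 0 = x) (hd : HasDerivAt γ v 0) : v ∈ tan K x := by
  obtain ⟨δ, hδ, hball⟩ := Metric.mem_nhds_iff.1 hU
  set β : ℝ → ℝ := fun t => δ / 2 * Real.sin (t / (δ / 2)) with hβ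
  have hβs : ContDiff ℝ ∞ β :=
    contDiff_const.mul (Real.contDiff_sin.comp (contDiff_id.div_const _))
  have hβm : ∀ t, β t ∈ U := by
    intro t
    refine hball ?_
    rw [Metric.mem_ball, Real.dist_eq, sub_zero]
    simp only [hβ]
    rw [abs_mul, abs_of_pos (by linarith : (0 : ℝ) < δ / 2)]
    have h1 := Real.abs_sin_le_one (t / (δ / 2))
    nlinarith
  have hβ0 : β 0 = 0 := by simp [hβ]
  have hβd : HasDerivAt β 1 0 := by
    have h1 : HasDerivAt (fun t : ℝ => t / (δ / 2)) (1 / (δ / 2)) 0 :=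
      (hasDerivAt_id (0 : ℝ)).div_const _
    have h2 := (h1.sin).const_mul (δ / 2)
    refine h2.congr_deriv ?_
    rw [zero_div, Real.cos_zero]
    field_simp
  refine ⟨fun t => γ (β t), ?_, fun t => hK _ (hβm t), ?_, ?_⟩
  · exact hγ.comp_contDiff hβs hβm
  · simp only [hβ0, h0]
  · have h1 : HasDerivAt γ v (β 0) := by rwa [hβ0]
    have h2 := h1.scomp (0 : ℝ) hβd
    rwa [one_smul] at h2

theorem om_add_left (a b c : E × E) : om (a + b) c = om a c + om b c := by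
  simp only [om, Prod.fst_add, Prod.snd_add, inner_add_left, inner_add_right]
  ring

theorem om_add_right (a b c : E × E) : om a (b + c) = om a b + om a c := by
  simp only [om, Prod.fst_add, Prod.snd_add, inner_add_left, inner_add_right]
  ring

theorem om_smul_left (k : ℝ) (a b : E × E) : om (k • a) b = k * om a b := by
  simp only [om, Prod.smul_fst, Prod.smul_snd, inner_smul_left, inner_smul_right]
  simp
  ring

theorem om_smul_right (k : ℝ) (a b : E × E) : om a (k • b) = k * om a b := by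
  simp only [om, Prod.smul_fst, Prod.smul_snd, inner_smul_left, inner_smul_right]
  simp
  ring

theorem om_self (a : E × E) : om a a = 0 := sub_self _

namespace LG

variable {D : TN E} (Λ : LG D)

theorem mem_tan {z v : E × E} (hz : z ∈ Λ.L) : v ∈ tan Λ.L z ↔ v ∈ H57.Tn Λ.ρ z := by
  rw [tan_eq_Tan]
  exact Λ.hL.mem_Tan hz

theorem mem_tanQ {q v : E} (hq : q ∈ D.Q) : v ∈ tan D.Q q ↔ v ∈ H57.Tn D.r q := by
  rw [tan_eq_Tan]
  exact D.hQ.mem_Tan hq

theorem tan_sub {z v : E × E} (hv : v ∈ tan Λ.L z) : v ∈ tan (cotangent D.Q) z := by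
  obtain ⟨γ, h1, h2, h3, h4⟩ := hv
  exact ⟨γ, h1, fun t => Λ.sub _ (h2 t), h3, h4⟩

theorem iso {z v w : E × E} (hz : z ∈ Λ.L) (hv : v ∈ tan Λ.L z) (hw : w ∈ tan Λ.L z) :
    om v w = 0 := by
  have h := H180.isotropic Λ.hL Λ.hF (fun z hz v hv => Λ.ex z hz v ((Λ.mem_tan hz).2 hv)) hz
    ((Λ.mem_tan hz).1 hv) ((Λ.mem_tan hz).1 hw)
  exact sub_eq_zero.2 h

/-- **Tangent spaces of `L` are maximal isotropic.** -/
theorem maxi {z ξ : E × E} (hz : z ∈ Λ.L) (hξ : ξ ∈ tan (cotangent D.Q) z)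
    (h : ∀ u ∈ tan Λ.L z, om ξ u = 0) : ξ ∈ tan Λ.L z := by
  by_contra hcon
  have hzc := Λ.sub z hz
  have hq := hzc.1
  rw [Λ.mem_tan hz] at hcon
  set T₀ : Submodule ℝ (E × E) := H57.Tn Λ.ρ z ⊔ Submodule.span ℝ {ξ} with hT₀
  have hlt : H57.Tn Λ.ρ z < T₀ := by
    refine lt_of_le_of_ne le_sup_left fun heq => hcon ?_
    rw [heq]
    exact Submodule.mem_sup_right (Submodule.mem_span_singleton_self ξ)
  have hfr : Λ.n < Module.finrank ℝ T₀ := by
    rw [← Λ.dL z hz]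
    exact Submodule.finrank_lt_finrank_of_lt hlt
  have hdec : ∀ w ∈ T₀, ∃ u ∈ tan Λ.L z, ∃ c : ℝ, w = u + c • ξ := by
    intro w hw
    obtain ⟨u, hu, y, hy, rfl⟩ := Submodule.mem_sup.1 hw
    obtain ⟨c, rfl⟩ := Submodule.mem_span_singleton.1 hy
    exact ⟨u, (Λ.mem_tan hz).2 hu, c, rfl⟩
  have hcomp : ∀ w ∈ T₀, w.1 ∈ tan D.Q z.1 ∧ w.2 = fderiv ℝ D.P z.1 w.1 z.2 + D.P z.1 w.2 := by
    intro w hw
    obtain ⟨u, hu, c, rfl⟩ := hdec w hw
    obtain ⟨a1, a2⟩ := D.hP.tan_cotangent (Λ.tan_sub hu)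
    obtain ⟨b1, b2⟩ := D.hP.tan_cotangent hξ
    constructor
    · rw [mem_tan_iff D.hP hq] at a1 b1 ⊢
      rw [Prod.fst_add, Prod.smul_fst, map_add, map_smul, a1, b1]
    · rw [Prod.fst_add, Prod.smul_fst, Prod.snd_add, Prod.smul_snd, map_add, map_add, map_smul,
        map_smul, add_apply, smul_apply]
      nth_rewrite 1 [a2, b2]
      module
  have hiso : ∀ v ∈ T₀, ∀ w ∈ T₀, om v w = 0 := by
    intro v hv w hw
    obtain ⟨u, hu, c, rfl⟩ := hdec v hv
    obtain ⟨u', hu', c', rfl⟩ := hdec w hw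
    rw [om_add_left, om_add_right, om_add_right, om_smul_left, om_smul_right, om_smul_left,
      om_smul_right, om_self, h u' hu', om_swap u ξ, h u hu, Λ.iso hz hu hu']
    ring
  set Lm : (E × E) →ₗ[ℝ] (E × E) :=
    LinearMap.prodMap LinearMap.id (D.P z.1 : E →ₗ[ℝ] E) with hLm
  have hLm1 : ∀ w, Lm w = (w.1, D.P z.1 w.2) := fun w => rfl
  set T := T₀.map Lm with hT
  have hTfr : Module.finrank ℝ T = Module.finrank ℝ T₀ := by
    have hinj : Function.Injective (Lm.domRestrict T₀) := by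
      rw [injective_iff_map_eq_zero]
      rintro ⟨w, hw⟩ h0
      have h0' : Lm w = 0 := h0
      rw [hLm1] at h0'
      have h1 : w.1 = 0 := congrArg Prod.fst h0'
      have h2 : D.P z.1 w.2 = 0 := congrArg Prod.snd h0'
      have h3 := (hcomp w hw).2
      rw [h1, h2, map_zero, add_zero] at h3
      apply Subtype.ext
      exact Prod.ext h1 h3
    have h4 := LinearMap.finrank_range_of_inj hinj
    have h5 : LinearMap.range (Lm.domRestrict T₀) = T₀.map Lm := by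
      ext y
      simp [Submodule.mem_map]
    rw [hT, ← h5]
    exact h4
  have hle : Module.finrank ℝ T ≤ Module.finrank ℝ (H57.Tn D.r z.1) := by
    refine H180.finrank_isotropic ?_ ?_
    · rintro _ ⟨w, hw, rfl⟩
      rw [hLm1]
      exact ⟨(mem_tanQ hq).1 (hcomp w hw).1, (mem_tanQ hq).1 (D.hP.mem _ hq _)⟩
    · rintro _ ⟨v, hv, rfl⟩ _ ⟨w, hw, rfl⟩
      rw [hLm1, hLm1]
      have h1 := hiso v hv w hw
      have h2 := sub_eq_zero.1 h1
      simp only
      rw [D.hP.symm _ hq, D.hP.symm _ hq, D.hP.id _ hq _ (hcomp w hw).1,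
        D.hP.id _ hq _ (hcomp v hv).1]
      exact h2
  rw [hTfr, Λ.dQ _ hq] at hle
  omega

end LG

namespace TN

variable (D : TN E)

theorem f_sq_le {x : E} (hx : x ∈ D.Q) : D.f x ^ 2 ≤ 1 := by
  have := D.gn x hx
  nlinarith [sq_nonneg ‖D.g x‖]

/-- the Hessian does not vanish at a focal point -/
theorem exists_A_ne (hM : ∃ m ∈ D.Q, D.f m = 0) {q : E} (hq : q ∈ D.Q) (hf : D.f q ^ 2 = 1) :
    ∃ w, D.A q w ≠ 0 := by
  by_contra hcon
  push Not at hcon
  set Z₀ : Set E := {x | D.f x ^ 2 = 1 ∧ D.A x = 0} with hZ₀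
  have hZcl : IsClosed Z₀ :=
    (isClosed_eq (D.hf.continuous.pow 2) continuous_const).inter
      (isClosed_eq D.A_smooth.continuous continuous_const)
  set O : Set E := {x | ‖D.A x‖ < 1 / 2 ∧ 1 / 4 < D.f x ^ 2} with hO
  have hOo : IsOpen O := (isOpen_lt D.A_smooth.continuous.norm continuous_const).inter
    (isOpen_lt continuous_const (D.hf.continuous.pow 2))
  have hOZ : ∀ x ∈ D.Q, x ∈ O → x ∈ Z₀ := by
    rintro x hx ⟨h1, h2⟩
    have hf1 : D.f x ^ 2 = 1 := by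
      by_contra hne
      have hlt : D.f x ^ 2 < 1 := lt_of_le_of_ne (D.f_sq_le hx) hne
      have hgn := D.gn x hx
      have hgp : 0 < ‖D.g x‖ := by
        rcases eq_or_lt_of_le (norm_nonneg (D.g x)) with h | h
        · rw [← h] at hgn
          nlinarith
        · exact h
      have h3 := congrArg norm (D.Ag hx)
      rw [norm_neg, norm_smul] at h3
      have h4 := (D.A x).le_opNorm (D.g x)
      rw [h3] at h4
      have h5 : ‖D.f x‖ ≤ ‖D.A x‖ := le_of_mul_le_mul_right h4 hgp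
      have h6 : |D.f x| < 1 / 2 := lt_of_le_of_lt h5 h1
      have h7 := abs_lt.1 h6
      nlinarith
    refine ⟨hf1, ?_⟩
    ext w
    rw [zero_apply]
    by_contra hne
    have h3 := congrArg norm (D.AA hx hf1 w)
    rw [norm_neg, norm_smul] at h3
    have h4 := (D.A x).le_opNorm (D.A x w)
    rw [h3] at h4
    have hp : 0 < ‖D.A x w‖ := norm_pos_iff.2 hne
    have h5 : ‖D.f x‖ ≤ ‖D.A x‖ := le_of_mul_le_mul_right h4 hp
    have h6 : |D.f x| = 1 := by
      rw [← sq_eq_sq₀ (abs_nonneg _) zero_le_one, sq_abs, hf1, one_pow]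
    rw [Real.norm_eq_abs, h6] at h5
    linarith
  obtain ⟨m, hm, hfm⟩ := hM
  have hqZ : q ∈ Z₀ := ⟨hf, by ext w; rw [hcon w, zero_apply]⟩
  have hqO : q ∈ O := by
    refine ⟨?_, ?_⟩
    · rw [hqZ.2, norm_zero]
      norm_num
    · rw [hf]
      norm_num
  have hmZ : m ∉ Z₀ := by
    rintro ⟨h1, -⟩
    rw [hfm] at h1
    norm_num at h1
  obtain ⟨x, hx, hxO, hxZ⟩ := D.connQ.isPreconnected O Z₀ᶜ hOo hZcl.isOpen_compl
    (fun x hx => by
      by_cases h : x ∈ Z₀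
      · left
        refine ⟨?_, ?_⟩
        · rw [h.2, norm_zero]
          norm_num
        · rw [h.1]
          norm_num
      · exact Or.inr h)
    ⟨q, hq, hqO⟩ ⟨m, hm, hmZ⟩
  exact hxZ (hOZ x hx hxO)

/-- points of the closure of the set of covectors parallel to the gradient lie on normal
geodesics -/
theorem exists_NV (hM : ∃ m ∈ D.Q, D.f m = 0) {x y : E} (hx : x ∈ D.Q) (hy : y ∈ tan D.Q x)
    (hB : D.B x y = 0) (hpar : D.f x ^ 2 < 1 → ∃ c : ℝ, y = c • D.g x) :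
    ∃ v θ, ∃ τ : ℝ, D.NV x v θ ∧ y = τ • v := by
  have hle := abs_le_one_iff_mul_self_le_one.2 (by nlinarith [D.f_sq_le hx] : D.f x * D.f x ≤ 1)
  obtain ⟨hf1, hf2⟩ := abs_le.1 hle
  have hc : Real.cos (Real.arccos (D.f x)) = D.f x := Real.cos_arccos hf1 hf2
  have hs : Real.sin (Real.arccos (D.f x)) = ‖D.g x‖ := by
    rw [Real.sin_arccos, ← D.gn x hx, Real.sqrt_sq (norm_nonneg _)]
  rcases lt_or_eq_of_le (D.f_sq_le hx) with h | h
  · have hgp : 0 < ‖D.g x‖ := by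
      rcases eq_or_lt_of_le (norm_nonneg (D.g x)) with h' | h'
      · have := D.gn x hx
        rw [← h'] at this
        nlinarith
      · exact h'
    obtain ⟨c, hc'⟩ := hpar h
    refine ⟨-(‖D.g x‖⁻¹ • D.g x), Real.arccos (D.f x), -(c * ‖D.g x‖), ⟨hx, ?_, ?_, hc.symm, ?_, ?_⟩,
      ?_⟩
    · rw [mem_tan_iff D.hP hx, map_neg, map_smul, D.Pg hx]
    · rw [norm_neg, norm_smul, norm_inv, norm_norm, inv_mul_cancel₀ hgp.ne']
    · rw [hs, smul_neg, neg_neg, smul_smul, mul_inv_cancel₀ hgp.ne', one_smul]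
    · rw [hc, map_neg, map_smul, D.Ag hx]
      module
    · rw [smul_neg, neg_smul, neg_neg, smul_smul, mul_assoc, mul_inv_cancel₀ hgp.ne', mul_one]
      exact hc'
  · have hg0 := D.g_zero hx h
    have hs0 : Real.sin (Real.arccos (D.f x)) = 0 := by rw [hs, hg0, norm_zero]
    by_cases hy0 : y = 0
    · obtain ⟨w, hw⟩ := D.exists_A_ne hM hx h
      have hp : 0 < ‖D.A x w‖ := norm_pos_iff.2 hw
      refine ⟨‖D.A x w‖⁻¹ • D.A x w, Real.arccos (D.f x), 0, ⟨hx, ?_, ?_, hc.symm, ?_, ?_⟩, ?_⟩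
      · rw [mem_tan_iff D.hP hx, map_smul, D.hP.id _ hx _ (D.A_mem hx w)]
      · rw [norm_smul, norm_inv, norm_norm, inv_mul_cancel₀ hp.ne']
      · rw [hs0, hg0, zero_smul, neg_zero]
      · rw [hc, map_smul, D.AA hx h]
        module
      · rw [hy0, zero_smul]
    · have hp : 0 < ‖y‖ := norm_pos_iff.2 hy0
      refine ⟨‖y‖⁻¹ • y, Real.arccos (D.f x), ‖y‖, ⟨hx, ?_, ?_, hc.symm, ?_, ?_⟩, ?_⟩
      · rw [mem_tan_iff D.hP hx, map_smul, D.hP.id _ hx _ hy]
      · rw [norm_smul, norm_inv, norm_norm, inv_mul_cancel₀ hp.ne']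
      · rw [hs0, hg0, zero_smul, neg_zero]
      · rw [B_apply, D.hP.id _ hx _ hy] at hB
        rw [hc, map_smul, eq_neg_of_add_eq_zero_left hB]
        module
      · rw [smul_smul, mul_inv_cancel₀ hp.ne', one_smul]

end TN

namespace LG

variable {D : TN E} (Λ : LG D)

include Λ in
theorem hM : ∃ m ∈ D.Q, D.f m = 0 := by
  obtain ⟨m, hm⟩ := Λ.conn.nonempty
  exact ⟨m, hm.1, hm.2⟩

theorem par' {z : E × E} (hz : z ∈ Λ.L) (h : D.f z.1 ^ 2 < 1) : ∃ c : ℝ, z.2 = c • D.g z.1 := by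
  have hzc := Λ.sub z hz
  have hq := hzc.1
  have hgn := D.gn _ hq
  have hgp : ‖D.g z.1‖ ^ 2 ≠ 0 := by
    rw [hgn]
    intro h0
    nlinarith
  set c : ℝ := ⟪D.g z.1, z.2⟫ / ‖D.g z.1‖ ^ 2 with hc
  refine ⟨c, ?_⟩
  set v : E := z.2 - c • D.g z.1 with hv
  have hvt : v ∈ tan D.Q z.1 := by
    rw [mem_tan_iff D.hP hq, hv, map_sub, map_smul, D.Pg hq, D.hP.id _ hq _ hzc.2]
  have hgv : ⟪D.g z.1, v⟫ = 0 := by
    rw [hv, inner_sub_right, inner_smul_right, real_inner_self_eq_norm_sq, hc,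
      div_mul_cancel₀ _ hgp, sub_self]
  have hpv := Λ.par z hz h v hvt hgv
  have hvv : ⟪v, v⟫ = 0 := by
    nth_rewrite 1 [hv]
    rw [inner_sub_left, inner_smul_left, hpv, hgv]
    simp
  rw [real_inner_self_eq_norm_sq] at hvv
  have hv0 : v = 0 := norm_eq_zero.1 (pow_eq_zero_iff (by norm_num) |>.1 hvv)
  rw [hv] at hv0
  exact sub_eq_zero.1 hv0

/-- **Over the focal sets `L` is conormal.** -/
theorem B_zero {z : E × E} (hz : z ∈ Λ.L) : D.B z.1 z.2 = 0 := by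
  have hreg : ∀ z ∈ Λ.L, D.f z.1 ^ 2 < 1 → D.B z.1 z.2 = 0 := by
    intro z hz h
    have hzc := Λ.sub z hz
    obtain ⟨c, hc⟩ := Λ.par' hz h
    rw [TN.B_apply, D.hP.id _ hzc.1 _ hzc.2, hc, map_smul, D.Ag hzc.1]
    module
  by_contra hne
  have hfoc : ∀ z ∈ Λ.L, D.B z.1 z.2 ≠ 0 → D.f z.1 ^ 2 = 1 := fun z hz hne => by
    by_contra h
    exact hne (hreg z hz (lt_of_le_of_ne (D.f_sq_le (Λ.sub z hz).1) h))
  have hzc := Λ.sub z hz
  have hf := hfoc z hz hne
  obtain ⟨w, hw⟩ := D.exists_A_ne Λ.hM hzc.1 hf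
  set b : ℝ := ‖D.B z.1 z.2‖ ^ 2 with hb
  have hbp : 0 < b := by
    have := norm_pos_iff.2 hne
    positivity
  -- a cutoff
  set ψ : ℝ → ℝ := fun t => Real.smoothTransition (2 * t / b - 1) with hψ
  have hψs : ContDiff ℝ ∞ ψ :=
    Real.smoothTransition.contDiff.comp (((contDiff_const.mul contDiff_id).div_const _).sub
      contDiff_const)
  have hψ0 : ψ 0 = 0 := Real.smoothTransition.zero_of_nonpos (by simp)
  have hψ1 : ψ b = 1 := Real.smoothTransition.one_of_one_le (by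
    rw [mul_div_cancel_right₀ _ hbp.ne']
    norm_num)
  set Y : E × E → E × E := fun y => (0, ψ (‖D.B y.1 y.2‖ ^ 2) • D.A y.1 w) with hY
  have hYs : ContDiff ℝ ∞ Y := by
    refine contDiff_const.prodMk (ContDiff.smul (hψs.comp ?_) ?_)
    · exact ((D.B_smooth.comp contDiff_fst).clm_apply contDiff_snd).norm_sq ℝ
    · exact (D.A_smooth.comp contDiff_fst).clm_apply contDiff_const
  have hzero : ∀ y ∈ Λ.L, (0 : E × E) ∈ tan Λ.L y := fun y hy =>
    ⟨fun _ => y, contDiff_const, fun _ => hy, rfl, hasDerivAt_const _ _⟩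
  have htan : ∀ y ∈ Λ.L, Y y ∈ tan Λ.L y := by
    intro y hy
    by_cases hBy : D.B y.1 y.2 = 0
    · have : Y y = 0 := by
        simp only [hY, hBy, norm_zero]
        rw [zero_pow two_ne_zero, hψ0, zero_smul]
        rfl
      rw [this]
      exact hzero y hy
    · have hyc := Λ.sub y hy
      have hfy := hfoc y hy hBy
      have hAw : ((0, D.A y.1 w) : E × E) ∈ tan Λ.L y := by
        refine Λ.maxi hy ?_ ?_
        · have h0 : (0 : E) ∈ tan D.Q y.1 :=
            ⟨fun _ => y.1, contDiff_const, fun _ => hyc.1, rfl, hasDerivAt_const _ _⟩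
          have h1 := D.hP.mem_tan_cotangent hyc h0 (D.A y.1 w)
          rwa [map_zero, zero_apply, zero_add, D.hP.id _ hyc.1 _ (D.A_mem hyc.1 w)] at h1
        · intro u hu
          have hu1 := (D.hP.tan_cotangent (Λ.tan_sub hu)).1
          obtain ⟨γ, g1, g2, g3, g4⟩ := hu
          have hev : ∀ᶠ t in 𝓝 (0 : ℝ), D.g (γ t).1 = 0 := by
            have c1 : Continuous fun t => D.B (γ t).1 (γ t).2 :=
              (D.B_smooth.continuous.comp (continuous_fst.comp g1.continuous)).clm_apply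
                (continuous_snd.comp g1.continuous)
            have c2 : ∀ᶠ t in 𝓝 (0 : ℝ), D.B (γ t).1 (γ t).2 ≠ 0 :=
              c1.continuousAt.eventually_ne (by rw [g3]; exact hBy)
            filter_upwards [c2] with t ht
            exact D.g_zero (Λ.sub _ (g2 t)).1 (hfoc _ (g2 t) ht)
          have hd : HasDerivAt (fun t => D.g (γ t).1) (fderiv ℝ D.g y.1 u.1) 0 := by
            have h1 := (D.fd_g (γ 0).1).comp_hasDerivAt 0 (hasDerivAt_fst g4)
            rwa [g3] at h1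
          have hd2 : fderiv ℝ D.g y.1 u.1 = 0 :=
            (hd.congr_of_eventuallyEq (hev.mono fun t ht => ht.symm)).unique
              (hasDerivAt_const (0 : ℝ) (0 : E))
          have hAu : D.A y.1 u.1 = 0 := by
            rw [D.A_tan hyc.1 hu1, hd2, map_zero]
          change ⟪D.A y.1 w, u.1⟫ - ⟪u.2, (0 : E)⟫ = 0
          rw [D.A_symm hyc.1, hAu, inner_zero_right, inner_zero_right, sub_zero]
      have h2 : Y y = ψ (‖D.B y.1 y.2‖ ^ 2) • ((0, D.A y.1 w) : E × E) := by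
        simp only [hY, Prod.smul_mk, smul_zero]
      rw [h2]
      exact tan_smul' _ hAw
  -- the line
  set γ : ℝ → E × E := fun t => (z.1, z.2 + t • D.A z.1 w) with hγ
  have hγd : ∀ t, HasDerivAt γ (Y (γ t)) t := by
    intro t
    have h1 : HasDerivAt γ ((0, D.A z.1 w) : E × E) t := by
      have h2 : HasDerivAt (fun t : ℝ => z.2 + t • D.A z.1 w) (D.A z.1 w) t := by
        simpa using ((hasDerivAt_id t).smul_const (D.A z.1 w)).const_add z.2
      exact (hasDerivAt_const t z.1).prodMk h2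
    refine h1.congr_deriv ?_
    have h3 : D.B z.1 (z.2 + t • D.A z.1 w) = D.B z.1 z.2 := by
      rw [map_add, map_smul, TN.B_apply D z.1 (D.A z.1 w), D.AA hzc.1 hf,
        D.hP.id _ hzc.1 _ (D.A_mem hzc.1 w), neg_add_cancel, smul_zero, add_zero]
    simp only [hY, hγ, h3]
    rw [← hb, hψ1, one_smul]
  have hin := invariant Λ.cL.isClosed hYs htan hγd (by
    simp only [hγ, zero_smul, add_zero]
    exact hz)
  obtain ⟨R, hR⟩ := Λ.cL.isBounded.exists_norm_le
  have hp : 0 < ‖D.A z.1 w‖ := norm_pos_iff.2 hw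
  set t₀ : ℝ := (|R| + ‖z.2‖ + 1) / ‖D.A z.1 w‖ with ht₀
  have h1 := hR _ (hin t₀)
  have h2 : ‖z.2 + t₀ • D.A z.1 w‖ ≤ R := (norm_snd_le (γ t₀)).trans h1
  have h3 : ‖t₀ • D.A z.1 w‖ = |R| + ‖z.2‖ + 1 := by
    rw [norm_smul, Real.norm_eq_abs, ht₀, abs_of_nonneg (by positivity),
      div_mul_cancel₀ _ hp.ne']
  have h4 := norm_sub_norm_le (t₀ • D.A z.1 w) (-z.2)
  rw [norm_neg, sub_neg_eq_add, add_comm (t₀ • D.A z.1 w), h3] at h4
  linarith [le_abs_self R]

/-- every point of `L` lies on a normal geodesic -/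
theorem nv {z : E × E} (hz : z ∈ Λ.L) : ∃ v θ, ∃ τ : ℝ, D.NV z.1 v θ ∧ z.2 = τ • v :=
  D.exists_NV Λ.hM (Λ.sub z hz).1 (Λ.sub z hz).2 (Λ.B_zero hz) (Λ.par' hz)

end LG

end Vale.Agent.P220.H446
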