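import Vale.Agent.P220.H446.Pl
import Vale.Agent.P220.R2.H481.HFlow

/-!
# The dynamics of the Hamiltonians of the reduced variables
-/

open Set Filter Topology
open scoped ContDiff RealInnerProductSpace

set_option linter.unusedSectionVars false

namespace Vale.Agent.P220.H446

open Vale.Agent.P220.R2.H481 Vale.Agent.P220.R2
open H180 (Orth InPl Circ XF SS Refl Sph)

variable {E : Type} [NormedAddCommGroup E] [InnerProductSpace ℝ E] [FiniteDimensional ℝ E]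

theorem eq_vf {Q : Set E} {P : E → E →L[ℝ] E} (hP : IsProj Q P) {z w : E × E}
    (hz : z ∈ cotangent Q) (hw : w ∈ tan (cotangent Q) z) {l : E × E →L[ℝ] ℝ}
    (h : ∀ u ∈ tan (cotangent Q) z, om w u = -l u) : w = vf P z l := by
  refine sub_eq_zero.1 (hP.nondeg hz (tan_sub_cotangent hP hz ?_ hw (hP.vf_tan hz _))
    fun u hu => ?_)
  · intro a ha b hb
    rw [mem_tan_iff hP hz.1] at ha hb ⊢
    rw [map_sub, ha, hb]
  · rw [om_sub_left, hP.vf_om hz _ hu, h u hu]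
    ring

/-- uniqueness of the solutions of the Hamiltonian equations -/
theorem hflow_uniq {Q : Set E} {P : E → E →L[ℝ] E} (hP : IsProj Q P)
    {H : ℝ × (E × E) → ℝ} (hH : ContDiff ℝ ∞ H) {φ : ℝ × (E × E) → E × E} (hφ : HFlow Q P H φ)
    {γ : ℝ → E × E} (hγ : ∀ s ∈ Icc (0 : ℝ) 1, γ s ∈ cotangent Q ∧
      ∃ w, HasDerivWithinAt γ w (Icc 0 1) s ∧ w ∈ tan (cotangent Q) (γ s) ∧
      ∀ u ∈ tan (cotangent Q) (γ s), om w u = -fderiv ℝ (fun y => H (s, y)) (γ s) u) :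
    ∀ s ∈ Icc (0 : ℝ) 1, γ s = φ (s, γ 0) := by
  refine hφ.uniq γ fun s hs => ?_
  obtain ⟨h1, w, h2, h3, h4⟩ := hγ s hs
  refine ⟨h1, ?_⟩
  rw [← eq_vf hP h1 h3 (l := dH H (s, γ s)) fun u hu => by rw [h4 u hu, dH_eq hH]]
  exact h2

/-- the invariant functions -/
noncomputable def qm (D : TN E) (z : E × E) : ℝ × (ℝ × ℝ) :=
  (D.f z.1, (⟪D.g z.1, z.2⟫, ⟪z.2, z.2⟫))

/-- the invariant functions in terms of the reduced variables -/
noncomputable def cm (p : ℝ × ℝ) : ℝ × (ℝ × ℝ) :=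
  (Real.cos p.1, (-(p.2 * Real.sin p.1), p.2 * p.2))

theorem qm_smooth (D : TN E) : ContDiff ℝ ∞ (qm D) :=
  (D.hf.comp contDiff_fst).prodMk (((D.hg.comp contDiff_fst).inner ℝ contDiff_snd).prodMk
    (contDiff_snd.inner ℝ contDiff_snd))

theorem cm_smooth : ContDiff ℝ ∞ cm :=
  (Real.contDiff_cos.comp contDiff_fst).prodMk
    ((contDiff_snd.mul (Real.contDiff_sin.comp contDiff_fst)).neg.prodMk
      (contDiff_snd.mul contDiff_snd))

theorem cm_line (s τ a b : ℝ) : HasDerivAt (fun t : ℝ => cm (s + t * a, τ + t * b))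
    (-(Real.sin s * a), (-(b * Real.sin s + τ * (Real.cos s * a)), b * τ + τ * b)) 0 := by
  have h1 : HasDerivAt (fun t : ℝ => s + t * a) a 0 := by
    simpa using ((hasDerivAt_id (0 : ℝ)).mul_const a).const_add s
  have h2 : HasDerivAt (fun t : ℝ => τ + t * b) b 0 := by
    simpa using ((hasDerivAt_id (0 : ℝ)).mul_const b).const_add τ
  have h3 : HasDerivAt (fun t : ℝ => Real.cos (s + t * a)) (-(Real.sin s * a)) 0 := by
    have k : HasDerivAt Real.cos (-Real.sin s) (s + 0 * a) := by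
      rw [zero_mul, add_zero]
      exact Real.hasDerivAt_cos s
    have := HasDerivAt.comp (h := fun t : ℝ => s + t * a) 0 k h1
    rwa [neg_mul] at this
  have h4 : HasDerivAt (fun t : ℝ => Real.sin (s + t * a)) (Real.cos s * a) 0 := by
    have k : HasDerivAt Real.sin (Real.cos s) (s + 0 * a) := by
      rw [zero_mul, add_zero]
      exact Real.hasDerivAt_sin s
    exact HasDerivAt.comp (h := fun t : ℝ => s + t * a) 0 k h1
  have h5 := (h2.mul h4).neg
  have h6 := h2.mul h2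
  simp only [zero_mul, add_zero] at h5 h6
  exact h3.prodMk (h5.prodMk h6)

theorem qm_psi {D : TN E} {Φ : ℝ → E × E → E × E} (hΦ : IsGeo D.Q D.P Φ) {m : E} (hm : m ∈ D.M)
    (s τ : ℝ) : qm D (D.Psi Φ (m, (s, τ))) = cm (s, τ) := by
  have h := TN.nv_sg hΦ hm s
  unfold qm cm TN.Psi
  simp only
  rw [h.hf, h.hg]
  simp only [inner_neg_left, real_inner_smul_left, real_inner_smul_right,
    real_inner_self_eq_norm_sq, h.norm]
  refine Prod.ext rfl (Prod.ext ?_ ?_)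
  · simp only
    ring
  · simp only
    rw [norm_smul, h.norm, mul_one, Real.norm_eq_abs, sq_abs]
    ring

/-- the differential of a function of the invariants -/
theorem dh_psi {D : TN E} {Φ : ℝ → E × E → E × E} (hΦ : IsGeo D.Q D.P Φ) {m : E} (hm : m ∈ D.M)
    {s τ : ℝ} {hh : ℝ × (ℝ × ℝ) → ℝ} (hs : ContDiff ℝ ∞ hh) {u : E × E}
    (hu : u ∈ tan (cotangent D.Q) (D.Psi Φ (m, (s, τ)))) :
    fderiv ℝ (fun y => hh (qm D y)) (D.Psi Φ (m, (s, τ))) u =
      fderiv ℝ (fun p => hh (cm p)) (s, τ)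
        (⟪(D.sg Φ (m, s)).2, u.1⟫, ⟪(D.sg Φ (m, s)).2, u.2⟫) := by
  have h := TN.nv_sg hΦ hm s
  set x := (D.sg Φ (m, s)).1 with hx
  set v := (D.sg Φ (m, s)).2 with hv
  have hz : D.Psi Φ (m, (s, τ)) = (x, τ • v) := rfl
  rw [hz] at hu ⊢
  obtain ⟨γ, g1, g2, g3, g4⟩ := hu
  have hu1 : u.1 ∈ tan D.Q x :=
    ⟨fun t => (γ t).1, contDiff_fst.comp g1, fun t => (g2 t).1, by simp only [g3], hd_fst g4⟩
  set α := ⟪v, u.1⟫ with hα
  set β := ⟪v, u.2⟫ with hβ
  have k1 : HasDerivAt (fun t => D.f (γ t).1) (-(Real.sin s * α)) 0 := by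
    have e : HasDerivAt (fun t => D.f (γ t).1) (fderiv ℝ D.f x u.1) 0 :=
      hd_comp D.hf (hd_fst g4) (by rw [g3])
    rw [← D.gf x h.mem u.1 hu1, h.hg, inner_neg_left, real_inner_smul_left] at e
    exact e
  have k2 : HasDerivAt (fun t => D.g (γ t).1) (fderiv ℝ D.g x u.1) 0 :=
    hd_comp D.hg (hd_fst g4) (by rw [g3])
  have k3 : HasDerivAt (fun t => (γ t).2) u.2 0 := hd_snd g4
  have hAv : ⟪fderiv ℝ D.g x u.1, v⟫ = -(Real.cos s * α) := by
    have e1 : ⟪fderiv ℝ D.g x u.1, v⟫ = ⟪fderiv ℝ D.g x v, u.1⟫ :=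
      D.hess_symm h.mem hu1 h.tan
    have e2 : D.P x u.1 = u.1 := (mem_tan_iff D.hP h.mem).1 hu1
    have e3 : ⟪fderiv ℝ D.g x v, u.1⟫ = ⟪D.A x v, u.1⟫ := by
      rw [D.A_tan h.mem h.tan, D.hP.symm x h.mem, e2]
    rw [e1, e3, h.hA, inner_neg_left, real_inner_smul_left]
  have k4 : HasDerivAt (fun t => ⟪D.g (γ t).1, (γ t).2⟫)
      (-(β * Real.sin s + τ * (Real.cos s * α))) 0 := by
    have e := k2.inner ℝ k3
    simp only [g3] at e
    rw [h.hg, inner_neg_left, real_inner_smul_left, real_inner_smul_right, hAv] at e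
    have e2 : -(β * Real.sin s + τ * (Real.cos s * α)) =
        -(Real.sin s * ⟪v, u.2⟫) + τ * -(Real.cos s * α) := by
      rw [← hβ]
      ring
    rw [e2]
    exact e
  have k5 : HasDerivAt (fun t => ⟪(γ t).2, (γ t).2⟫) (β * τ + τ * β) 0 := by
    have e := k3.inner ℝ k3
    simp only [g3] at e
    rw [real_inner_smul_left, real_inner_smul_right, real_inner_comm v u.2] at e
    have e2 : β * τ + τ * β = τ * ⟪v, u.2⟫ + τ * ⟪v, u.2⟫ := by
      rw [← hβ]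
      ring
    rw [e2]
    exact e
  have k6 : HasDerivAt (fun t => qm D (γ t))
    (-(Real.sin s * α), (-(β * Real.sin s + τ * (Real.cos s * α)), β * τ + τ * β)) 0 :=
    k1.prodMk (k4.prodMk k5)
  have hq : qm D (x, τ • v) = cm (s, τ) := qm_psi hΦ hm s τ
  have k7 := hd_comp hs k6 (x := cm (s, τ)) (by rw [g3, hq])
  have k8 := hd_comp hs (cm_line s τ α β) (x := cm (s, τ)) (by simp)
  have k9 := hd_comp (hs.comp (qm_smooth D)) g4 g3
  have k10 : HasDerivAt (fun t : ℝ => ((s + t * α, τ + t * β) : ℝ × ℝ)) (α, β) 0 := by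
    refine HasDerivAt.prodMk ?_ ?_
    · simpa using ((hasDerivAt_id (0 : ℝ)).mul_const α).const_add s
    · simpa using ((hasDerivAt_id (0 : ℝ)).mul_const β).const_add τ
  have k11 := hd_comp (hs.comp cm_smooth) k10 (x := (s, τ)) (by simp)
  have k12 := k9.unique k7
  have k13 := k11.unique k8
  exact k12.trans k13.symm

/-- **The normal geodesics carry the reduced dynamics.** -/
theorem Psi_flow {D : TN E} {Φ : ℝ → E × E → E × E} (hΦ : IsGeo D.Q D.P Φ)
    {hh : ℝ × (ℝ × (ℝ × ℝ)) → ℝ} (hs : ContDiff ℝ ∞ hh) {φ : ℝ × (E × E) → E × E}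
    (hφ : HFlow D.Q D.P (fun x => hh (x.1, qm D x.2)) φ) {κ : ℝ → ℝ × ℝ}
    (hκ : ∀ t ∈ Icc (0 : ℝ) 1, HasDerivAt κ (fderiv ℝ (fun p => hh (t, cm p)) (κ t) (0, 1),
      -fderiv ℝ (fun p => hh (t, cm p)) (κ t) (1, 0)) t) {m : E} (hm : m ∈ D.M) :
    ∀ t ∈ Icc (0 : ℝ) 1, D.Psi Φ (m, κ t) = φ (t, D.Psi Φ (m, κ 0)) := by
  have hH : ContDiff ℝ ∞ fun x : ℝ × (E × E) => hh (x.1, qm D x.2) :=
    hs.comp (contDiff_fst.prodMk ((qm_smooth D).comp contDiff_snd))
  have h0 : (0 : E) ∈ tan D.M m :=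
    ⟨fun _ => m, contDiff_const, fun _ => hm, rfl, hasDerivAt_const _ _⟩
  refine hflow_uniq D.hP hH hφ (γ := fun t => D.Psi Φ (m, κ t)) fun t ht => ?_
  set s := (κ t).1 with hs1
  set τ := (κ t).2 with hτ1
  have hκt : κ t = (s, τ) := rfl
  have hht : ContDiff ℝ ∞ fun y : ℝ × (ℝ × ℝ) => hh (t, y) :=
    hs.comp (contDiff_const.prodMk contDiff_id)
  set b := fderiv ℝ (fun p => hh (t, cm p)) (κ t) (0, 1) with hb
  set c := -fderiv ℝ (fun p => hh (t, cm p)) (κ t) (1, 0) with hc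
  refine ⟨TN.Psi_cot hΦ hm _ _, fderiv ℝ (D.Psi Φ) (m, κ t) (0, (b, c)), ?_, ?_, ?_⟩
  · exact (hd_comp (TN.Psi_smooth hΦ) ((hasDerivAt_const t m).prodMk (hκ t ht)) rfl).hasDerivWithinAt
  · refine ⟨fun r => D.Psi Φ (m, (s + r * b, τ + r * c)), (TN.Psi_smooth hΦ).comp
      (contDiff_const.prodMk ((contDiff_const.add (contDiff_id.mul contDiff_const)).prodMk
        (contDiff_const.add (contDiff_id.mul contDiff_const)))),
      fun r => TN.Psi_cot hΦ hm _ _, by simp [hκt], ?_⟩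
    have k10 : HasDerivAt (fun t : ℝ => ((m, (s + t * b, τ + t * c)) : E × (ℝ × ℝ)))
        (0, (b, c)) 0 := by
      refine (hasDerivAt_const _ _).prodMk (HasDerivAt.prodMk ?_ ?_)
      · simpa using ((hasDerivAt_id (0 : ℝ)).mul_const b).const_add s
      · simpa using ((hasDerivAt_id (0 : ℝ)).mul_const c).const_add τ
    exact hd_comp (TN.Psi_smooth hΦ) k10 (by simp [hκt])
  · intro u hu
    have hn := TN.nv_sg hΦ hm s
    have hu1 : u.1 ∈ tan D.Q (D.sg Φ (m, s)).1 := by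
      obtain ⟨γ, g1, g2, g3, g4⟩ := hu
      exact ⟨fun t => (γ t).1, contDiff_fst.comp g1, fun t => (g2 t).1,
        by simp only [g3]; rfl, hd_fst g4⟩
    have e1 := dh_psi hΦ hm hht (s := s) (τ := τ) hu
    have e2 : fderiv ℝ (fun y => hh (t, qm D y)) (D.Psi Φ (m, κ t)) u =
      fderiv ℝ (fun p => hh (t, cm p)) (κ t)
        (⟪(D.sg Φ (m, s)).2, u.1⟫, ⟪(D.sg Φ (m, s)).2, u.2⟫) := e1
    beta_reduce
    rw [e2]
    have e3 : ∀ α β : ℝ, fderiv ℝ (fun p => hh (t, cm p)) (κ t) (α, β) = -(c * α) + b * β := by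
      intro α β
      have : ((α, β) : ℝ × ℝ) = α • ((1 : ℝ), (0 : ℝ)) + β • ((0 : ℝ), (1 : ℝ)) := by simp
      rw [this, map_add, map_smul, map_smul, hb, hc, smul_eq_mul, smul_eq_mul]
      ring
    rw [e3]
    have e4 : fderiv ℝ (D.Psi Φ) (m, κ t) (0, (b, c)) = (b • (D.sg Φ (m, s)).2,
        τ • (b • (geoF D.P (D.sg Φ (m, s))).2) + c • (D.sg Φ (m, s)).2) := by
      rw [hκt, TN.Psi_fderiv hΦ hm s τ 0 b c]
      have : ((0 : E), (0 : ℝ)) = 0 := rfl
      rw [this, map_zero]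
      simp
    rw [e4]
    unfold om geoF
    simp only [inner_add_left, real_inner_smul_left, real_inner_smul_right]
    rw [D.hP.second hn.mem hn.tan hn.tan hu1, real_inner_comm (D.sg Φ (m, s)).2 u.2]
    ring

end Vale.Agent.P220.H446
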