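import Mathlib

/-!
# A singular differential inequality
-/

open Set Filter Topology
open scoped ContDiff RealInnerProductSpace

namespace Vale.Agent.P220.H446

theorem key_ineq {x S N K M V I : ℝ} (hx0 : 0 < x) (hx1 : x ≤ 1) (hS1 : x - x ^ 3 / 4 ≤ S)
    (hS2 : S ≤ x) (hK : 0 ≤ K) (hM : 0 ≤ M) (hN : N ≤ M * x ^ 2)
    (hV : V ≤ M * x ^ 3) (hb : I * S ≤ (1 + K * x) * N + V * S) :
    2 * I * x ^ 2 - N * (2 * x) ≤ (2 / 3 + 8 * K / 3 + 2) * M * (x ^ 2) ^ 2 := by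
  have f1 : x ^ 3 ≤ x := by
    have f2 : x ^ 2 ≤ 1 := by nlinarith
    calc x ^ 3 = x ^ 2 * x := by ring
      _ ≤ 1 * x := mul_le_mul_of_nonneg_right f2 hx0.le
      _ = x := one_mul x
  have hS3 : 3 / 4 * x ≤ S := by linarith
  have hSpos : 0 < S := by linarith
  have f0 : 0 ≤ M * x ^ 3 := mul_nonneg hM (pow_nonneg hx0.le 3)
  have e2 : V * S ≤ M * x ^ 3 * S := mul_le_mul_of_nonneg_right hV hSpos.le
  have e1 : 2 * x * (I * S) ≤ 2 * x * ((1 + K * x) * N + V * S) :=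
    mul_le_mul_of_nonneg_left hb (by positivity)
  have e3 : 2 * x * (V * S) ≤ 2 * x * (M * x ^ 3 * S) :=
    mul_le_mul_of_nonneg_left e2 (by positivity)
  have e4 : 2 * x * (M * x ^ 3 * S) ≤ 2 * (M * x ^ 3 * S) := by
    have h1 : 0 ≤ M * x ^ 3 * S := mul_nonneg f0 hSpos.le
    have h2 : 2 * x ≤ 2 := by linarith
    exact mul_le_mul_of_nonneg_right h2 h1
  have e5 : N * (x - S) ≤ (M * x ^ 2) * (x ^ 3 / 4) :=
    mul_le_mul hN (by linarith) (by linarith) (by positivity)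
  have e6 : K * x ^ 2 * N ≤ K * x ^ 2 * (M * x ^ 2) :=
    mul_le_mul_of_nonneg_left hN (by positivity)
  have g1 : M * x ^ 3 * (3 / 4 * x) ≤ M * x ^ 3 * S := mul_le_mul_of_nonneg_left hS3 f0
  have g2 : M * x ^ 2 * x ^ 3 ≤ M * x ^ 2 * (x ^ 2) := by
    refine mul_le_mul_of_nonneg_left ?_ (mul_nonneg hM (sq_nonneg x))
    have : x ^ 3 = x ^ 2 * x := by ring
    rw [this]
    exact mul_le_of_le_one_right (sq_nonneg x) hx1
  have g3 : K * (M * x ^ 3) * (3 / 4 * x) ≤ K * (M * x ^ 3) * S :=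
    mul_le_mul_of_nonneg_left hS3 (mul_nonneg hK f0)
  have h1 : (2 * I * x - 2 * N) * S ≤ ((2 / 3 + 8 * K / 3 + 2) * M * x ^ 3) * S := by
    linear_combination e1 + e3 + e4 + 2 * e5 + 2 * e6 + 1 / 2 * g2 + 2 / 3 * g1 + 8 / 3 * g3
  have h2 := le_of_mul_le_mul_right h1 hSpos
  have h3 := mul_le_mul_of_nonneg_right h2 hx0.le
  linear_combination h3

/-- A function with a zero of second order that satisfies a singular differential inequality
vanishes. -/
theorem sing_zero {E : Type} [NormedAddCommGroup E] [InnerProductSpace ℝ E]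
    {W W' : ℝ → E} {u u' : ℝ → ℝ} {K δ₀ : ℝ} (hδ₀ : 0 < δ₀) (hK : 0 ≤ K)
    (hW : ∀ s, HasDerivAt W (W' s) s) (hu : ∀ s, HasDerivAt u (u' s) s)
    (W0 : W 0 = 0) (W0' : W' 0 = 0) (u0 : u 0 = 0) (hu' : ∀ s, |u' s| ≤ ‖W s‖)
    (hb : ∀ s ∈ Ioc 0 δ₀, ⟪W s, W' s⟫ * Real.sin s ≤ (1 + K * s) * ‖W s‖ ^ 2 +
      |u s| * Real.sin s * ‖W s‖) :
    ∃ δ > 0, ∀ s ∈ Icc 0 δ, W s = 0 ∧ u s = 0 := by
  set C₀ : ℝ := 2 / 3 + 8 * K / 3 + 2 with hC₀
  have hC₀pos : 0 < C₀ := by positivity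
  set δ : ℝ := min δ₀ (min 1 (1 / (2 * C₀))) with hδ
  have hδpos : 0 < δ := lt_min hδ₀ (lt_min one_pos (by positivity))
  have hδ1 : δ ≤ 1 := (min_le_right _ _).trans (min_le_left _ _)
  have hδ2 : C₀ * δ ≤ 1 / 2 := by
    have h1 : δ ≤ 1 / (2 * C₀) := (min_le_right _ _).trans (min_le_right _ _)
    have h2 : C₀ * δ ≤ C₀ * (1 / (2 * C₀)) := mul_le_mul_of_nonneg_left h1 hC₀pos.le
    have h3 : C₀ * (1 / (2 * C₀)) = 1 / 2 := by field_simp
    linarith
  set m : ℝ → ℝ := fun s => ‖W s‖ ^ 2 / s ^ 2 with hm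
  have hm0 : m 0 = 0 := by simp [hm]
  have hmn : ∀ s, 0 ≤ m s := fun s => by positivity
  have hc0 : ContinuousAt m 0 := by
    have h1 : W =o[𝓝 0] fun s : ℝ => s := by
      have h2 := hasDerivAt_iff_isLittleO.1 (hW 0)
      simpa [W0, W0'] using h2
    have h2 : (fun s => ‖W s‖ ^ 2) =o[𝓝 0] fun s : ℝ => s ^ 2 := h1.norm_left.pow two_pos
    have h3 := h2.tendsto_div_nhds_zero
    unfold ContinuousAt
    rw [hm0]
    exact h3
  have hcm : ContinuousOn m (Icc 0 δ) := by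
    intro s hs
    rcases eq_or_lt_of_le hs.1 with h | h
    · rw [← h]
      exact hc0.continuousWithinAt
    · have h1 : ContinuousAt m s := by
        refine ((hW s).continuousAt.norm.pow 2).div (continuousAt_id.pow 2) ?_
        exact (pow_pos h 2).ne'
      exact h1.continuousWithinAt
  obtain ⟨s₁, hs₁, hmax⟩ := isCompact_Icc.exists_isMaxOn (nonempty_Icc.2 hδpos.le) hcm
  set M : ℝ := m s₁ with hMdef
  have hM0 : 0 ≤ M := hmn s₁
  have hNb : ∀ s ∈ Icc 0 δ, ‖W s‖ ^ 2 ≤ M * s ^ 2 := by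
    intro s hs
    rcases eq_or_lt_of_le hs.1 with h | h
    · rw [← h, W0]
      simp
    · have h1 : m s ≤ M := hmax hs
      have h2 : 0 < s ^ 2 := pow_pos h 2
      exact (div_le_iff₀ h2).1 h1
  have hWb : ∀ s ∈ Icc 0 δ, ‖W s‖ ≤ √M * s := by
    intro s hs
    refine le_of_sq_le_sq ?_ (mul_nonneg (Real.sqrt_nonneg _) hs.1)
    rw [mul_pow, Real.sq_sqrt hM0]
    exact hNb s hs
  have hub : ∀ s ∈ Icc 0 δ, |u s| ≤ √M * s ^ 2 := by
    intro s hs
    have h1 := norm_image_sub_le_of_norm_deriv_le_segment' (f := u) (f' := u') (a := 0) (b := s)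
      (C := √M * s) (fun x _ => (hu x).hasDerivWithinAt) (fun x hx => ?_) s ⟨hs.1, le_rfl⟩
    · rw [u0, sub_zero, sub_zero, Real.norm_eq_abs] at h1
      linarith
    · rw [Real.norm_eq_abs]
      refine (hu' x).trans ((hWb x ⟨hx.1, hx.2.le.trans hs.2⟩).trans ?_)
      exact mul_le_mul_of_nonneg_left hx.2.le (Real.sqrt_nonneg _)
  have hMz : M = 0 := by
    rcases eq_or_lt_of_le hs₁.1 with h | h
    · rw [hMdef, ← h, hm0]
    · have hd : ∀ x ∈ Ioo 0 s₁, HasDerivAt m ((2 * ⟪W x, W' x⟫ * x ^ 2 - ‖W x‖ ^ 2 * (2 * x)) /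
          (x ^ 2) ^ 2) x := by
        intro x hx
        have h1 := (hW x).norm_sq
        have h2 : HasDerivAt (fun s : ℝ => s ^ 2) (2 * x) x := by simpa using hasDerivAt_pow 2 x
        exact h1.div h2 (pow_pos hx.1 2).ne'
      obtain ⟨x, hx, hxm⟩ := exists_hasDerivAt_eq_slope m _ h (hcm.mono
        (Icc_subset_Icc_right hs₁.2)) hd
      have hxδ : x ∈ Icc 0 δ := ⟨hx.1.le, hx.2.le.trans hs₁.2⟩
      have hx0 := hx.1
      have hx1 : x ≤ 1 := hxδ.2.trans hδ1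
      have hS1 : x - x ^ 3 / 4 < Real.sin x := by
        have h1 := Real.sin_gt_sub_cube hx0
        have h2 : 0 < x ^ 3 := pow_pos hx0 3
        linarith
      have hS2 := Real.sin_le hx0.le
      set S := Real.sin x with hSdef
      have hbx := hb x ⟨hx0, hxδ.2.trans (min_le_left _ _)⟩
      have huW : |u x| * ‖W x‖ ≤ M * x ^ 3 := by
        have h1 := mul_le_mul (hub x hxδ) (hWb x hxδ) (norm_nonneg _)
          (mul_nonneg (Real.sqrt_nonneg _) (sq_nonneg _))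
        have h2 : √M * x ^ 2 * (√M * x) = M * x ^ 3 := by
          have := Real.mul_self_sqrt hM0
          linear_combination x ^ 3 * this
        linarith
      have hbx' : ⟪W x, W' x⟫ * S ≤ (1 + K * x) * ‖W x‖ ^ 2 + (|u x| * ‖W x‖) * S := by
        rw [hSdef]
        linarith
      have key := key_ineq hx0 hx1 hS1.le hS2 hK hM0 (hNb x hxδ) huW hbx'
      have hslope : (m s₁ - m 0) / (s₁ - 0) ≤ C₀ * M := by
        rw [← hxm, div_le_iff₀ (by positivity)]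
        exact key
      rw [hm0, sub_zero, sub_zero, div_le_iff₀ h] at hslope
      have h5 : C₀ * M * s₁ ≤ C₀ * M * δ := mul_le_mul_of_nonneg_left hs₁.2 (by positivity)
      have h6 : C₀ * M * δ ≤ 1 / 2 * M := by
        have := mul_le_mul_of_nonneg_right hδ2 hM0
        linarith
      have h7 : M ≤ 1 / 2 * M := by
        rw [hMdef] at *
        linarith
      linarith
  refine ⟨δ, hδpos, fun s hs => ?_⟩
  have h1 := hWb s hs
  have h2 := hub s hs
  rw [hMz, Real.sqrt_zero, zero_mul] at h1 h2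
  exact ⟨norm_le_zero_iff.1 h1, abs_eq_zero.1 (le_antisymm h2 (abs_nonneg _))⟩

end Vale.Agent.P220.H446
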