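import Vale.Agent.P220.H446.Flow
import Vale.Agent.P220.H446.Sing

/-!
# Normal geodesics of a transnormal function
-/

open Set Filter Topology
open scoped ContDiff RealInnerProductSpace

set_option linter.unusedSectionVars false

namespace Vale.Agent.P220.H446

open Vale.Agent.P220.R2.H481 Vale.Agent.P220.R2

variable {E : Type} [NormedAddCommGroup E] [InnerProductSpace ℝ E] [FiniteDimensional ℝ E]

namespace TN

variable (D : TN E)

/-- `v` is a unit vector at `x` along a normal geodesic, and `θ` the phase -/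
structure NV (x v : E) (θ : ℝ) : Prop where
  mem : x ∈ D.Q
  tan : v ∈ tan D.Q x
  norm : ‖v‖ = 1
  hf : D.f x = Real.cos θ
  hg : D.g x = -(Real.sin θ • v)
  hA : D.A x v = -(Real.cos θ • v)

theorem NV.cot {x v : E} {θ : ℝ} (h : D.NV x v θ) : ((x, v) : E × E) ∈ cotangent D.Q :=
  ⟨h.mem, h.tan⟩

/-- the defect of the gradient along a geodesic -/
noncomputable def Wd (Φ : ℝ → E × E → E × E) (z : E × E) (θ t : ℝ) : E :=
  D.g (Φ t z).1 + Real.sin (θ + t) • (Φ t z).2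

/-- the defect of the function along a geodesic -/
noncomputable def ud (Φ : ℝ → E × E → E × E) (z : E × E) (θ t : ℝ) : ℝ :=
  D.f (Φ t z).1 - Real.cos (θ + t)

/-- the derivative of the first defect -/
noncomputable def Wd' (Φ : ℝ → E × E → E × E) (z : E × E) (θ t : ℝ) : E :=
  fderiv ℝ D.P (Φ t z).1 (Φ t z).2 (D.Wd Φ z θ t) +
    (D.A (Φ t z).1 (Φ t z).2 + Real.cos (θ + t) • (Φ t z).2)

section

variable {D} {Φ : ℝ → E × E → E × E} (hΦ : IsGeo D.Q D.P Φ) {z : E × E}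
  (hz : z ∈ cotangent D.Q) (h1 : ‖z.2‖ = 1) (θ : ℝ)

include hΦ hz h1

theorem geo_fst (t : ℝ) : HasDerivAt (fun s => (Φ s z).1) (Φ t z).2 t :=
  hasDerivAt_fst (hΦ.deriv z hz h1 t)

theorem geo_snd (t : ℝ) :
    HasDerivAt (fun s => (Φ s z).2) (fderiv ℝ D.P (Φ t z).1 (Φ t z).2 (Φ t z).2) t :=
  hasDerivAt_snd (hΦ.deriv z hz h1 t)

theorem Wd_tan (t : ℝ) : D.Wd Φ z θ t ∈ tan D.Q (Φ t z).1 := by
  have h := hΦ.mem z hz t
  rw [mem_tan_iff D.hP h.1]
  unfold Wd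
  rw [map_add, map_smul, D.Pg h.1, D.hP.id _ h.1 _ h.2]

theorem ud_deriv (t : ℝ) : HasDerivAt (D.ud Φ z θ) ⟪D.Wd Φ z θ t, (Φ t z).2⟫ t := by
  have h := hΦ.mem z hz t
  have e1 := (D.fd_f (Φ t z).1).comp_hasDerivAt t (geo_fst hΦ hz h1 t)
  have e2 : HasDerivAt (fun s => Real.cos (θ + s)) (-Real.sin (θ + t) * 1) t :=
    ((hasDerivAt_id t).const_add θ).cos
  refine (e1.sub e2).congr_deriv ?_
  unfold Wd
  rw [← D.gf _ h.1 _ h.2, inner_add_left, inner_smul_left, real_inner_self_eq_norm_sq,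
    hΦ.norm z hz, h1]
  simp

theorem Wd_deriv (t : ℝ) : HasDerivAt (D.Wd Φ z θ) (D.Wd' Φ z θ t) t := by
  have h := hΦ.mem z hz t
  have e1 := (D.fd_g (Φ t z).1).comp_hasDerivAt t (geo_fst hΦ hz h1 t)
  have e2 : HasDerivAt (fun s => Real.sin (θ + s)) (Real.cos (θ + t) * 1) t :=
    ((hasDerivAt_id t).const_add θ).sin
  have e3 := e1.add (e2.smul (geo_snd hΦ hz h1 t))
  refine e3.congr_deriv ?_
  have e4 := (D.fd_P (Φ t z).1).clm_apply (D.fd_g (Φ t z).1)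
  have e5 := fderiv_congr_on e4 (D.fd_g _) (K := D.Q) (fun x hx => D.Pg hx) h.2
  simp only [add_apply, ContinuousLinearMap.comp_apply,
    ContinuousLinearMap.flip_apply] at e5
  unfold Wd' Wd
  rw [D.A_tan h.1 h.2, map_add, map_smul, mul_one]
  nth_rewrite 1 [← e5]
  abel

theorem sin_rel (t : ℝ) : Real.sin (θ + t) • (D.A (Φ t z).1 (Φ t z).2 +
    Real.cos (θ + t) • (Φ t z).2) = D.B (Φ t z).1 (D.Wd Φ z θ t) -
      (D.ud Φ z θ t * Real.sin (θ + t)) • (Φ t z).2 := by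
  have h := hΦ.mem z hz t
  rw [B_apply, D.hP.id _ h.1 _ (Wd_tan hΦ hz h1 θ t)]
  unfold Wd ud
  rw [map_add, map_smul, D.Ag h.1]
  module

theorem inner_Wd' (t : ℝ) : ⟪D.Wd Φ z θ t, D.Wd' Φ z θ t⟫ =
    ⟪D.Wd Φ z θ t, D.A (Φ t z).1 (Φ t z).2 + Real.cos (θ + t) • (Φ t z).2⟫ := by
  have h := hΦ.mem z hz t
  have hW := Wd_tan hΦ hz h1 θ t
  have e : ⟪D.Wd Φ z θ t, fderiv ℝ D.P (Φ t z).1 (Φ t z).2 (D.Wd Φ z θ t)⟫ = 0 := by
    rw [real_inner_comm]
    exact D.hP.second h.1 h.2 hW hW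
  unfold Wd'
  rw [inner_add_right, e, zero_add]

theorem continuous_geo : Continuous fun t => Φ t z :=
  hΦ.smooth.continuous.comp (continuous_id.prodMk continuous_const)

/-- the regular case -/
theorem loc_reg (W0 : D.Wd Φ z θ 0 = 0) (u0 : D.ud Φ z θ 0 = 0) (hs : Real.sin θ ≠ 0) :
    ∀ᶠ t in 𝓝 (0 : ℝ), D.Wd Φ z θ t = 0 ∧ D.ud Φ z θ t = 0 := by
  have hc := continuous_geo hΦ hz h1
  set k : ℝ → ℝ := fun t => ‖fderiv ℝ D.P (Φ t z).1 (Φ t z).2‖ + ‖D.B (Φ t z).1‖ /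
    |Real.sin (θ + t)| + 1 with hk
  have hkc : ContinuousAt k 0 := by
    have c1 : Continuous fun t => fderiv ℝ D.P (Φ t z).1 (Φ t z).2 :=
      ((D.hP.smooth.continuous_fderiv (by simp)).comp (continuous_fst.comp hc)).clm_apply
        (continuous_snd.comp hc)
    have c2 : Continuous fun t => D.B (Φ t z).1 :=
      D.B_smooth.continuous.comp (continuous_fst.comp hc)
    have c3 : Continuous fun t : ℝ => |Real.sin (θ + t)| := by fun_prop
    refine (c1.norm.continuousAt.add (c2.norm.continuousAt.div c3.continuousAt ?_)).add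
      continuousAt_const
    simpa using hs
  have h2 : ∀ᶠ t in 𝓝 (0 : ℝ), k t < k 0 + 1 := hkc.eventually_lt_const (by linarith)
  have h3 : ∀ᶠ t in 𝓝 (0 : ℝ), Real.sin (θ + t) ≠ 0 := by
    have c : Continuous fun t : ℝ => Real.sin (θ + t) := by fun_prop
    exact c.continuousAt.eventually_ne (by simpa using hs)
  obtain ⟨δ, hδ, hball⟩ := Metric.eventually_nhds_iff.1 (h2.and h3)
  have hmem : ∀ t ∈ Icc (0 - δ / 2) (0 + δ / 2), k t < k 0 + 1 ∧ Real.sin (θ + t) ≠ 0 := by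
    intro t ht
    refine hball ?_
    rw [Real.dist_eq, sub_zero, abs_lt]
    constructor <;> linarith [ht.1, ht.2]
  have key := H57.zero_of_bound (e := fun t => ((D.Wd Φ z θ t, D.ud Φ z θ t) : E × ℝ))
    (e' := fun t => (D.Wd' Φ z θ t, ⟪D.Wd Φ z θ t, (Φ t z).2⟫)) (K := k 0 + 1) (t₀ := 0)
    (δ := δ / 2) (fun t _ => (Wd_deriv hΦ hz h1 θ t).prodMk (ud_deriv hΦ hz h1 θ t))
    (by rw [W0, u0]; rfl) (fun t ht => ?_)
  · have h4 : Icc (0 - δ / 2) (0 + δ / 2) ∈ 𝓝 (0 : ℝ) :=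
      Icc_mem_nhds (by linarith) (by linarith)
    filter_upwards [h4] with t ht
    have h5 := key t ht
    exact ⟨congrArg Prod.fst h5, congrArg Prod.snd h5⟩
  · obtain ⟨hk1, hs1⟩ := hmem t ht
    have h := hΦ.mem z hz t
    have hv : ‖(Φ t z).2‖ = 1 := (hΦ.norm z hz t).trans h1
    set e : E × ℝ := (D.Wd Φ z θ t, D.ud Φ z θ t) with he
    have n1 : ‖D.Wd Φ z θ t‖ ≤ ‖e‖ := norm_fst_le e
    have n2 : |D.ud Φ z θ t| ≤ ‖e‖ := norm_snd_le e
    have hsp : 0 < |Real.sin (θ + t)| := abs_pos.2 hs1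
    have a1 : ‖fderiv ℝ D.P (Φ t z).1 (Φ t z).2 (D.Wd Φ z θ t)‖ ≤
        ‖fderiv ℝ D.P (Φ t z).1 (Φ t z).2‖ * ‖e‖ :=
      (ContinuousLinearMap.le_opNorm _ _).trans (mul_le_mul_of_nonneg_left n1 (norm_nonneg _))
    have a2 : ‖D.A (Φ t z).1 (Φ t z).2 + Real.cos (θ + t) • (Φ t z).2‖ ≤
        ‖D.B (Φ t z).1‖ / |Real.sin (θ + t)| * ‖e‖ + ‖e‖ := by
      have b1 := congrArg norm (sin_rel hΦ hz h1 θ t)
      rw [norm_smul, Real.norm_eq_abs] at b1
      have b2 : ‖D.B (Φ t z).1 (D.Wd Φ z θ t) - (D.ud Φ z θ t * Real.sin (θ + t)) • (Φ t z).2‖ ≤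
          ‖D.B (Φ t z).1‖ * ‖e‖ + ‖e‖ * |Real.sin (θ + t)| := by
        refine (norm_sub_le _ _).trans (add_le_add ?_ ?_)
        · exact (ContinuousLinearMap.le_opNorm _ _).trans
            (mul_le_mul_of_nonneg_left n1 (norm_nonneg _))
        · rw [norm_smul, hv, mul_one, norm_mul, Real.norm_eq_abs, Real.norm_eq_abs]
          exact mul_le_mul_of_nonneg_right n2 hsp.le
      rw [← b1] at b2
      have b3 : ‖D.A (Φ t z).1 (Φ t z).2 + Real.cos (θ + t) • (Φ t z).2‖ ≤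
          (‖D.B (Φ t z).1‖ * ‖e‖ + ‖e‖ * |Real.sin (θ + t)|) / |Real.sin (θ + t)| := by
        rw [le_div_iff₀ hsp]
        linarith
      refine b3.trans (le_of_eq ?_)
      field_simp
    have a3 : ‖D.Wd' Φ z θ t‖ ≤ k t * ‖e‖ := by
      unfold Wd'
      refine (norm_add_le _ _).trans ((add_le_add a1 a2).trans (le_of_eq ?_))
      simp only [hk]
      ring
    have a4 : ‖(⟪D.Wd Φ z θ t, (Φ t z).2⟫ : ℝ)‖ ≤ 1 * ‖e‖ := by
      refine (norm_inner_le_norm _ _).trans ?_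
      rw [hv, mul_one, one_mul]
      exact n1
    have hk2 : 1 ≤ k t := by
      simp only [hk]
      have : 0 ≤ ‖fderiv ℝ D.P (Φ t z).1 (Φ t z).2‖ + ‖D.B (Φ t z).1‖ / |Real.sin (θ + t)| := by
        positivity
      linarith
    have he0 := norm_nonneg e
    rw [Prod.norm_def]
    refine max_le (a3.trans ?_) (a4.trans ?_)
    · exact mul_le_mul_of_nonneg_right hk1.le he0
    · exact mul_le_mul_of_nonneg_right (hk2.trans hk1.le) he0

end

/-- the Hessian at a focal point is bounded above -/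
theorem focal_bound {x : E} (hx : x ∈ D.Q) {ε : ℝ} (hε : ε ^ 2 = 1) (hf : D.f x = ε) (w : E) :
    ε * ⟪w, D.B x w⟫ ≤ ‖w‖ ^ 2 := by
  have h1 := D.AA hx (by rw [hf, hε]) w
  rw [hf] at h1
  have h2 : ε * ⟪w, D.A x w⟫ = -‖D.A x w‖ ^ 2 := by
    have e1 : ⟪w, D.A x (D.A x w)⟫ = ‖D.A x w‖ ^ 2 := by
      rw [← D.A_symm hx, real_inner_self_eq_norm_sq]
    rw [h1, inner_neg_right, inner_smul_right] at e1
    linarith
  have h3 : ⟪w, D.P x w⟫ ≤ ‖w‖ ^ 2 := by
    have e1 : ⟪w, D.P x w⟫ = ‖D.P x w‖ ^ 2 := by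
      rw [← real_inner_self_eq_norm_sq, D.hP.symm x hx w (D.P x w), D.hP.sq hx]
    have e2 : ‖D.P x w‖ ^ 2 ≤ ‖w‖ * ‖D.P x w‖ := by
      rw [← e1]
      exact real_inner_le_norm _ _
    have e3 : ‖D.P x w‖ ≤ ‖w‖ := by
      rcases eq_or_lt_of_le (norm_nonneg (D.P x w)) with h | h
      · rw [← h]
        exact norm_nonneg _
      · nlinarith
    rw [e1]
    exact pow_le_pow_left₀ (norm_nonneg _) e3 2
  rw [B_apply, inner_add_right, inner_smul_right, hf, mul_add, h2]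
  nlinarith [sq_nonneg ‖D.A x w‖]

/-- the focal case, forward in time -/
theorem NV.loc_foc {D : TN E} {Φ : ℝ → E × E → E × E} (hΦ : IsGeo D.Q D.P Φ) {x v : E} {θ : ℝ}
    (h : D.NV x v θ) (hs : Real.sin θ = 0) :
    ∃ δ > 0, ∀ t ∈ Icc 0 δ, D.Wd Φ (x, v) θ t = 0 ∧ D.ud Φ (x, v) θ t = 0 := by
  have hz := h.cot
  have h1 : ‖((x, v) : E × E).2‖ = 1 := h.norm
  have hc := continuous_geo hΦ hz h1
  set ε := Real.cos θ with hε
  have hε2 : ε ^ 2 = 1 := by
    have := Real.sin_sq_add_cos_sq θ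
    rw [hs] at this
    rw [hε]
    linarith
  -- the quadratic form along the geodesic
  set C : ℝ → E →L[ℝ] E := fun t => D.B (Φ t (x, v)).1 with hC
  have hCd : DifferentiableAt ℝ C 0 := by
    have c1 : ContDiff ℝ ∞ fun t : ℝ => Φ t (x, v) :=
      hΦ.smooth.comp (contDiff_id.prodMk contDiff_const)
    exact (D.B_smooth.comp (contDiff_fst.comp c1)).differentiable (by simp) 0
  obtain ⟨K, hK, hKb⟩ := hCd.isBigO_sub.exists_pos
  rw [Asymptotics.IsBigOWith_def] at hKb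
  obtain ⟨δ₁, hδ₁, hball⟩ := Metric.eventually_nhds_iff.1 hKb
  refine sing_zero (E := E) (W := D.Wd Φ (x, v) θ) (W' := D.Wd' Φ (x, v) θ)
    (u := D.ud Φ (x, v) θ) (u' := fun t => ⟪D.Wd Φ (x, v) θ t, (Φ t (x, v)).2⟫)
    (K := K) (δ₀ := min 1 (δ₁ / 2))
    (lt_min one_pos (by linarith)) hK.le (Wd_deriv hΦ hz h1 θ) (ud_deriv hΦ hz h1 θ) ?_ ?_ ?_ ?_ ?_
  · unfold Wd
    rw [hΦ.zero, add_zero, h.hg, neg_add_cancel]
  · unfold Wd' Wd
    rw [hΦ.zero, add_zero, h.hg, neg_add_cancel, map_zero, zero_add, h.hA, neg_add_cancel]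
  · unfold ud
    rw [hΦ.zero, add_zero, h.hf, sub_self]
  · intro t
    refine (abs_real_inner_le_norm _ _).trans ?_
    rw [hΦ.norm _ hz, h1, mul_one]
  · intro s hs'
    have hs0 := hs'.1
    have hs1 : s ≤ 1 := hs'.2.trans (min_le_left _ _)
    have hs2 : s ≤ δ₁ / 2 := hs'.2.trans (min_le_right _ _)
    have hsin : Real.sin (θ + s) = ε * Real.sin s := by
      rw [Real.sin_add, hs, zero_mul, zero_add]
    have hsp : 0 ≤ Real.sin s := Real.sin_nonneg_of_nonneg_of_le_pi hs0.le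
      (hs1.trans (by linarith [Real.pi_gt_three]))
    have hm := hΦ.mem _ hz s
    have hv : ‖(Φ s (x, v)).2‖ = 1 := (hΦ.norm _ hz s).trans h1
    have r1 := sin_rel hΦ hz h1 θ s
    have r2 := inner_Wd' hΦ hz h1 θ s
    set W := D.Wd Φ (x, v) θ s with hW
    have r3 := congrArg (fun y => ⟪W, y⟫) r1
    simp only [inner_smul_right, inner_sub_right] at r3
    rw [r2]
    rw [hsin] at r3
    have r4 : ⟪W, D.A (Φ s (x, v)).1 (Φ s (x, v)).2 + Real.cos (θ + s) • (Φ s (x, v)).2⟫ *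
        Real.sin s = ε * ⟪W, C s W⟫ - D.ud Φ (x, v) θ s * Real.sin s *
          ⟪W, (Φ s (x, v)).2⟫ := by
      have : ε * (ε * Real.sin s * ⟪W, D.A (Φ s (x, v)).1 (Φ s (x, v)).2 +
          Real.cos (θ + s) • (Φ s (x, v)).2⟫) = ε * (⟪W, C s W⟫ - D.ud Φ (x, v) θ s *
          (ε * Real.sin s) * ⟪W, (Φ s (x, v)).2⟫) := by rw [r3]
      linear_combination this - (Real.sin s * ⟪W, D.A (Φ s (x, v)).1 (Φ s (x, v)).2 +
          Real.cos (θ + s) • (Φ s (x, v)).2⟫ + D.ud Φ (x, v) θ s *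
          Real.sin s * ⟪W, (Φ s (x, v)).2⟫) * hε2
    rw [r4]
    have hb1 : ‖C s - C 0‖ ≤ K * s := by
      have := hball (y := s) (by
        rw [Real.dist_eq, sub_zero, abs_of_pos hs0]
        linarith)
      rwa [sub_zero, Real.norm_eq_abs s, abs_of_pos hs0] at this
    have hb2 : ε * ⟪W, C 0 W⟫ ≤ ‖W‖ ^ 2 := by
      have : C 0 = D.B x := by simp only [hC, hΦ.zero]
      rw [this]
      exact D.focal_bound h.mem hε2 h.hf W
    have hb3 : ε * ⟪W, (C s - C 0) W⟫ ≤ K * s * ‖W‖ ^ 2 := by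
      have e1 : |ε| = 1 := by
        rw [← sq_eq_sq₀ (abs_nonneg _) zero_le_one, sq_abs, hε2, one_pow]
      have e2 : |ε * ⟪W, (C s - C 0) W⟫| ≤ K * s * ‖W‖ ^ 2 := by
        rw [abs_mul, e1, one_mul]
        refine (abs_real_inner_le_norm _ _).trans ?_
        have e3 := (C s - C 0).le_opNorm W
        have e4 : ‖W‖ * ‖(C s - C 0) W‖ ≤ ‖W‖ * (K * s * ‖W‖) :=
          mul_le_mul_of_nonneg_left (e3.trans (mul_le_mul_of_nonneg_right hb1 (norm_nonneg _)))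
            (norm_nonneg _)
        refine e4.trans (le_of_eq ?_)
        ring
      exact (le_abs_self _).trans e2
    have hb4 : ε * ⟪W, C s W⟫ ≤ (1 + K * s) * ‖W‖ ^ 2 := by
      have e1 : ⟪W, C s W⟫ = ⟪W, C 0 W⟫ + ⟪W, (C s - C 0) W⟫ := by
        rw [← inner_add_right, sub_apply, add_sub_cancel]
      rw [e1]
      linarith
    have hb5 : -(D.ud Φ (x, v) θ s * Real.sin s * ⟪W, (Φ s (x, v)).2⟫) ≤
        |D.ud Φ (x, v) θ s| * Real.sin s * ‖W‖ := by
      have e1 : |⟪W, (Φ s (x, v)).2⟫| ≤ ‖W‖ := by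
        refine (abs_real_inner_le_norm _ _).trans ?_
        rw [hv, mul_one]
      refine (neg_le_abs _).trans ?_
      rw [abs_mul, abs_mul, abs_of_nonneg hsp]
      exact mul_le_mul_of_nonneg_left e1 (by positivity)
    linarith

/-- reversal at a focal point -/
theorem NV.neg {D : TN E} {x v : E} {θ : ℝ} (h : D.NV x v θ) : D.NV x (-v) (-θ) := by
  refine ⟨h.mem, ?_, ?_, ?_, ?_, ?_⟩
  · rw [mem_tan_iff D.hP h.mem, map_neg, D.hP.id _ h.mem _ h.tan]
  · rw [norm_neg, h.norm]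
  · rw [Real.cos_neg, h.hf]
  · rw [Real.sin_neg, h.hg]
    module
  · rw [Real.cos_neg, map_neg, h.hA]
    module

theorem NV.loc {D : TN E} {Φ : ℝ → E × E → E × E} (hΦ : IsGeo D.Q D.P Φ) {x v : E} {θ : ℝ}
    (h : D.NV x v θ) :
    ∀ᶠ t in 𝓝 (0 : ℝ), D.Wd Φ (x, v) θ t = 0 ∧ D.ud Φ (x, v) θ t = 0 := by
  have hz := h.cot
  have h1 : ‖((x, v) : E × E).2‖ = 1 := h.norm
  by_cases hs : Real.sin θ = 0
  · obtain ⟨δ, hδ, hb⟩ := h.loc_foc hΦ hs
    have hs' : Real.sin (-θ) = 0 := by rw [Real.sin_neg, hs, neg_zero]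
    obtain ⟨δ', hδ', hb'⟩ := h.neg.loc_foc hΦ hs'
    have h2 : Icc (-δ') δ ∈ 𝓝 (0 : ℝ) := Icc_mem_nhds (by linarith) hδ
    filter_upwards [h2] with t ht
    rcases le_or_gt 0 t with h3 | h3
    · exact hb t ⟨h3, ht.2⟩
    · have h4 := hb' (-t) ⟨by linarith, by linarith [ht.1]⟩
      have h5 := hΦ.rev _ hz h1 (-t)
      rw [neg_neg] at h5
      have e1 : Real.sin (-θ + -t) = -Real.sin (θ + t) := by rw [← Real.sin_neg]; ring_nf
      have e2 : Real.cos (-θ + -t) = Real.cos (θ + t) := by rw [← Real.cos_neg]; ring_nf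
      unfold Wd ud at h4
      simp only at h5
      rw [h5, e1, e2] at h4
      unfold Wd ud
      refine ⟨?_, h4.2⟩
      have h6 := h4.1
      simp only [neg_smul, smul_neg, neg_neg] at h6
      exact h6
  · refine loc_reg hΦ hz h1 θ ?_ ?_ hs
    · unfold Wd
      rw [hΦ.zero, add_zero, h.hg, neg_add_cancel]
    · unfold ud
      rw [hΦ.zero, add_zero, h.hf, sub_self]

/-- **Normal geodesics stay normal, through the focal sets.** -/
theorem NV.geo {D : TN E} {Φ : ℝ → E × E → E × E} (hΦ : IsGeo D.Q D.P Φ) {x v : E} {θ : ℝ}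
    (h : D.NV x v θ) (t : ℝ) : D.NV (Φ t (x, v)).1 (Φ t (x, v)).2 (θ + t) := by
  have hz := h.cot
  have h1 : ‖((x, v) : E × E).2‖ = 1 := h.norm
  have hc := continuous_geo hΦ hz h1
  set T : Set ℝ := {t | D.NV (Φ t (x, v)).1 (Φ t (x, v)).2 (θ + t)} with hT
  -- the local statement
  have hloc : ∀ {x v : E} {θ : ℝ}, D.NV x v θ →
      ∀ᶠ t in 𝓝 (0 : ℝ), D.NV (Φ t (x, v)).1 (Φ t (x, v)).2 (θ + t) := by
    intro x v θ h
    have hz := h.cot
    have h1 : ‖((x, v) : E × E).2‖ = 1 := h.norm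
    have h2 := h.loc hΦ
    filter_upwards [h2, eventually_eventually_nhds.2 h2] with t ht ht2
    have hm := hΦ.mem _ hz t
    have h3 := (ht.1 : D.Wd Φ (x, v) θ t = 0)
    have h4 := ht.2
    unfold Wd at h3
    unfold ud at h4
    refine ⟨hm.1, hm.2, (hΦ.norm _ hz t).trans h1, sub_eq_zero.1 h4,
      eq_neg_of_add_eq_zero_left h3, ?_⟩
    have h5 : D.Wd' Φ (x, v) θ t = 0 := by
      have h6 : D.Wd Φ (x, v) θ =ᶠ[𝓝 t] fun _ => 0 := by
        filter_upwards [ht2] with s hs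
        exact hs.1
      exact ((Wd_deriv hΦ hz h1 θ t).congr_of_eventuallyEq h6.symm).unique
        (hasDerivAt_const t (0 : E))
    unfold Wd' at h5
    rw [ht.1, map_zero, zero_add] at h5
    exact eq_neg_of_add_eq_zero_left h5
  have hopen : IsOpen T := by
    rw [isOpen_iff_mem_nhds]
    intro t₀ ht₀
    have h2 := hloc ht₀
    have h3 : Tendsto (fun t : ℝ => t - t₀) (𝓝 t₀) (𝓝 0) := by
      have : Continuous fun t : ℝ => t - t₀ := by fun_prop
      simpa using this.tendsto t₀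
    filter_upwards [h3.eventually h2] with t ht
    have h4 : Φ (t - t₀) ((Φ t₀ (x, v)).1, (Φ t₀ (x, v)).2) = Φ t (x, v) := by
      rw [Prod.mk.eta, ← hΦ.add, sub_add_cancel]
    rw [h4, add_assoc, add_sub_cancel] at ht
    exact ht
  have hclosed : IsClosed T := by
    have hT' : T = {t | D.f (Φ t (x, v)).1 = Real.cos (θ + t)} ∩
        ({t | D.g (Φ t (x, v)).1 = -(Real.sin (θ + t) • (Φ t (x, v)).2)} ∩
        {t | D.A (Φ t (x, v)).1 (Φ t (x, v)).2 = -(Real.cos (θ + t) • (Φ t (x, v)).2)}) := by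
      ext t
      constructor
      · intro ht
        exact ⟨ht.hf, ht.hg, ht.hA⟩
      · rintro ⟨ha, hb, hc'⟩
        exact ⟨(hΦ.mem _ hz t).1, (hΦ.mem _ hz t).2, (hΦ.norm _ hz t).trans h1, ha, hb, hc'⟩
    rw [hT']
    have c1 : Continuous fun t => (Φ t (x, v)).1 := continuous_fst.comp hc
    have c2 : Continuous fun t => (Φ t (x, v)).2 := continuous_snd.comp hc
    have c3 : Continuous fun t : ℝ => Real.cos (θ + t) := by fun_prop
    have c4 : Continuous fun t : ℝ => Real.sin (θ + t) := by fun_prop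
    exact (isClosed_eq (D.hf.continuous.comp c1) c3).inter
      ((isClosed_eq (D.hg.continuous.comp c1) (c4.smul c2).neg).inter
      (isClosed_eq ((D.A_smooth.continuous.comp c1).clm_apply c2) (c3.smul c2).neg))
  have h2 : T = univ := IsClopen.eq_univ ⟨hclosed, hopen⟩ ⟨0, by
    change D.NV (Φ 0 (x, v)).1 (Φ 0 (x, v)).2 (θ + 0)
    rw [hΦ.zero, add_zero]
    exact h⟩
  have h3 : t ∈ T := by rw [h2]; exact mem_univ t
  exact h3

end TN

end Vale.Agent.P220.H446
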