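import Vale.Agent.P220.H446.Red

/-!
# Polar coordinates of the cotangent bundle of the circle
-/

open Set Filter Topology
open scoped ContDiff RealInnerProductSpace

set_option linter.unusedSectionVars false

namespace Vale.Agent.P220.H446

open Vale.Agent.P220.R2.H481 Vale.Agent.P220.R2
open H180 (Orth InPl Circ XF SS Refl)

/-- a parameter whose difference has a positive cosine -/
theorem shift_int {α β : ℝ} (hc : 0 < Real.cos (α - β)) :
    ∃ k : ℤ, α + k * (2 * Real.pi) = β + Real.arcsin (Real.sin (α - β)) := by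
  set γ := toIocMod Real.two_pi_pos (-Real.pi) (α - β) with hγ
  have hm := toIocMod_mem_Ioc Real.two_pi_pos (-Real.pi) (α - β)
  have e : γ = α - β + ((-(toIocDiv Real.two_pi_pos (-Real.pi) (α - β)) : ℤ) : ℝ) *
      (2 * Real.pi) := by
    have := toIocMod_add_toIocDiv_zsmul Real.two_pi_pos (-Real.pi) (α - β)
    rw [zsmul_eq_mul] at this
    push_cast
    linarith
  have hcγ : 0 < Real.cos γ := by
    rw [e, Real.cos_add_int_mul_two_pi]
    exact hc
  have h2 : γ ≤ Real.pi := by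
    have := hm.2
    linarith
  have h3 : -Real.pi < γ := hm.1
  have h4 : -(Real.pi / 2) ≤ γ := by
    by_contra hlt
    push Not at hlt
    have : Real.cos γ ≤ 0 := by
      rw [← Real.cos_neg]
      exact Real.cos_nonpos_of_pi_div_two_le_of_le (by linarith) (by linarith [Real.pi_pos])
    linarith
  have h5 : γ ≤ Real.pi / 2 := by
    by_contra hlt
    push Not at hlt
    have : Real.cos γ ≤ 0 :=
      Real.cos_nonpos_of_pi_div_two_le_of_le hlt.le (by linarith [Real.pi_pos])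
    linarith
  have h1 := Real.arcsin_sin h4 h5
  have h6 : Real.sin γ = Real.sin (α - β) := by rw [e, Real.sin_add_int_mul_two_pi]
  rw [h6] at h1
  exact ⟨-(toIocDiv Real.two_pi_pos (-Real.pi) (α - β)), by rw [h1, e]; ring⟩

variable {V : Type} [NormedAddCommGroup V] [InnerProductSpace ℝ V] [FiniteDimensional ℝ V]

/-- the unit circle -/
noncomputable def rr (e u : V) (s : ℝ) : V := Real.cos s • e + Real.sin s • u

/-- its unit tangent vector -/
noncomputable def nn (e u : V) (s : ℝ) : V := -(Real.sin s) • e + Real.cos s • u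

/-- polar coordinates of the cotangent bundle of the circle -/
noncomputable def P0 (e u : V) (p : ℝ × ℝ) : V × V := (rr e u p.1, p.2 • nn e u p.1)

theorem rr_smooth (e u : V) : ContDiff ℝ ∞ (rr e u) :=
  (Real.contDiff_cos.smul contDiff_const).add (Real.contDiff_sin.smul contDiff_const)

theorem nn_smooth (e u : V) : ContDiff ℝ ∞ (nn e u) :=
  (Real.contDiff_sin.neg.smul contDiff_const).add (Real.contDiff_cos.smul contDiff_const)

theorem P0_smooth (e u : V) : ContDiff ℝ ∞ (P0 e u) :=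
  ((rr_smooth e u).comp contDiff_fst).prodMk
    (contDiff_snd.smul ((nn_smooth e u).comp contDiff_fst))

theorem rr_deriv (e u : V) (s : ℝ) : HasDerivAt (rr e u) (nn e u s) s :=
  ((Real.hasDerivAt_cos s).smul_const e).add ((Real.hasDerivAt_sin s).smul_const u)

theorem nn_deriv (e u : V) (s : ℝ) : HasDerivAt (nn e u) (-(rr e u s)) s := by
  have h := ((Real.hasDerivAt_sin s).neg.smul_const e).add ((Real.hasDerivAt_cos s).smul_const u)
  have e1 : -(rr e u s) = -Real.cos s • e + -Real.sin s • u := by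
    unfold rr
    module
  rw [e1]
  exact h

theorem P0_fderiv (e u : V) (s τ b c : ℝ) : fderiv ℝ (P0 e u) (s, τ) (b, c) =
    (b • nn e u s, c • nn e u s - (τ * b) • rr e u s) := by
  have e0 : HasDerivAt (fun t : ℝ => ((s + t * b, τ + t * c) : ℝ × ℝ)) (b, c) 0 := by
    have h1 : HasDerivAt (fun t : ℝ => s + t * b) b 0 := by
      simpa using ((hasDerivAt_id (0 : ℝ)).mul_const b).const_add s
    have h2 : HasDerivAt (fun t : ℝ => τ + t * c) c 0 := by
      simpa using ((hasDerivAt_id (0 : ℝ)).mul_const c).const_add τ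
    exact h1.prodMk h2
  have e1 := hd_comp (P0_smooth e u) e0 (x := (s, τ)) (by simp)
  have h1 : HasDerivAt (fun t : ℝ => s + t * b) b 0 := hd_fst e0
  have h2 : HasDerivAt (fun t : ℝ => τ + t * c) c 0 := hd_snd e0
  have h3 : HasDerivAt (fun t : ℝ => rr e u (s + t * b)) (b • nn e u s) 0 := by
    have : HasDerivAt (rr e u) (nn e u s) (s + 0 * b) := by
      rw [zero_mul, add_zero]
      exact rr_deriv e u s
    exact this.scomp 0 h1
  have h4 : HasDerivAt (fun t : ℝ => nn e u (s + t * b)) (b • -(rr e u s)) 0 := by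
    have : HasDerivAt (nn e u) (-(rr e u s)) (s + 0 * b) := by
      rw [zero_mul, add_zero]
      exact nn_deriv e u s
    exact this.scomp 0 h1
  have h5 := h3.prodMk (h2.smul h4)
  have h6 := e1.unique h5
  rw [h6]
  refine Prod.ext rfl ?_
  simp only [zero_mul, add_zero]
  module

section

variable {e u : V} (h : Orth e u)

include h

theorem rr_rr (s s' : ℝ) : ⟪rr e u s, rr e u s'⟫ = Real.cos (s - s') := by
  unfold rr
  simp only [inner_add_left, inner_add_right, real_inner_smul_left, real_inner_smul_right, h.vv,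
    h.ww, h.wv, h.vw]
  rw [Real.cos_sub]
  ring

theorem rr_nn (s s' : ℝ) : ⟪rr e u s, nn e u s'⟫ = Real.sin (s - s') := by
  unfold rr nn
  simp only [inner_add_left, inner_add_right, real_inner_smul_left, real_inner_smul_right, h.vv,
    h.ww, h.wv, h.vw]
  rw [Real.sin_sub]
  ring

theorem nn_nn (s s' : ℝ) : ⟪nn e u s, nn e u s'⟫ = Real.cos (s - s') := by
  unfold nn
  simp only [inner_add_left, inner_add_right, real_inner_smul_left, real_inner_smul_right, h.vv,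
    h.ww, h.wv, h.vw]
  rw [Real.cos_sub]
  ring

theorem rr_norm (s : ℝ) : ‖rr e u s‖ = 1 := by
  rw [← sq_eq_sq₀ (norm_nonneg _) zero_le_one, ← real_inner_self_eq_norm_sq, rr_rr h, sub_self,
    Real.cos_zero, one_pow]

theorem rr_in (s : ℝ) : InPl e u (rr e u s) := InPl.smul h.v1 h.w1 h.vw _ _ rfl

theorem nn_in (s : ℝ) : InPl e u (nn e u s) := InPl.smul h.v1 h.w1 h.vw _ _ rfl

theorem rr_circ (s : ℝ) : rr e u s ∈ Circ e u := h.mem_Circ.2 ⟨rr_norm h s, rr_in h s⟩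

theorem XF_rr (s : ℝ) : XF e u (rr e u s) = nn e u s := by
  unfold XF rr nn
  simp only [inner_add_right, real_inner_smul_right, h.vv, h.ww, h.wv, h.vw]
  module

theorem P0_cot (p : ℝ × ℝ) : P0 e u p ∈ cotangent (Circ e u) := by
  rw [cotangent_eq_Cot]
  refine ⟨rr_circ h _, (h.tan_Circ (rr_circ h _)).2 ⟨(nn_in h _).smul' _, ?_⟩⟩
  change ⟪rr e u p.1, p.2 • nn e u p.1⟫ = 0
  rw [real_inner_smul_right, rr_nn h, sub_self, Real.sin_zero, mul_zero]

theorem P0_per (s τ : ℝ) (k : ℤ) : P0 e u (s + k * (2 * Real.pi), τ) = P0 e u (s, τ) := by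
  unfold P0 rr nn
  simp only [Real.cos_add_int_mul_two_pi, Real.sin_add_int_mul_two_pi]

theorem P0_SS (s τ : ℝ) : SS u (P0 e u (s, τ)) = P0 e u (-s, -τ) := by
  have hu : Refl u u = -u := by
    rw [H180.Refl_apply h.w1, h.ww]
    module
  rw [H180.SS_apply]
  unfold P0 rr nn
  simp only [map_add, map_smul, h.Refl_e, hu, Real.cos_neg, Real.sin_neg]
  refine Prod.ext ?_ ?_
  · module
  · module

theorem om_P0 (p w w' : ℝ × ℝ) :
    om (fderiv ℝ (P0 e u) p w) (fderiv ℝ (P0 e u) p w') = w.2 * w'.1 - w'.2 * w.1 := by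
  obtain ⟨s, τ⟩ := p
  obtain ⟨b, c⟩ := w
  obtain ⟨b', c'⟩ := w'
  rw [P0_fderiv, P0_fderiv]
  unfold om
  simp only [inner_sub_left, real_inner_smul_left, real_inner_smul_right, rr_nn h, nn_nn h,
    sub_self, Real.sin_zero, Real.cos_zero]
  ring

/-- the local inverse of the polar coordinates -/
noncomputable def _root_.Vale.Agent.P220.H446.mu (e u : V) (s₀ : ℝ) (z : V × V) : ℝ × ℝ :=
  (s₀ + Real.arcsin ⟪nn e u s₀, z.1⟫, ⟪z.2, XF e u z.1⟫)

/-- its domain -/
def _root_.Vale.Agent.P220.H446.MU (e u : V) (s₀ : ℝ) : Set (V × V) :=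
  {z | -1 < ⟪nn e u s₀, z.1⟫ ∧ ⟪nn e u s₀, z.1⟫ < 1 ∧ 0 < ⟪rr e u s₀, z.1⟫}

omit h in
theorem MU_open (s₀ : ℝ) : IsOpen (MU e u s₀) := by
  have c1 : Continuous fun z : V × V => ⟪nn e u s₀, z.1⟫ :=
    continuous_const.inner continuous_fst
  have c2 : Continuous fun z : V × V => ⟪rr e u s₀, z.1⟫ :=
    continuous_const.inner continuous_fst
  exact (isOpen_lt continuous_const c1).inter
    ((isOpen_lt c1 continuous_const).inter (isOpen_lt continuous_const c2))

omit h in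
theorem XF_smooth : ContDiff ℝ ∞ (XF e u) := by
  unfold XF
  exact ((contDiff_const.inner ℝ contDiff_id).smul contDiff_const).sub
    ((contDiff_const.inner ℝ contDiff_id).smul contDiff_const)

omit h in
theorem mu_smooth (s₀ : ℝ) : ContDiffOn ℝ ∞ (mu e u s₀) (MU e u s₀) := by
  intro z hz
  have h1 : ContDiffAt ℝ ∞ (fun z : V × V => ⟪nn e u s₀, z.1⟫) z :=
    (contDiff_const.inner ℝ contDiff_fst).contDiffAt
  have h2 : ContDiffAt ℝ ∞ (fun z : V × V => s₀ + Real.arcsin ⟪nn e u s₀, z.1⟫) z :=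
    contDiffAt_const.add (ContDiffAt.comp (g := Real.arcsin) z
      (Real.contDiffAt_arcsin (ne_of_gt hz.1) (ne_of_lt hz.2.1)) h1)
  have h3 : ContDiff ℝ ∞ fun z : V × V => ⟪z.2, XF e u z.1⟫ :=
    contDiff_snd.inner ℝ (XF_smooth.comp contDiff_fst)
  exact (h2.prodMk h3.contDiffAt).contDiffWithinAt

theorem P0_mem_MU {s s₀ τ : ℝ} (hs : |s - s₀| < Real.pi / 2) : P0 e u (s, τ) ∈ MU e u s₀ := by
  obtain ⟨h1, h2⟩ := abs_lt.1 hs
  have e1 : ⟪nn e u s₀, (P0 e u (s, τ)).1⟫ = Real.sin (s - s₀) := by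
    rw [real_inner_comm]
    exact rr_nn h s s₀
  refine ⟨?_, ?_, ?_⟩
  · rw [e1]
    have := Real.sin_lt_sin_of_lt_of_le_pi_div_two le_rfl h2.le h1
    rwa [Real.sin_neg, Real.sin_pi_div_two] at this
  · rw [e1]
    have := Real.sin_lt_sin_of_lt_of_le_pi_div_two h1.le le_rfl h2
    rwa [Real.sin_pi_div_two] at this
  · have e2 : ⟪rr e u s₀, (P0 e u (s, τ)).1⟫ = Real.cos (s - s₀) := by
      rw [real_inner_comm]
      exact rr_rr h s s₀
    rw [e2]
    exact Real.cos_pos_of_mem_Ioo ⟨h1, h2⟩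

theorem mu_snd (s₀ s τ : ℝ) : (mu e u s₀ (P0 e u (s, τ))).2 = τ := by
  unfold mu P0
  simp only
  rw [XF_rr h, real_inner_smul_left, nn_nn h, sub_self, Real.cos_zero, mul_one]

theorem mu_fst (s₀ s τ : ℝ) : (mu e u s₀ (P0 e u (s, τ))).1 =
    s₀ + Real.arcsin (Real.sin (s - s₀)) := by
  have e1 : ⟪nn e u s₀, (P0 e u (s, τ)).1⟫ = Real.sin (s - s₀) := by
    rw [real_inner_comm]
    exact rr_nn h s s₀
  unfold mu
  simp only
  rw [e1]

theorem mu_P0 {s s₀ τ : ℝ} (hs : |s - s₀| < Real.pi / 2) :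
    mu e u s₀ (P0 e u (s, τ)) = (s, τ) := by
  obtain ⟨h1, h2⟩ := abs_lt.1 hs
  refine Prod.ext ?_ (mu_snd h s₀ s τ)
  rw [mu_fst h, Real.arcsin_sin h1.le h2.le]
  ring

theorem mu_shift {s s₀ τ : ℝ} (hz : P0 e u (s, τ) ∈ MU e u s₀) :
    ∃ k : ℤ, mu e u s₀ (P0 e u (s, τ)) = (s + k * (2 * Real.pi), τ) := by
  have e2 : ⟪rr e u s₀, (P0 e u (s, τ)).1⟫ = Real.cos (s - s₀) := by
    rw [real_inner_comm]
    exact rr_rr h s s₀
  have h3 := hz.2.2
  rw [e2] at h3
  obtain ⟨k, hk⟩ := shift_int h3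
  exact ⟨k, Prod.ext (by rw [mu_fst h, hk]) (mu_snd h s₀ s τ)⟩

theorem P0_surj {z : V × V} (hz : z ∈ cotangent (Circ e u)) : ∃ p, P0 e u p = z := by
  rw [cotangent_eq_Cot] at hz
  obtain ⟨h1, h2⟩ := hz
  have h1' := h.mem_Circ.1 h1
  obtain ⟨h3, h4⟩ := (h.tan_Circ h1).1 h2
  have hsum := h.sq_sum h1'.2
  rw [h1'.1, one_pow] at hsum
  obtain ⟨s, hs⟩ : ∃ s : ℝ, Real.cos s = ⟪e, z.1⟫ ∧ Real.sin s = ⟪u, z.1⟫ := by
    set w : ℂ := (⟪e, z.1⟫ : ℂ) + (⟪u, z.1⟫ : ℂ) * Complex.I with hw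
    have hre : w.re = ⟪e, z.1⟫ := by simp [hw]
    have him : w.im = ⟪u, z.1⟫ := by simp [hw]
    have hn : ‖w‖ = 1 := by
      rw [← sq_eq_sq₀ (norm_nonneg _) zero_le_one, Complex.sq_norm, Complex.normSq_apply, hre, him]
      nlinarith
    have hw0 : w ≠ 0 := by
      intro h0
      rw [h0, norm_zero] at hn
      exact zero_ne_one hn
    refine ⟨Complex.arg w, ?_, ?_⟩
    · rw [Complex.cos_arg hw0, hn, div_one, hre]
    · rw [Complex.sin_arg, hn, div_one, him]
  have hz1 : rr e u s = z.1 := by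
    unfold rr
    rw [hs.1, hs.2]
    exact h1'.2.symm
  refine ⟨(s, ⟪z.2, XF e u z.1⟫), Prod.ext hz1 ?_⟩
  change ⟪z.2, XF e u z.1⟫ • nn e u s = z.2
  rw [← XF_rr h, hz1]
  exact (h.eq_XF h1'.2 h1'.1 h3 h4).symm

theorem P0_mu {s₀ : ℝ} {z : V × V} (hz : z ∈ cotangent (Circ e u)) (hU : z ∈ MU e u s₀) :
    P0 e u (mu e u s₀ z) = z := by
  obtain ⟨⟨s, τ⟩, rfl⟩ := P0_surj h hz
  obtain ⟨k, hk⟩ := mu_shift h hU
  rw [hk, P0_per h]

theorem P0_inj {s τ s' τ' : ℝ} (he : P0 e u (s, τ) = P0 e u (s', τ')) :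
    ∃ k : ℤ, s' = s + k * (2 * Real.pi) ∧ τ = τ' := by
  have hU : P0 e u (s, τ) ∈ MU e u s' := by
    rw [he]
    exact P0_mem_MU h (by rw [sub_self, abs_zero]; exact Real.pi_div_two_pos)
  obtain ⟨k, hk⟩ := mu_shift h hU
  rw [he, mu_P0 h (by rw [sub_self, abs_zero]; exact Real.pi_div_two_pos)] at hk
  exact ⟨k, congrArg Prod.fst hk, (congrArg Prod.snd hk).symm⟩

/-- the tangent vectors of the cotangent bundle of the circle -/
theorem tan_P0 {s τ : ℝ} {w : V × V} (hw : w ∈ tan (cotangent (Circ e u)) (P0 e u (s, τ))) :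
    ∃ a : ℝ × ℝ, fderiv ℝ (P0 e u) (s, τ) a = w := by
  obtain ⟨γ, g1, g2, g3, g4⟩ := hw
  have hs0 : |s - s| < Real.pi / 2 := by rw [sub_self, abs_zero]; exact Real.pi_div_two_pos
  have hz : γ 0 ∈ MU e u s := by
    rw [g3]
    exact P0_mem_MU h hs0
  have hd : HasFDerivAt (mu e u s) (fderiv ℝ (mu e u s) (γ 0)) (γ 0) :=
    (((mu_smooth s).contDiffAt ((MU_open s).mem_nhds hz)).differentiableAt (by simp)).hasFDerivAt
  have e1 := hd.comp_hasDerivAt 0 g4
  have e2 := hd_comp (P0_smooth e u) e1 (x := (s, τ)) (by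
    simp only [Function.comp_apply, g3]
    exact mu_P0 h hs0)
  have e3 : (fun t => P0 e u ((mu e u s ∘ γ) t)) =ᶠ[𝓝 0] γ := by
    filter_upwards [((MU_open s).preimage g1.continuous).mem_nhds hz] with t ht
    exact P0_mu h (g2 t) ht
  exact ⟨_, (e2.congr_of_eventuallyEq e3.symm).unique g4⟩

end

end Vale.Agent.P220.H446
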