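import Vale.Agent.P220.H446.Pl
import Vale.Agent.P220.R2.H180.Fix

/-!
# The reduced Lagrangian in the cotangent bundle of the circle
-/

open Set Filter Topology
open scoped ContDiff RealInnerProductSpace

set_option linter.unusedSectionVars false

namespace Vale.Agent.P220.H446

open Vale.Agent.P220.R2.H481 Vale.Agent.P220.R2
open H180 (Orth InPl Circ XF SS Refl)

variable {E : Type} [NormedAddCommGroup E] [InnerProductSpace ℝ E] [FiniteDimensional ℝ E]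
  {V : Type} [NormedAddCommGroup V] [InnerProductSpace ℝ V] [FiniteDimensional ℝ V]

namespace LG

variable {D : TN E} (Λ : LG D) {Φ : ℝ → E × E → E × E}

/-- the reduced Lagrangian -/
def Lp (Φ : ℝ → E × E → E × E) (e u : V) : Set (V × V) := P0 e u '' Λ.Gm Φ

variable (hΦ : IsGeo D.Q D.P Φ) {e u : V} (h : Orth e u)

include hΦ h

theorem Lp_sub : Λ.Lp Φ e u ⊆ cotangent (Circ e u) := by
  rintro _ ⟨p, -, rfl⟩
  exact P0_cot h p

theorem Lp_nonempty : (Λ.Lp Φ e u).Nonempty := by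
  obtain ⟨z, hz⟩ := Λ.ne
  obtain ⟨v, θ, τ, h1, h2⟩ := Λ.nv hz
  have h3 := TN.NV.mh hΦ h1
  refine ⟨_, (θ, τ), ⟨_, h3.1, ?_⟩, rfl⟩
  have h4 : D.Psi Φ ((Φ (Real.pi / 2 - θ) (z.1, v)).1, (θ, τ)) = z := by
    unfold TN.Psi
    simp only
    rw [h3.2, ← h2]
  rw [h4]
  exact hz

theorem Lp_compact : IsCompact (Λ.Lp Φ e u) := by
  obtain ⟨R, hR⟩ := Λ.cL.exists_bound_of_continuousOn (f := fun z : E × E => z.2)
    continuous_snd.continuousOn
  obtain ⟨m, hm⟩ := Λ.exists_M hΦ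
  have hK : IsCompact (Λ.Gm Φ ∩ (Icc (-Real.pi) Real.pi ×ˢ Icc (-R) R)) :=
    (isCompact_Icc.prod isCompact_Icc).inter_left (Λ.Gm_closed hΦ)
  have : Λ.Lp Φ e u = P0 e u '' (Λ.Gm Φ ∩ (Icc (-Real.pi) Real.pi ×ˢ Icc (-R) R)) := by
    apply Subset.antisymm
    · rintro _ ⟨⟨s, τ⟩, hp, rfl⟩
      have hm1 := toIocMod_mem_Ioc Real.two_pi_pos (-Real.pi) s
      have e1 : toIocMod Real.two_pi_pos (-Real.pi) s =
          s + ((-(toIocDiv Real.two_pi_pos (-Real.pi) s) : ℤ) : ℝ) * (2 * Real.pi) := by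
        have := toIocMod_add_toIocDiv_zsmul Real.two_pi_pos (-Real.pi) s
        rw [zsmul_eq_mul] at this
        push_cast
        linarith
      rw [e1] at hm1
      refine ⟨_, ⟨Λ.Gm_per hΦ hp (-(toIocDiv Real.two_pi_pos (-Real.pi) s)), ?_, ?_⟩,
        P0_per h s τ _⟩
      · exact ⟨hm1.1.le, by linarith [hm1.2]⟩
      · have h1 := hR _ (Λ.sat hΦ hp hm)
        have h2 := (TN.nv_sg hΦ hm s).norm
        have h3 : ‖(D.Psi Φ (m, (s, τ))).2‖ = |τ| := by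
          unfold TN.Psi
          simp only
          rw [norm_smul, h2, mul_one, Real.norm_eq_abs]
        rw [h3] at h1
        exact abs_le.1 h1
    · rintro _ ⟨p, hp, rfl⟩
      exact ⟨p, hp.1, rfl⟩
  rw [this]
  exact hK.image (P0_smooth e u).continuous

theorem mu_mem {s₀ : ℝ} {z : V × V} (hz : z ∈ Λ.Lp Φ e u) (hU : z ∈ MU e u s₀) :
    mu e u s₀ z ∈ Λ.Gm Φ ∧ P0 e u (mu e u s₀ z) = z := by
  obtain ⟨⟨s, τ⟩, hp, rfl⟩ := hz
  obtain ⟨k, hk⟩ := mu_shift h hU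
  rw [hk, P0_per h]
  exact ⟨Λ.Gm_per hΦ hp k, rfl⟩

theorem Lp_SS {z : V × V} (hz : z ∈ Λ.Lp Φ e u) : SS u z ∈ Λ.Lp Φ e u := by
  obtain ⟨⟨s, τ⟩, hp, rfl⟩ := hz
  exact ⟨(-s, -τ), Λ.Gm_neg hΦ hp, (P0_SS h s τ).symm⟩

theorem Lp_submanifold : H57.IsSubmanifold 1 (Λ.Lp Φ e u) := by
  rintro _ ⟨⟨s₀, τ₀⟩, hp, rfl⟩
  obtain ⟨w, η, κ, hw0, hw, η1, κ1, η2, η3, κ2, η4, hfix⟩ := Λ.Gm_ret hΦ hp
  have hs0 : |s₀ - s₀| < Real.pi / 2 := by rw [sub_self, abs_zero]; exact Real.pi_div_two_pos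
  have hzU : P0 e u (s₀, τ₀) ∈ MU e u s₀ := P0_mem_MU h hs0
  have hmu0 : mu e u s₀ (P0 e u (s₀, τ₀)) = (s₀, τ₀) := mu_P0 h hs0
  have hUn := (MU_open (e := e) (u := u) s₀).mem_nhds hzU
  have hs : ContDiffOn ℝ ∞ (fun z => P0 e u (η (κ (mu e u s₀ z)))) (MU e u s₀) :=
    ((P0_smooth e u).comp (η1.comp κ1)).comp_contDiffOn (mu_smooth s₀)
  obtain ⟨ρ, hρ, hρρ⟩ := exists_germ_ext hUn hs
  have hmuc : Tendsto (mu e u s₀) (𝓝 (P0 e u (s₀, τ₀))) (𝓝 (s₀, τ₀)) := by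
    have := ((mu_smooth (e := e) (u := u) s₀).continuousOn.continuousAt hUn).tendsto
    rwa [hmu0] at this
  have hfix' : ∀ᶠ y in 𝓝 (P0 e u (s₀, τ₀)), y ∈ Λ.Lp Φ e u → ρ y = y := by
    filter_upwards [hρρ, hUn, hmuc.eventually hfix] with y h1 h2 h3 h4
    obtain ⟨k1, k2⟩ := Λ.mu_mem hΦ h h4 h2
    rw [h1, h3 k1, k2]
  have hL : H180.LocRet (Λ.Lp Φ e u) (P0 e u (s₀, τ₀)) ρ := by
    refine ⟨⟨_, hp, rfl⟩, hρ, ?_, hfix'⟩
    filter_upwards [hρρ] with y h1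
    rw [h1]
    exact ⟨_, η2 _, rfl⟩
  set v₀ : V × V := fderiv ℝ (P0 e u) (s₀, τ₀) w with hv₀
  have hv0 : v₀ ≠ 0 := by
    intro h0
    obtain ⟨b, c⟩ := w
    rw [P0_fderiv] at hv₀
    rw [hv₀] at h0
    have hn : nn e u s₀ ≠ 0 := by
      intro h1
      have := nn_nn h s₀ s₀
      rw [h1, inner_zero_left, sub_self, Real.cos_zero] at this
      exact zero_ne_one this
    have h1 : b • nn e u s₀ = 0 := congrArg Prod.fst h0
    have h2 : c • nn e u s₀ - (τ₀ * b) • rr e u s₀ = 0 := congrArg Prod.snd h0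
    have h3 : b = 0 := (smul_eq_zero.1 h1).resolve_right hn
    rw [h3, mul_zero, zero_smul, sub_zero] at h2
    have h4 : c = 0 := (smul_eq_zero.1 h2).resolve_right hn
    exact hw0 (Prod.ext h3 h4)
  have hcv : HasDerivAt (fun t => P0 e u (η t)) v₀ 0 := hd_comp (P0_smooth e u) η4 η3
  have hTn : H57.Tn ρ (P0 e u (s₀, τ₀)) = Submodule.span ℝ {v₀} := by
    apply le_antisymm
    · intro v hv
      rw [H57.mem_Tn] at hv
      have hd1 : HasFDerivAt (mu e u s₀) (fderiv ℝ (mu e u s₀) (P0 e u (s₀, τ₀)))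
          (P0 e u (s₀, τ₀)) :=
        (((mu_smooth s₀).contDiffAt hUn).differentiableAt (by simp)).hasFDerivAt
      have d0 : HasDerivAt (fun t : ℝ => P0 e u (s₀, τ₀) + t • v) v 0 := by
        simpa using ((hasDerivAt_id (0 : ℝ)).smul_const v).const_add (P0 e u (s₀, τ₀))
      have d1 : HasDerivAt (fun t : ℝ => mu e u s₀ (P0 e u (s₀, τ₀) + t • v))
          (fderiv ℝ (mu e u s₀) (P0 e u (s₀, τ₀)) v) 0 := by
        have hd1' : HasFDerivAt (mu e u s₀) (fderiv ℝ (mu e u s₀) (P0 e u (s₀, τ₀)))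
            (P0 e u (s₀, τ₀) + (0 : ℝ) • v) := by rwa [zero_smul, add_zero]
        exact HasFDerivAt.comp_hasDerivAt (f := fun t : ℝ => P0 e u (s₀, τ₀) + t • v) 0 hd1' d0
      have d2 := hd_comp κ1 d1 (x := (s₀, τ₀)) (by
        simp only [zero_smul, add_zero]
        exact hmu0)
      have d3 : HasDerivAt (fun t : ℝ => P0 e u (η (κ (mu e u s₀ (P0 e u (s₀, τ₀) + t • v)))))
          ((fderiv ℝ κ (s₀, τ₀) (fderiv ℝ (mu e u s₀) (P0 e u (s₀, τ₀)) v)) • v₀) 0 := by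
        have hcv' : HasDerivAt (fun t => P0 e u (η t)) v₀
            (κ (mu e u s₀ (P0 e u (s₀, τ₀) + (0 : ℝ) • v))) := by
          rw [zero_smul, add_zero, hmu0, κ2]
          exact hcv
        exact HasDerivAt.scomp (h := fun t : ℝ => κ (mu e u s₀ (P0 e u (s₀, τ₀) + t • v))) 0
          hcv' d2
      have d4 := hd_comp hρ d0 (x := P0 e u (s₀, τ₀)) (by simp)
      have d5 : (fun t : ℝ => ρ (P0 e u (s₀, τ₀) + t • v)) =ᶠ[𝓝 0]
          fun t : ℝ => P0 e u (η (κ (mu e u s₀ (P0 e u (s₀, τ₀) + t • v)))) := by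
        have hc : Tendsto (fun t : ℝ => P0 e u (s₀, τ₀) + t • v) (𝓝 0)
            (𝓝 (P0 e u (s₀, τ₀))) := by
          have := d0.continuousAt.tendsto
          simpa using this
        exact hc.eventually hρρ
      have d6 := (d4.congr_of_eventuallyEq d5.symm).unique d3
      rw [hv] at d6
      rw [d6]
      exact Submodule.smul_mem _ _ (Submodule.mem_span_singleton_self v₀)
    · rw [Submodule.span_singleton_le_iff_mem, H57.mem_Tn]
      have d1 := hd_comp hρ hcv (x := P0 e u (s₀, τ₀)) (by simp only [η3])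
      have d2 : (fun t => ρ (P0 e u (η t))) =ᶠ[𝓝 0] fun t => P0 e u (η t) := by
        have hc : Tendsto (fun t : ℝ => P0 e u (η t)) (𝓝 0) (𝓝 (P0 e u (s₀, τ₀))) := by
          have := hcv.continuousAt.tendsto
          simpa only [η3] using this
        filter_upwards [hc.eventually hfix'] with t ht
        exact ht ⟨_, η2 t, rfl⟩
      exact (d1.congr_of_eventuallyEq d2.symm).unique hcv
  have hk : Module.finrank ℝ (H57.Tn ρ (P0 e u (s₀, τ₀))) = 1 := by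
    rw [hTn]
    exact finrank_span_singleton hv0
  obtain ⟨P, hP, hP2⟩ := H57.exists_projection (H57.Tn ρ (P0 e u (s₀, τ₀)))
  obtain ⟨Θ, k1, k2, k3, k4, -, -⟩ := hL.exists_chart hP hP2
  exact ⟨Θ, H57.Tn ρ _, k1, k2, k3, hk, k4⟩

theorem Lp_exact : ∃ f : V × V → ℝ, ContDiff ℝ ∞ f ∧
    ∀ z ∈ Λ.Lp Φ e u, ∀ v ∈ H57.Tan (Λ.Lp Φ e u) z, fderiv ℝ f z v = H57.lam z v := by
  classical
  obtain ⟨m, hm⟩ := Λ.exists_M hΦ
  set Fp : ℝ × ℝ → ℝ := fun p => Λ.F (D.Psi Φ (m, p)) with hFp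
  have hFs : ContDiff ℝ ∞ Fp :=
    Λ.hF.comp ((TN.Psi_smooth hΦ).comp (contDiff_const.prodMk contDiff_id))
  set g : V × V → ℝ := fun z => if hz : z ∈ Λ.Lp Φ e u then Fp hz.choose else 0 with hg
  have hloc : ∀ s₀ : ℝ, ∀ y ∈ MU e u s₀, y ∈ Λ.Lp Φ e u → Fp (mu e u s₀ y) = g y := by
    intro s₀ y hy hyL
    have hc := hyL.choose_spec
    simp only [hg, dif_pos hyL]
    set p := hyL.choose with hp
    obtain ⟨s, τ⟩ := p
    rw [← hc.2] at hy ⊢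
    obtain ⟨k, hk⟩ := mu_shift h hy
    rw [hk]
    exact Λ.F_per hΦ hc.1 hm k
  obtain ⟨f, hf, hfg⟩ := H57.glue (Λ.Lp_compact hΦ h).isClosed g (fun x hx => by
    obtain ⟨⟨s₀, τ₀⟩, hp, rfl⟩ := hx
    have hs0 : |s₀ - s₀| < Real.pi / 2 := by rw [sub_self, abs_zero]; exact Real.pi_div_two_pos
    refine ⟨MU e u s₀, (MU_open s₀).mem_nhds (P0_mem_MU h hs0), fun y => Fp (mu e u s₀ y),
      hFs.comp_contDiffOn (mu_smooth s₀), fun y hy hyL => hloc s₀ y hy hyL⟩)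
  refine ⟨f, hf, fun z hz v hv => ?_⟩
  rw [← tan_eq_Tan] at hv
  obtain ⟨⟨s₀, τ₀⟩, hp, rfl⟩ := hz
  have hs0 : |s₀ - s₀| < Real.pi / 2 := by rw [sub_self, abs_zero]; exact Real.pi_div_two_pos
  have hzU : P0 e u (s₀, τ₀) ∈ MU e u s₀ := P0_mem_MU h hs0
  obtain ⟨c, c1, c2, c3, c4⟩ := hv
  set U : Set ℝ := {t | c t ∈ MU e u s₀} with hU
  have hUn : U ∈ 𝓝 (0 : ℝ) := by
    refine ((MU_open s₀).preimage c1.continuous).mem_nhds ?_
    change c 0 ∈ MU e u s₀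
    rwa [c3]
  have hqs : ContDiffOn ℝ ∞ (fun t => mu e u s₀ (c t)) U :=
    (mu_smooth s₀).comp c1.contDiffOn (fun t ht => ht)
  have hq0 : mu e u s₀ (c 0) = (s₀, τ₀) := by
    rw [c3]
    exact mu_P0 h hs0
  have hqd : HasDerivAt (fun t => mu e u s₀ (c t)) (fderiv ℝ (mu e u s₀) (c 0) v) 0 := by
    have hd1 : HasFDerivAt (mu e u s₀) (fderiv ℝ (mu e u s₀) (c 0)) (c 0) :=
      (((mu_smooth s₀).contDiffAt ((MU_open s₀).mem_nhds (by rwa [c3]))).differentiableAt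
        (by simp)).hasFDerivAt
    exact hd1.comp_hasDerivAt 0 c4
  set w := fderiv ℝ (mu e u s₀) (c 0) v with hw
  have hwt : w ∈ tan (Λ.Gm Φ) (s₀, τ₀) :=
    tan_of_local hUn hqs (fun t ht => (Λ.mu_mem hΦ h (c2 t) ht).1) hq0 hqd
  have hv : v = fderiv ℝ (P0 e u) (s₀, τ₀) w := by
    have e1 := hd_comp (P0_smooth e u) hqd hq0
    have e2 : (fun t => P0 e u (mu e u s₀ (c t))) =ᶠ[𝓝 0] c := by
      filter_upwards [hUn] with t ht
      exact (Λ.mu_mem hΦ h (c2 t) ht).2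
    exact c4.unique (e1.congr_of_eventuallyEq e2.symm)
  have e1 := hd_comp hf c4 c3
  have e2 := hd_comp hFs hqd hq0
  have e3 : (fun t => f (c t)) =ᶠ[𝓝 0] fun t => Fp (mu e u s₀ (c t)) := by
    filter_upwards [hUn] with t ht
    rw [hfg _ (c2 t), hloc s₀ _ ht (c2 t)]
  rw [e1.unique (e2.congr_of_eventuallyEq e3)]
  have e4 : fderiv ℝ Fp (s₀, τ₀) w = τ₀ * w.1 := Λ.F_deriv hΦ hp hwt hm
  rw [e4, hv]
  obtain ⟨b, c'⟩ := w
  rw [P0_fderiv]
  unfold H57.lam P0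
  simp only
  rw [real_inner_smul_left, real_inner_smul_right, nn_nn h, sub_self, Real.cos_zero]
  ring

/-- **The reduced Lagrangian is a closed exact Lagrangian.** -/
theorem Lp_closed : H57.IsClosedExactLagrangian 1 (Circ e u) (Λ.Lp Φ e u) :=
  ⟨Λ.Lp_submanifold hΦ h, Λ.Lp_compact hΦ h, Λ.Lp_nonempty hΦ h, by
    rw [← cotangent_eq_Cot]
    exact Λ.Lp_sub hΦ h, Λ.Lp_exact hΦ h⟩

end LG

end Vale.Agent.P220.H446
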