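import Vale.Agent.P220.H446.Pl2
import Vale.Agent.P220.R2.H180.T.One

/-!
# The symmetric isotopy in the cotangent bundle of the circle
-/

open Set Filter Topology
open scoped ContDiff RealInnerProductSpace

set_option linter.unusedSectionVars false

namespace Vale.Agent.P220.H446

open Vale.Agent.P220.R2.H481 Vale.Agent.P220.R2
open H180 (Orth InPl Circ XF SS Refl Sph InT wt)

variable {E : Type} [NormedAddCommGroup E] [InnerProductSpace ℝ E] [FiniteDimensional ℝ E]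
  {V : Type} [NormedAddCommGroup V] [InnerProductSpace ℝ V] [FiniteDimensional ℝ V]

/-- the group of two elements acting by a reflection -/
noncomputable def sgn (u : V) : ℤˣ →* (V ≃ₗᵢ[ℝ] V) where
  toFun g := if g = 1 then 1 else Refl u
  map_one' := by simp
  map_mul' a b := by
    have hR : Refl u * Refl u = 1 := by
      ext x
      exact congrArg Prod.fst (H180.SS_SS u (x, x))
    rcases Int.units_eq_one_or a with rfl | rfl <;> rcases Int.units_eq_one_or b with rfl | rfl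
    · simp
    · simp
    · simp
    · simp [hR]

theorem sgn_neg (u : V) : sgn u (-1) = Refl u := by
  change (if (-1 : ℤˣ) = 1 then (1 : V ≃ₗᵢ[ℝ] V) else Refl u) = Refl u
  rw [if_neg (by decide)]

theorem circ_eq {e u : V} (h : Orth e u) (hV : Module.finrank ℝ V = 2) :
    (∀ x : V, InPl e u x) ∧ Circ e u = Sph V := by
  have htop : H180.Pl e u = ⊤ := by
    refine Submodule.eq_top_of_finrank_eq ?_
    rw [h.finrank_Pl, hV]
  have hall : ∀ x : V, InPl e u x := fun x => h.mem_Pl.1 (htop ▸ Submodule.mem_top)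
  refine ⟨hall, ?_⟩
  ext q
  rw [h.mem_Circ, H180.mem_Sph]
  exact and_iff_left (hall q)

namespace LG

variable {D : TN E} (Λ : LG D) {Φ : ℝ → E × E → E × E}
variable (hΦ : IsGeo D.Q D.P Φ) {e u : V} (h : Orth e u)

include hΦ h

theorem plane_ham (hV : Module.finrank ℝ V = 2) :
    ∃ (H : ℝ × (V × V) → ℝ) (φ : ℝ → V × V → V × V), H57.IsHam (Sph V) H ∧
      (∀ s z, H (s, SS u z) = H (s, z)) ∧ H57.IsHamFlow (Sph V) H φ ∧
      φ 1 '' {z | z.1 ∈ Sph V ∧ z.2 = 0} = Λ.Lp Φ e u := by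
  obtain ⟨hall, hC⟩ := circ_eq h hV
  have hS := Λ.Lp_closed hΦ h
  have hSl : H180.Slc e u (Λ.Lp Φ e u) = Λ.Lp Φ e u := by
    ext z
    exact and_iff_left (h.RR_eq.2 ⟨hall _, hall _⟩)
  have hSS : ∀ z ∈ Λ.Lp Φ e u, SS u z ∈ Λ.Lp Φ e u := fun z hz => Λ.Lp_SS hΦ h hz
  have hInT : ∀ z ∈ Λ.Lp Φ e u, InT e u z := by
    intro z hz
    have h1 := hS.sub hz
    rw [hC] at h1
    obtain ⟨h4, h5⟩ := H180.cot_sph.1 h1
    exact ⟨h4, hall _, hall _, h5⟩
  have hemb := h.slice_emb (L := Λ.Lp Φ e u) (by rw [hSl]; exact hS.sub)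
  rw [hSl] at hemb
  obtain ⟨D', hDQ, hDL, hDX⟩ := H180.exists_base' h.circ_closed hS hemb
  obtain ⟨Λ'⟩ := D'.exists_leaf
  obtain ⟨γ, hγ⟩ := H180.exists_curve h Λ' hDQ hDX (by rw [hDL]; exact hSS)
  rw [hDL] at hγ
  obtain ⟨c, hc, hc1, hc2⟩ := hγ.exists_arc h hInT
  obtain ⟨ι, hι⟩ := H180.arc_iso_one h.v1 h.w1 h.vw hc (L := Λ.Lp Φ e u) fun z => by
    constructor
    · intro hz
      have h1 := hInT z hz
      obtain ⟨τ, hτ, hcτ⟩ := hc1 _ hz
      exact ⟨h1.n1, h1.o, ⟨u, h.w1, h.vw, h1.p1, h1.p2⟩, τ, hτ, hcτ⟩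
    · rintro ⟨h4, h5, -, τ, hτ, hcτ⟩
      obtain ⟨z₀, hz₀, hwz₀⟩ := hc2 τ hτ
      have hT : InT e u z := ⟨h4, hall _, hall _, h5⟩
      rcases h.eq_or_of_wt hT (hInT z₀ hz₀) (by rw [← hcτ, hwz₀]) with h9 | h9
      · rw [h9]
        exact hz₀
      · rw [h9]
        exact hSS _ hz₀
  have hsgn : ∀ g : ℤˣ, (sgn u g) e = e := by
    intro g
    rcases Int.units_eq_one_or g with rfl | rfl
    · simp
    · rw [sgn_neg]
      exact h.Refl_e
  obtain ⟨H, φ, h1, h2, h3, h4⟩ := hι.exists_ham (sgn u) (fun x => continuous_of_discreteTopology)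
    hsgn
  refine ⟨H, φ, h1, fun s z => ?_, h3, h4⟩
  have := h2 (-1) s z
  rw [sgn_neg] at this
  exact this

end LG

end Vale.Agent.P220.H446
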