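import Vale.Agent.P220.H446.Lag

/-!
# The family of the normal geodesics
-/

open Set Filter Topology
open scoped ContDiff RealInnerProductSpace

set_option linter.unusedSectionVars false

namespace Vale.Agent.P220.H446

open Vale.Agent.P220.R2.H481 Vale.Agent.P220.R2

variable {E : Type} [NormedAddCommGroup E] [InnerProductSpace ℝ E] [FiniteDimensional ℝ E]

/-- the chain rule along a curve -/
theorem hd_comp {F G : Type} [NormedAddCommGroup F] [NormedSpace ℝ F] [NormedAddCommGroup G]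
    [NormedSpace ℝ G] {f : F → G} (hf : ContDiff ℝ ∞ f) {c : ℝ → F} {v : F} {t : ℝ} {x : F}
    (hc : HasDerivAt c v t) (hx : c t = x) : HasDerivAt (fun s => f (c s)) (fderiv ℝ f x v) t := by
  subst hx
  exact ((hf.differentiable (by simp) _).hasFDerivAt).comp_hasDerivAt t hc

namespace TN

variable (D : TN E)

/-- the middle level set -/
def M : Set E := {q | q ∈ D.Q ∧ D.f q = 0}

theorem M_closed : IsClosed D.M :=
  D.cQ.isClosed.inter (isClosed_eq D.hf.continuous continuous_const)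

theorem nv_M {m : E} (hm : m ∈ D.M) : D.NV m (-D.g m) (Real.pi / 2) := by
  refine ⟨hm.1, ?_, ?_, ?_, ?_, ?_⟩
  · rw [mem_tan_iff D.hP hm.1, map_neg, D.Pg hm.1]
  · have h := D.gn m hm.1
    rw [hm.2] at h
    rw [norm_neg, ← sq_eq_sq₀ (norm_nonneg _) zero_le_one, h]
    norm_num
  · rw [Real.cos_pi_div_two, hm.2]
  · rw [Real.sin_pi_div_two, one_smul, neg_neg]
  · rw [Real.cos_pi_div_two, zero_smul, map_neg, D.Ag hm.1, hm.2, zero_smul, neg_zero, neg_zero]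

theorem NV.uniq_g {D : TN E} {x v : E} {θ : ℝ} (h : D.NV x v θ) (hs : Real.sin θ = 1) :
    v = -D.g x := by
  rw [h.hg, hs, one_smul, neg_neg]

/-- the unit tangent vector at time `s` of the normal geodesic through `m` -/
noncomputable def sg (Φ : ℝ → E × E → E × E) (x : E × ℝ) : E × E :=
  Φ (x.2 - Real.pi / 2) (x.1, -D.g x.1)

/-- the family of the cotangent bundles of the normal geodesics -/
noncomputable def Psi (Φ : ℝ → E × E → E × E) (x : E × (ℝ × ℝ)) : E × E :=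
  ((D.sg Φ (x.1, x.2.1)).1, x.2.2 • (D.sg Φ (x.1, x.2.1)).2)

section

variable {D} {Φ : ℝ → E × E → E × E} (hΦ : IsGeo D.Q D.P Φ)

include hΦ

theorem sg_smooth : ContDiff ℝ ∞ (D.sg Φ) :=
  hΦ.smooth.comp ((contDiff_snd.sub contDiff_const).prodMk
    (contDiff_fst.prodMk (D.hg.comp contDiff_fst).neg))

theorem Psi_smooth : ContDiff ℝ ∞ (D.Psi Φ) := by
  have h : ContDiff ℝ ∞ fun x : E × (ℝ × ℝ) => D.sg Φ (x.1, x.2.1) :=
    (sg_smooth hΦ).comp (contDiff_fst.prodMk (contDiff_fst.comp contDiff_snd))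
  exact (contDiff_fst.comp h).prodMk ((contDiff_snd.comp contDiff_snd).smul
    (contDiff_snd.comp h))

theorem nv_sg {m : E} (hm : m ∈ D.M) (s : ℝ) :
    D.NV (D.sg Φ (m, s)).1 (D.sg Φ (m, s)).2 s := by
  have h := (D.nv_M hm).geo hΦ (s - Real.pi / 2)
  rw [add_sub_cancel] at h
  exact h

theorem Psi_cot {m : E} (hm : m ∈ D.M) (s τ : ℝ) : D.Psi Φ (m, (s, τ)) ∈ cotangent D.Q := by
  have h := nv_sg hΦ hm s
  refine ⟨h.mem, ?_⟩
  change τ • (D.sg Φ (m, s)).2 ∈ tan D.Q (D.sg Φ (m, s)).1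
  rw [mem_tan_iff D.hP h.mem, map_smul, D.hP.id _ h.mem _ h.tan]

/-- recovering the base point -/
theorem NV.mh {x v : E} {θ : ℝ} (h : D.NV x v θ) :
    (Φ (Real.pi / 2 - θ) (x, v)).1 ∈ D.M ∧
      D.sg Φ ((Φ (Real.pi / 2 - θ) (x, v)).1, θ) = (x, v) := by
  have h1 := h.geo hΦ (Real.pi / 2 - θ)
  rw [add_sub_cancel] at h1
  have h2 := h1.uniq_g Real.sin_pi_div_two
  refine ⟨⟨h1.mem, by rw [h1.hf, Real.cos_pi_div_two]⟩, ?_⟩
  unfold sg
  simp only
  rw [← h2, Prod.mk.eta, ← hΦ.add]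
  have : θ - Real.pi / 2 + (Real.pi / 2 - θ) = 0 := by ring
  rw [this, hΦ.zero]

theorem sg_M {m : E} (s : ℝ) : Φ (Real.pi / 2 - s) (D.sg Φ (m, s)) =
    (m, -D.g m) := by
  unfold sg
  simp only
  rw [← hΦ.add]
  have : Real.pi / 2 - s + (s - Real.pi / 2) = 0 := by ring
  rw [this, hΦ.zero]

theorem Psi_per {m : E} (hm : m ∈ D.M) (k : ℤ) : ∃ m' ∈ D.M, ∀ s τ : ℝ,
    D.Psi Φ (m, (s + k * (2 * Real.pi), τ)) = D.Psi Φ (m', (s, τ)) := by
  have h1 := (D.nv_M hm).geo hΦ (k * (2 * Real.pi))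
  have hs : Real.sin (Real.pi / 2 + k * (2 * Real.pi)) = 1 := by
    rw [Real.sin_add_int_mul_two_pi, Real.sin_pi_div_two]
  have hc : Real.cos (Real.pi / 2 + k * (2 * Real.pi)) = 0 := by
    rw [Real.cos_add_int_mul_two_pi, Real.cos_pi_div_two]
  have h2 := h1.uniq_g hs
  refine ⟨_, ⟨h1.mem, by rw [h1.hf, hc]⟩, fun s τ => ?_⟩
  have h3 : D.sg Φ (m, s + k * (2 * Real.pi)) =
      D.sg Φ ((Φ (k * (2 * Real.pi)) (m, -D.g m)).1, s) := by
    unfold sg
    simp only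
    rw [← h2, Prod.mk.eta, ← hΦ.add]
    congr 1
    ring
  unfold Psi
  simp only
  rw [h3]

theorem Psi_neg {m : E} (hm : m ∈ D.M) : ∃ m' ∈ D.M, ∀ s τ : ℝ,
    D.Psi Φ (m, (-s, -τ)) = D.Psi Φ (m', (s, τ)) := by
  have h0 := D.nv_M hm
  have h1 := h0.geo hΦ (-Real.pi)
  have hs : Real.sin (Real.pi / 2 + -Real.pi) = -1 := by
    rw [← sub_eq_add_neg, Real.sin_sub_pi, Real.sin_pi_div_two]
  have hc : Real.cos (Real.pi / 2 + -Real.pi) = 0 := by
    rw [← sub_eq_add_neg, Real.cos_sub_pi, Real.cos_pi_div_two, neg_zero]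
  have h2 : (Φ (-Real.pi) (m, -D.g m)).2 = D.g (Φ (-Real.pi) (m, -D.g m)).1 := by
    rw [h1.hg, hs, neg_smul, one_smul, neg_neg]
  refine ⟨_, ⟨h1.mem, by rw [h1.hf, hc]⟩, fun s τ => ?_⟩
  have h3 : D.sg Φ ((Φ (-Real.pi) (m, -D.g m)).1, s) =
      ((D.sg Φ (m, -s)).1, -(D.sg Φ (m, -s)).2) := by
    have h4 := hΦ.rev _ h1.cot h1.norm (s - Real.pi / 2)
    unfold sg
    simp only at h4 ⊢
    rw [h2] at h4
    rw [h4, ← h2, Prod.mk.eta, ← hΦ.add]
    have : -(s - Real.pi / 2) + -Real.pi = -s - Real.pi / 2 := by ring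
    rw [this]
  unfold Psi
  simp only
  rw [h3]
  simp only [smul_neg, neg_smul]

/-! ### the tangent spaces of the middle level -/

theorem tan_M_sub {m a : E} (ha : a ∈ tan D.M m) : a ∈ tan D.Q m := by
  obtain ⟨γ, h1, h2, h3, h4⟩ := ha
  exact ⟨γ, h1, fun t => (h2 t).1, h3, h4⟩

/-- **Gauss lemma** -/
theorem gauss {m a : E} (hm : m ∈ D.M) (ha : a ∈ tan D.M m) (s : ℝ) :
    ⟪(D.sg Φ (m, s)).2, (fderiv ℝ (D.sg Φ) (m, s) (a, 0)).1⟫ = 0 := by
  have hsm := sg_smooth hΦ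
  have hfd : ∀ x, HasFDerivAt (D.sg Φ) (fderiv ℝ (D.sg Φ) x) x := fun x =>
    (hsm.differentiable (by simp) x).hasFDerivAt
  set j : ℝ → ℝ := fun s => ⟪(D.sg Φ (m, s)).2, (fderiv ℝ (D.sg Φ) (m, s) (a, 0)).1⟫ with hj
  have hjs : ContDiff ℝ ∞ j := by
    have c0 : ContDiff ℝ ∞ fun s : ℝ => ((m, s) : E × ℝ) := contDiff_const.prodMk contDiff_id
    exact (contDiff_snd.comp (hsm.comp c0)).inner ℝ (contDiff_fst.comp
      (((hsm.fderiv_right (m := ∞) (by simp)).comp c0).clm_apply contDiff_const))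
  have hmul : ∀ s, Real.sin s * j s = 0 := by
    intro s
    obtain ⟨γ, h1, h2, h3, h4⟩ := ha
    have e1 : HasDerivAt (fun t => D.sg Φ (γ t, s)) (fderiv ℝ (D.sg Φ) (m, s) (a, 0)) 0 := by
      have e0 : HasDerivAt (fun t => ((γ t, s) : E × ℝ)) (a, 0) 0 :=
        h4.prodMk (hasDerivAt_const _ _)
      have := (hfd (γ 0, s)).comp_hasDerivAt 0 e0
      rwa [h3] at this
    have e2 : HasDerivAt (fun t => D.f (D.sg Φ (γ t, s)).1)
        (fderiv ℝ D.f (D.sg Φ (m, s)).1 (fderiv ℝ (D.sg Φ) (m, s) (a, 0)).1) 0 := by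
      have := (D.fd_f (D.sg Φ (γ 0, s)).1).comp_hasDerivAt 0 (hasDerivAt_fst e1)
      rwa [h3] at this
    have e3 : (fun t => D.f (D.sg Φ (γ t, s)).1) = fun _ => Real.cos s :=
      funext fun t => (nv_sg hΦ (h2 t) s).hf
    rw [e3] at e2
    have e4 := e2.unique (hasDerivAt_const _ _)
    have hn := nv_sg hΦ hm s
    have e5 : (fderiv ℝ (D.sg Φ) (m, s) (a, 0)).1 ∈ tan D.Q (D.sg Φ (m, s)).1 := by
      refine ⟨fun t => (D.sg Φ (γ t, s)).1, contDiff_fst.comp (hsm.comp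
        (h1.prodMk contDiff_const)), fun t => (nv_sg hΦ (h2 t) s).mem, by simp only [h3],
        hasDerivAt_fst e1⟩
    rw [← D.gf _ hn.mem _ e5, hn.hg, inner_neg_left, inner_smul_left] at e4
    simp only [conj_trivial] at e4
    simp only [hj]
    linarith
  change j s = 0
  by_cases hs : Real.sin s = 0
  · have e1 : HasDerivAt j (deriv j s) s := (hjs.differentiable (by simp) s).hasDerivAt
    have e2 := (Real.hasDerivAt_sin s).mul e1
    have e3 : (fun y => Real.sin y * j y) = fun _ => 0 := funext hmul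
    have e4 : HasDerivAt (fun y => Real.sin y * j y) _ s := e2
    rw [e3] at e4
    have e5 := e4.unique (hasDerivAt_const _ _)
    rw [hs, zero_mul, add_zero] at e5
    rcases mul_eq_zero.1 e5 with h | h
    · have := Real.sin_sq_add_cos_sq s
      rw [hs, h] at this
      norm_num at this
    · exact h
  · exact (mul_eq_zero.1 (hmul s)).resolve_left hs

theorem sg_deriv_s {m : E} (hm : m ∈ D.M) (s : ℝ) :
    fderiv ℝ (D.sg Φ) (m, s) (0, 1) = geoF D.P (D.sg Φ (m, s)) := by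
  have h1 : HasDerivAt (fun t => D.sg Φ (m, t)) (fderiv ℝ (D.sg Φ) (m, s) (0, 1)) s := by
    have e0 : HasDerivAt (fun t : ℝ => ((m, t) : E × ℝ)) (0, 1) s :=
      (hasDerivAt_const _ _).prodMk (hasDerivAt_id s)
    exact (((sg_smooth hΦ).differentiable (by simp) _).hasFDerivAt).comp_hasDerivAt s e0
  have hz := (D.nv_M hm).cot
  have hn : ‖((m, -D.g m) : E × E).2‖ = 1 := (D.nv_M hm).norm
  have h2 : HasDerivAt (fun t => D.sg Φ (m, t)) (geoF D.P (D.sg Φ (m, s))) s := by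
    have h3 := hΦ.deriv _ hz hn (s - Real.pi / 2)
    have h4 := h3.scomp s ((hasDerivAt_id s).sub_const (Real.pi / 2))
    rw [one_smul] at h4
    exact h4
  exact h1.unique h2

/-- the derivative of the family -/
theorem Psi_fderiv {m : E} (hm : m ∈ D.M) (s τ : ℝ) (a : E) (b c : ℝ) :
    fderiv ℝ (D.Psi Φ) (m, (s, τ)) (a, (b, c)) =
      ((fderiv ℝ (D.sg Φ) (m, s) (a, 0)).1 + b • (D.sg Φ (m, s)).2,
        τ • ((fderiv ℝ (D.sg Φ) (m, s) (a, 0)).2 + b • (geoF D.P (D.sg Φ (m, s))).2) +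
          c • (D.sg Φ (m, s)).2) := by
  have e0 : HasDerivAt (fun t : ℝ => ((m, (s, τ)) : E × (ℝ × ℝ)) + t • (a, (b, c)))
      (a, (b, c)) 0 := by
    simpa using ((hasDerivAt_id (0 : ℝ)).smul_const ((a, (b, c)) : E × (ℝ × ℝ))).const_add
      ((m, (s, τ)) : E × (ℝ × ℝ))
  have e1 : HasDerivAt (fun t : ℝ => D.Psi Φ (((m, (s, τ)) : E × (ℝ × ℝ)) + t • (a, (b, c))))
      (fderiv ℝ (D.Psi Φ) (m, (s, τ)) (a, (b, c))) 0 :=
    hd_comp (Psi_smooth hΦ) e0 (by simp)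
  have g0 : HasDerivAt (fun t : ℝ => ((m + t • a, s + t * b) : E × ℝ)) (a, b) 0 := by
    refine HasDerivAt.prodMk ?_ ?_
    · simpa using ((hasDerivAt_id (0 : ℝ)).smul_const a).const_add m
    · simpa using ((hasDerivAt_id (0 : ℝ)).mul_const b).const_add s
  have g1 : HasDerivAt (fun t : ℝ => D.sg Φ (m + t • a, s + t * b))
      (fderiv ℝ (D.sg Φ) (m, s) (a, b)) 0 :=
    hd_comp (sg_smooth hΦ) g0 (by simp)
  have g2 : HasDerivAt (fun t : ℝ => τ + t * c) c 0 := by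
    simpa using ((hasDerivAt_id (0 : ℝ)).mul_const c).const_add τ
  have g3 := (hasDerivAt_fst g1).prodMk (g2.smul (hasDerivAt_snd g1))
  have g4 := e1.unique (by
    refine HasDerivAt.congr_of_eventuallyEq g3 (Eventually.of_forall fun t => ?_)
    simp [Psi])
  rw [g4]
  have g5 : fderiv ℝ (D.sg Φ) (m, s) (a, b) = fderiv ℝ (D.sg Φ) (m, s) (a, 0) +
      b • geoF D.P (D.sg Φ (m, s)) := by
    rw [← sg_deriv_s hΦ hm, ← map_smul, ← map_add]
    simp
  rw [g5]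
  simp only [zero_smul, add_zero, zero_mul]
  refine Prod.ext ?_ ?_
  · rfl
  · rfl

/-- the canonical one-form on the family -/
theorem Psi_lam {m : E} (hm : m ∈ D.M) (s τ : ℝ) {a : E} (ha : a ∈ tan D.M m) (b c : ℝ) :
    ⟪(D.Psi Φ (m, (s, τ))).2, (fderiv ℝ (D.Psi Φ) (m, (s, τ)) (a, (b, c))).1⟫ = τ * b := by
  rw [Psi_fderiv hΦ hm]
  change ⟪τ • (D.sg Φ (m, s)).2, (fderiv ℝ (D.sg Φ) (m, s) (a, 0)).1 + b • (D.sg Φ (m, s)).2⟫ = _
  have hn := nv_sg hΦ hm s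
  rw [inner_add_right, inner_smul_left, inner_smul_left, inner_smul_right, gauss hΦ hm ha,
    real_inner_self_eq_norm_sq, hn.norm]
  simp

end

end TN

end Vale.Agent.P220.H446
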