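import Vale.Agent.P220.H446.Cone
import Vale.Agent.P220.R2.H180.Curve
import Vale.Agent.P220.R2.H481.HamExt

/-!
# The reduced Lagrangian
-/

open Set Filter Topology
open scoped ContDiff RealInnerProductSpace

set_option linter.unusedSectionVars false

namespace Vale.Agent.P220.H446

open Vale.Agent.P220.R2.H481 Vale.Agent.P220.R2

/-- locally constant predicates on connected sets -/
theorem conn_pred {X : Type} [PseudoMetricSpace X] {M : Set X} (hc : IsPreconnected M)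
    {p : X → Prop} (h : ∀ m ∈ M, ∃ δ > 0, ∀ m' ∈ M, dist m' m < δ → (p m ↔ p m')) {m m' : X}
    (hm : m ∈ M) (hm' : m' ∈ M) (hp : p m) : p m' := by
  by_contra hno
  set U : Set X := {x | ∃ y ∈ M, p y ∧ ∃ δ > 0,
    (∀ m' ∈ M, dist m' y < δ → (p y ↔ p m')) ∧ dist x y < δ} with hU
  set V : Set X := {x | ∃ y ∈ M, ¬ p y ∧ ∃ δ > 0,
    (∀ m' ∈ M, dist m' y < δ → (p y ↔ p m')) ∧ dist x y < δ} with hV
  have hUo : IsOpen U := by
    rw [Metric.isOpen_iff]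
    rintro x ⟨y, hy, h1, δ, hδ, h2, h3⟩
    refine ⟨δ - dist x y, by linarith, fun x' hx' => ⟨y, hy, h1, δ, hδ, h2, ?_⟩⟩
    have := dist_triangle x' x y
    rw [Metric.mem_ball] at hx'
    linarith
  have hVo : IsOpen V := by
    rw [Metric.isOpen_iff]
    rintro x ⟨y, hy, h1, δ, hδ, h2, h3⟩
    refine ⟨δ - dist x y, by linarith, fun x' hx' => ⟨y, hy, h1, δ, hδ, h2, ?_⟩⟩
    have := dist_triangle x' x y
    rw [Metric.mem_ball] at hx'
    linarith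
  have key : ∀ x ∈ M, (p x → x ∈ U) ∧ (¬ p x → x ∈ V) := by
    intro x hx
    obtain ⟨δ, hδ, h2⟩ := h x hx
    exact ⟨fun hpx => ⟨x, hx, hpx, δ, hδ, h2, by rwa [dist_self]⟩,
      fun hpx => ⟨x, hx, hpx, δ, hδ, h2, by rwa [dist_self]⟩⟩
  have hcov : M ⊆ U ∪ V := by
    intro x hx
    by_cases hpx : p x
    · exact Or.inl ((key x hx).1 hpx)
    · exact Or.inr ((key x hx).2 hpx)
  obtain ⟨x, hxM, hxU, hxV⟩ := hc U V hUo hVo hcov ⟨m, hm, (key m hm).1 hp⟩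
    ⟨m', hm', (key m' hm').2 hno⟩
  obtain ⟨y, hy, h1, δ, hδ, h2, h3⟩ := hxU
  obtain ⟨y', hy', h1', δ', hδ', h2', h3'⟩ := hxV
  exact h1' ((h2' x hxM h3').2 ((h2 x hxM h3).1 h1))

variable {E : Type} [NormedAddCommGroup E] [InnerProductSpace ℝ E] [FiniteDimensional ℝ E]

namespace LG

variable {D : TN E} (Λ : LG D) {Φ : ℝ → E × E → E × E} (hΦ : IsGeo D.Q D.P Φ)

include hΦ

theorem exists_M (Λ : LG D) : ∃ m, m ∈ D.M := by
  obtain ⟨m, hm1, hm2⟩ := Λ.hM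
  exact ⟨m, hm1, hm2⟩

/-- the primitive is constant in the direction of the middle level -/
theorem F_const {p : ℝ × ℝ} (hp : p ∈ Λ.Gm Φ) {m m' : E} (hm : m ∈ D.M) (hm' : m' ∈ D.M) :
    Λ.F (D.Psi Φ (m, p)) = Λ.F (D.Psi Φ (m', p)) := by
  obtain ⟨s, τ⟩ := p
  refine conn_pred (p := fun x => Λ.F (D.Psi Φ (m, (s, τ))) = Λ.F (D.Psi Φ (x, (s, τ))))
    Λ.conn.isPreconnected ?_ hm hm' rfl
  intro m hm
  obtain ⟨δ, hδ, hb⟩ := Metric.isOpen_iff.1 D.OM_open m (D.M_sub_OM hm)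
  refine ⟨δ, hδ, fun m' hm' hd => ?_⟩
  set p : ℝ → E := fun t => m + Real.smoothTransition t • (m' - m) with hp
  have hpO : ∀ t, p t ∈ D.OM := by
    intro t
    apply hb
    rw [Metric.mem_ball, dist_eq_norm]
    have : p t - m = Real.smoothTransition t • (m' - m) := by simp [hp]
    rw [this, norm_smul, Real.norm_of_nonneg (Real.smoothTransition.nonneg t)]
    calc Real.smoothTransition t * ‖m' - m‖ ≤ 1 * ‖m' - m‖ :=
          mul_le_mul_of_nonneg_right (Real.smoothTransition.le_one t) (norm_nonneg _)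
      _ < δ := by rwa [one_mul, ← dist_eq_norm]
  have hps : ContDiff ℝ ∞ p :=
    contDiff_const.add (Real.smoothTransition.contDiff.smul contDiff_const)
  have hcs : ContDiff ℝ ∞ fun t => D.rM Φ (p t) :=
    contDiffOn_univ.1 ((TN.rM_smooth hΦ).comp hps.contDiffOn (fun t _ => hpO t))
  have h0 : D.rM Φ (p 0) = m := by
    simp only [hp, Real.smoothTransition.zero, zero_smul, add_zero]
    exact TN.rM_fix hΦ hm
  have h1 : D.rM Φ (p 1) = m' := by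
    simp only [hp, Real.smoothTransition.one, one_smul, add_sub_cancel]
    exact TN.rM_fix hΦ hm'
  set c : ℝ → E := fun t => D.rM Φ (p t) with hc
  have hcM : ∀ t, c t ∈ D.M := fun t => TN.rM_mem hΦ (hpO t)
  have hd : ∀ t, HasDerivAt (fun t => Λ.F (D.Psi Φ (c t, (s, τ)))) 0 t := by
    intro t
    have e0 : HasDerivAt c (deriv c t) t := (hcs.differentiable (by simp) t).hasDerivAt
    have e1 : HasDerivAt (fun t => ((c t, (s, τ)) : E × (ℝ × ℝ))) (deriv c t, (0, 0)) t :=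
      e0.prodMk (hasDerivAt_const _ _)
    have e2 := hd_comp (TN.Psi_smooth hΦ) e1 rfl
    have e3 := hd_comp Λ.hF e2 rfl
    have htan : deriv c t ∈ tan D.M (c t) := by
      refine ⟨fun r => c (t + r), hcs.comp (contDiff_const.add contDiff_id), fun r => hcM _,
        by simp, ?_⟩
      have k0 : HasDerivAt (fun r : ℝ => t + r) 1 0 := (hasDerivAt_id (0 : ℝ)).const_add t
      have k1 : HasDerivAt c (deriv c t) (t + 0) := by
        rw [add_zero]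
        exact e0
      have k2 := k1.scomp 0 k0
      rw [one_smul] at k2
      exact k2
    have hL : D.Psi Φ (c t, (s, τ)) ∈ Λ.L := Λ.sat hΦ ‹_› (hcM t)
    have htL : fderiv ℝ (D.Psi Φ) (c t, (s, τ)) (deriv c t, (0, 0)) ∈
        tan Λ.L (D.Psi Φ (c t, (s, τ))) := by
      refine ⟨fun r => D.Psi Φ (c (t + r), (s, τ)), (TN.Psi_smooth hΦ).comp
        ((hcs.comp (contDiff_const.add contDiff_id)).prodMk contDiff_const),
        fun r => Λ.sat hΦ ‹_› (hcM _), by simp, ?_⟩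
      have k0 : HasDerivAt (fun r : ℝ => t + r) 1 0 := (hasDerivAt_id (0 : ℝ)).const_add t
      have k1 : HasDerivAt (fun t => D.Psi Φ (c t, (s, τ)))
          (fderiv ℝ (D.Psi Φ) (c t, (s, τ)) (deriv c t, (0, 0))) (t + 0) := by
        rw [add_zero]
        exact e2
      have k2 := k1.scomp 0 k0
      rw [one_smul] at k2
      exact k2
    rw [Λ.ex _ hL _ htL, TN.Psi_lam hΦ (hcM t) s τ htan, mul_zero] at e3
    exact e3
  have hdiff : Differentiable ℝ fun t => Λ.F (D.Psi Φ (c t, (s, τ))) := fun t =>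
    (hd t).differentiableAt
  have hconst := is_const_of_deriv_eq_zero hdiff (fun t => (hd t).deriv) 0 1
  have h0' : c 0 = m := h0
  have h1' : c 1 = m' := h1
  rw [h0', h1'] at hconst
  rw [hconst]

/-- the reduced primitive -/
theorem F_per {s τ : ℝ} (hp : (s, τ) ∈ Λ.Gm Φ) {m : E} (hm : m ∈ D.M) (k : ℤ) :
    Λ.F (D.Psi Φ (m, (s + k * (2 * Real.pi), τ))) = Λ.F (D.Psi Φ (m, (s, τ))) := by
  obtain ⟨m', hm', h1⟩ := TN.Psi_per hΦ hm k
  rw [h1]
  exact Λ.F_const hΦ hp hm' hm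

theorem DPsi_tan {p w : ℝ × ℝ} (hw : w ∈ tan (Λ.Gm Φ) p) {m : E} (hm : m ∈ D.M) :
    fderiv ℝ (D.Psi Φ) (m, p) (0, w) ∈ tan Λ.L (D.Psi Φ (m, p)) := by
  obtain ⟨η, η1, η2, η3, η4⟩ := hw
  refine ⟨fun t => D.Psi Φ (m, η t), (TN.Psi_smooth hΦ).comp (contDiff_const.prodMk η1),
    fun t => Λ.sat hΦ (η2 t) hm, by simp only [η3], ?_⟩
  exact hd_comp (TN.Psi_smooth hΦ) ((hasDerivAt_const _ _).prodMk η4) (by simp only [η3])

/-- the differential of the reduced primitive -/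
theorem F_deriv {s τ : ℝ} {w : ℝ × ℝ} (hp : (s, τ) ∈ Λ.Gm Φ) (hw : w ∈ tan (Λ.Gm Φ) (s, τ))
    {m : E} (hm : m ∈ D.M) :
    fderiv ℝ (fun p : ℝ × ℝ => Λ.F (D.Psi Φ (m, p))) (s, τ) w = τ * w.1 := by
  have h0 : (0 : E) ∈ tan D.M m :=
    ⟨fun _ => m, contDiff_const, fun _ => hm, rfl, hasDerivAt_const _ _⟩
  have hg : ContDiff ℝ ∞ fun p : ℝ × ℝ => Λ.F (D.Psi Φ (m, p)) :=
    Λ.hF.comp ((TN.Psi_smooth hΦ).comp (contDiff_const.prodMk contDiff_id))
  have hw' := hw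
  obtain ⟨η, η1, η2, η3, η4⟩ := hw
  have e1 := hd_comp hg η4 η3
  have e2 : HasDerivAt (fun t => D.Psi Φ (m, η t)) (fderiv ℝ (D.Psi Φ) (m, (s, τ)) (0, w)) 0 :=
    hd_comp (TN.Psi_smooth hΦ) ((hasDerivAt_const _ _).prodMk η4) (by simp only [η3])
  have e3 := hd_comp Λ.hF e2 (x := D.Psi Φ (m, (s, τ))) (by simp only [η3])
  rw [e1.unique e3, Λ.ex _ (Λ.sat hΦ hp hm) _ (Λ.DPsi_tan hΦ hw' hm)]
  obtain ⟨b, c⟩ := w
  exact TN.Psi_lam hΦ hm s τ h0 b c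

/-- the tangent directions of the reduced curve are parallel -/
theorem par_Gm {s τ : ℝ} (hp : (s, τ) ∈ Λ.Gm Φ) {m : E} (hm : m ∈ D.M) {w w' : ℝ × ℝ}
    (hw : fderiv ℝ (D.Psi Φ) (m, (s, τ)) (0, w) ∈ tan Λ.L (D.Psi Φ (m, (s, τ))))
    (hw' : fderiv ℝ (D.Psi Φ) (m, (s, τ)) (0, w') ∈ tan Λ.L (D.Psi Φ (m, (s, τ)))) :
    w.2 * w'.1 - w'.2 * w.1 = 0 := by
  have h0 : (0 : E) ∈ tan D.M m :=
    ⟨fun _ => m, contDiff_const, fun _ => hm, rfl, hasDerivAt_const _ _⟩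
  have h1 := Λ.iso (Λ.sat hΦ hp hm) hw hw'
  rwa [TN.om_psi hΦ hm h0 h0] at h1

/-- **A local retraction onto the reduced curve.** -/
theorem Gm_ret {p : ℝ × ℝ} (hp : p ∈ Λ.Gm Φ) : ∃ (w : ℝ × ℝ) (η : ℝ → ℝ × ℝ) (κ : ℝ × ℝ → ℝ),
    w ≠ 0 ∧ w ∈ tan (Λ.Gm Φ) p ∧ ContDiff ℝ ∞ η ∧ ContDiff ℝ ∞ κ ∧ (∀ t, η t ∈ Λ.Gm Φ) ∧
      η 0 = p ∧ κ p = 0 ∧ HasDerivAt η w 0 ∧ ∀ᶠ q in 𝓝 p, q ∈ Λ.Gm Φ → η (κ q) = q := by
  obtain ⟨m, hm⟩ := Λ.exists_M hΦ
  obtain ⟨w, hw0, hw⟩ := Λ.Gm_tan hΦ hp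
  have hwt := hw
  obtain ⟨η, η1, η2, η3, η4⟩ := hw
  -- the coordinate along the curve
  set l : ℝ × ℝ →L[ℝ] ℝ := w.1 • ContinuousLinearMap.fst ℝ ℝ ℝ +
    w.2 • ContinuousLinearMap.snd ℝ ℝ ℝ with hl
  have hla : ∀ x, l x = w.1 * x.1 + w.2 * x.2 := fun x => rfl
  have hlw : 0 < l w := by
    rw [hla]
    rcases eq_or_ne w.1 0 with h1 | h1
    · have h2 : w.2 ≠ 0 := fun h2 => hw0 (Prod.ext h1 h2)
      have := mul_self_pos.2 h2
      have := mul_self_nonneg w.1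
      linarith
    · have := mul_self_pos.2 h1
      have := mul_self_nonneg w.2
      linarith
  set φ : ℝ → ℝ := fun t => l (η t - p) with hφ
  have hφs : ContDiff ℝ ∞ φ := l.contDiff.comp (η1.sub contDiff_const)
  have hφd : HasDerivAt φ (l w) 0 := by
    have := l.hasFDerivAt.comp_hasDerivAt 0 (η4.sub_const p)
    exact this
  have hφ0 : φ 0 = 0 := by simp only [hφ, η3, sub_self, map_zero]
  obtain ⟨U, hU, T, hT, hTφ⟩ := H64.exists_loc_inv hφs (x₀ := (0 : ℝ)) (by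
    intro a b hab
    have e : ∀ a : ℝ, fderiv ℝ φ 0 a = a * l w := fun a => by
      rw [hφd.hasFDerivAt.fderiv]
      rfl
    rw [e, e] at hab
    exact mul_right_cancel₀ hlw.ne' hab)
  obtain ⟨T', hT', hTT⟩ := exists_germ_ext hU hT
  rw [hφ0] at hTT
  have hT0 : T' 0 = 0 := by
    have h1 := hTφ.self_of_nhds
    rw [hφ0] at h1
    rw [hTT.self_of_nhds, h1]
  have hstrict : HasStrictDerivAt φ (l w) 0 := by
    have := hφs.contDiffAt.hasStrictDerivAt (x := (0 : ℝ)) (n := ∞) (by simp)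
    rwa [hφd.deriv] at this
  have hmap := hstrict.map_nhds_eq hlw.ne'
  have hright : ∀ᶠ t in 𝓝 (0 : ℝ), φ (T' t) = t := by
    rw [← hφ0, ← hmap, eventually_map]
    have hct : Tendsto φ (𝓝 0) (𝓝 0) := by
      have := hφs.continuous.tendsto 0
      rwa [hφ0] at this
    filter_upwards [hTφ, hct.eventually hTT] with x h1 h2
    rw [h2, h1]
  -- injectivity
  set G : ℝ × ℝ → ℝ × (E × E) := fun q => (l (q - p), D.Psi Φ (m, q) - Λ.ρ (D.Psi Φ (m, q)))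
    with hG
  have hPm : ContDiff ℝ ∞ fun q : ℝ × ℝ => D.Psi Φ (m, q) :=
    (TN.Psi_smooth hΦ).comp (contDiff_const.prodMk contDiff_id)
  have hGs : ContDiff ℝ ∞ G := (l.contDiff.comp (contDiff_id.sub contDiff_const)).prodMk
    (hPm.sub (Λ.hL.smooth.comp hPm))
  obtain ⟨O, hO, hinj⟩ := H57.locInj hGs (x₀ := p) (by
    intro v hv
    have d1 : HasDerivAt (fun t : ℝ => p + t • v) v 0 := by
      simpa using ((hasDerivAt_id (0 : ℝ)).smul_const v).const_add p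
    have d2 := hd_comp hGs d1 (x := p) (by simp)
    rw [hv] at d2
    have d3 : HasDerivAt (fun t : ℝ => l (p + t • v - p)) (l v) 0 :=
      l.hasFDerivAt.comp_hasDerivAt 0 (d1.sub_const p)
    have d4 : HasDerivAt (fun t : ℝ => D.Psi Φ (m, p + t • v))
        (fderiv ℝ (D.Psi Φ) (m, p) (0, v)) 0 :=
      hd_comp (TN.Psi_smooth hΦ) ((hasDerivAt_const _ _).prodMk d1) (by simp)
    have d5 := hd_comp Λ.hL.smooth d4 (x := D.Psi Φ (m, p)) (by simp)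
    have k1 := (hd_fst d2).unique d3
    have k2 := (hd_snd d2).unique (d4.sub d5)
    have k3 : fderiv ℝ (D.Psi Φ) (m, p) (0, v) ∈ tan Λ.L (D.Psi Φ (m, p)) := by
      rw [Λ.mem_tan (Λ.sat hΦ hp hm), H57.mem_Tn]
      exact (sub_eq_zero.1 k2.symm).symm
    have k4 := Λ.par_Gm hΦ (s := p.1) (τ := p.2) hp hm (Λ.DPsi_tan hΦ hwt hm) k3
    have k5 : l v = 0 := k1.symm
    rw [hla] at k5 hlw
    have e1 : (w.1 * w.1 + w.2 * w.2) * v.1 = 0 := by linear_combination w.1 * k5 + w.2 * k4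
    have e2 : (w.1 * w.1 + w.2 * w.2) * v.2 = 0 := by linear_combination w.2 * k5 - w.1 * k4
    exact Prod.ext ((mul_eq_zero.1 e1).resolve_left hlw.ne')
      ((mul_eq_zero.1 e2).resolve_left hlw.ne'))
  set κ : ℝ × ℝ → ℝ := fun q => T' (l (q - p)) with hκ
  have hκs : ContDiff ℝ ∞ κ := hT'.comp (l.contDiff.comp (contDiff_id.sub contDiff_const))
  have hκ0 : κ p = 0 := by simp only [hκ, sub_self, map_zero, hT0]
  refine ⟨w, η, κ, hw0, hwt, η1, hκs, η2, η3, hκ0, η4, ?_⟩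
  have hlc : Tendsto (fun q => l (q - p)) (𝓝 p) (𝓝 0) := by
    have : Continuous fun q : ℝ × ℝ => l (q - p) := by fun_prop
    have := this.tendsto p
    simpa using this
  have hηκ : Tendsto (fun q => η (κ q)) (𝓝 p) (𝓝 p) := by
    have := (η1.continuous.comp hκs.continuous).tendsto p
    simp only [Function.comp_apply, hκ0, η3] at this
    exact this
  filter_upwards [hlc.eventually hright, hO, hηκ hO] with q h1 h2 h3 hq
  refine hinj h3 h2 ?_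
  simp only [hG]
  have z1 : D.Psi Φ (m, q) - Λ.ρ (D.Psi Φ (m, q)) = 0 := by
    rw [Λ.hL.fix _ (Λ.sat hΦ hq hm), sub_self]
  have z2 : D.Psi Φ (m, η (κ q)) - Λ.ρ (D.Psi Φ (m, η (κ q))) = 0 := by
    rw [Λ.hL.fix _ (Λ.sat hΦ (η2 _) hm), sub_self]
  rw [z1, z2]
  refine Prod.ext ?_ rfl
  exact h1

end LG

end Vale.Agent.P220.H446
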