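import Vale.Agent.P220.H446.Xi

/-!
# The Lagrangian is saturated in the direction of the middle level
-/

open Set Filter Topology
open scoped ContDiff RealInnerProductSpace

set_option linter.unusedSectionVars false

namespace Vale.Agent.P220.H446

open Vale.Agent.P220.R2.H481 Vale.Agent.P220.R2

variable {E : Type} [NormedAddCommGroup E] [InnerProductSpace ℝ E] [FiniteDimensional ℝ E]

theorem hd_fst {F G : Type} [NormedAddCommGroup F] [NormedSpace ℝ F] [NormedAddCommGroup G]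
    [NormedSpace ℝ G] {c : ℝ → F × G} {v : F × G} {t : ℝ} (h : HasDerivAt c v t) :
    HasDerivAt (fun s => (c s).1) v.1 t := by
  have := (hasFDerivAt_fst (𝕜 := ℝ) (p := c t)).comp_hasDerivAt t h
  exact this

theorem hd_snd {F G : Type} [NormedAddCommGroup F] [NormedSpace ℝ F] [NormedAddCommGroup G]
    [NormedSpace ℝ G] {c : ℝ → F × G} {v : F × G} {t : ℝ} (h : HasDerivAt c v t) :
    HasDerivAt (fun s => (c s).2) v.2 t := by
  have := (hasFDerivAt_snd (𝕜 := ℝ) (p := c t)).comp_hasDerivAt t h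
  exact this

theorem tan_M_g {D : TN E} {m a : E} (hm : m ∈ D.M) (ha : a ∈ tan D.M m) : ⟪D.g m, a⟫ = 0 := by
  obtain ⟨γ, h1, h2, h3, h4⟩ := ha
  have ha' : a ∈ tan D.Q m := ⟨γ, h1, fun t => (h2 t).1, h3, h4⟩
  rw [D.gf m hm.1 a ha']
  have e1 := hd_comp D.hf h4 h3
  have e2 : (fun s => D.f (γ s)) = fun _ => (0 : ℝ) := funext fun t => (h2 t).2
  rw [e2] at e1
  exact e1.unique (hasDerivAt_const _ _)

/-- the projection to the tangent spaces of the middle level -/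
noncomputable def PM (D : TN E) (x w : E) : E := D.P x w - ⟪D.g x, w⟫ • D.g x

theorem PM_mem {D : TN E} {Φ : ℝ → E × E → E × E} (hΦ : IsGeo D.Q D.P Φ) {m : E} (hm : m ∈ D.M)
    (w : E) : PM D m w ∈ tan D.M m := by
  have h1 : PM D m w ∈ tan D.Q m := by
    rw [mem_tan_iff D.hP hm.1]
    unfold PM
    rw [map_sub, map_smul, D.Pg hm.1, D.hP.sq hm.1]
  refine TN.mem_tan_M hΦ hm h1 ?_
  unfold PM
  rw [inner_sub_right, real_inner_smul_right, real_inner_self_eq_norm_sq, D.gn m hm.1, hm.2,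
    ← D.hP.symm m hm.1, D.Pg hm.1]
  ring

theorem PM_id {D : TN E} {m a : E} (hm : m ∈ D.M) (ha : a ∈ tan D.M m) : PM D m a = a := by
  unfold PM
  rw [tan_M_g hm ha, zero_smul, sub_zero]
  obtain ⟨γ, h1, h2, h3, h4⟩ := ha
  exact (mem_tan_iff D.hP hm.1).1 ⟨γ, h1, fun t => (h2 t).1, h3, h4⟩

theorem PM_smooth (D : TN E) : ContDiff ℝ ∞ fun p : E × E => PM D p.1 p.2 := by
  unfold PM
  have h1 : ContDiff ℝ ∞ fun p : E × E => D.P p.1 p.2 :=
    (D.hP.smooth.comp contDiff_fst).clm_apply contDiff_snd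
  have h2 : ContDiff ℝ ∞ fun p : E × E => D.g p.1 := D.hg.comp contDiff_fst
  exact h1.sub ((h2.inner ℝ contDiff_snd).smul h2)

namespace LG

variable {D : TN E} (Λ : LG D) {Φ : ℝ → E × E → E × E}

/-- the preimage of the Lagrangian -/
def K (Φ : ℝ → E × E → E × E) : Set (E × (ℝ × ℝ)) := {x | x.1 ∈ D.M ∧ D.Psi Φ x ∈ Λ.L}

variable (hΦ : IsGeo D.Q D.P Φ)

include hΦ

theorem K_closed : IsClosed (Λ.K Φ) :=
  (D.M_closed.preimage continuous_fst).inter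
    (Λ.cL.isClosed.preimage (TN.Psi_smooth hΦ).continuous)

theorem psi_xi {z : E × E} (hz : z ∈ Λ.L) {s τ : ℝ} (hU : z ∈ D.XU s τ) :
    (D.Xi Φ s τ z).1 ∈ D.M ∧ D.Psi Φ (D.Xi Φ s τ z) = z := by
  obtain ⟨v, θ, τ', h1, h2⟩ := Λ.nv hz
  have e : z = (z.1, τ' • v) := by rw [← h2]
  rw [e] at hU ⊢
  exact TN.Xi_spec hΦ h1 hU

/-- lifting tangent vectors -/
theorem lift {m : E} (hm : m ∈ D.M) {s τ : ℝ} (hκ : 0 < Real.sin s * Real.sin s + τ * τ)
    {u : E × E} (hu : u ∈ tan Λ.L (D.Psi Φ (m, (s, τ)))) :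
    ∃ w : E × (ℝ × ℝ), w ∈ tan (Λ.K Φ) (m, (s, τ)) ∧ w.1 ∈ tan D.M m ∧
      fderiv ℝ (D.Psi Φ) (m, (s, τ)) w = u ∧
      w = fderiv ℝ (D.Xi Φ s τ) (D.Psi Φ (m, (s, τ))) u := by
  obtain ⟨γ, h1, h2, h3, h4⟩ := hu
  have hs0 : |s - s| < Real.pi / 2 := by
    rw [sub_self, abs_zero]
    exact Real.pi_div_two_pos
  have hzU : D.Psi Φ (m, (s, τ)) ∈ D.XU s τ := TN.Psi_mem_XU hΦ hm hκ hs0
  have hU : {t | γ t ∈ D.XU s τ} ∈ 𝓝 (0 : ℝ) := by
    refine ((D.XU_open s τ).preimage h1.continuous).mem_nhds ?_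
    change γ 0 ∈ D.XU s τ
    rwa [h3]
  have hsm : ContDiffOn ℝ ∞ (fun t => D.Xi Φ s τ (γ t)) {t | γ t ∈ D.XU s τ} :=
    (TN.Xi_smooth hΦ s τ).comp h1.contDiffOn (fun t ht => ht)
  have h0 : D.Xi Φ s τ (γ 0) = (m, (s, τ)) := by
    rw [h3]
    exact TN.Xi_left hΦ hm hκ hs0
  have hfd : HasFDerivAt (D.Xi Φ s τ) (fderiv ℝ (D.Xi Φ s τ) (D.Psi Φ (m, (s, τ)))) (γ 0) := by
    rw [h3]
    exact (((TN.Xi_smooth hΦ s τ).contDiffAt ((D.XU_open s τ).mem_nhds hzU)).differentiableAt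
      (by simp)).hasFDerivAt
  have hd : HasDerivAt (fun t => D.Xi Φ s τ (γ t))
      (fderiv ℝ (D.Xi Φ s τ) (D.Psi Φ (m, (s, τ))) u) 0 := hfd.comp_hasDerivAt 0 h4
  have hK : ∀ t ∈ {t | γ t ∈ D.XU s τ}, D.Xi Φ s τ (γ t) ∈ Λ.K Φ := by
    intro t ht
    obtain ⟨k1, k2⟩ := Λ.psi_xi hΦ (h2 t) ht
    refine ⟨k1, ?_⟩
    rw [k2]
    exact h2 t
  have hT := tan_of_local hU hsm hK h0 hd
  refine ⟨_, hT, ?_, ?_, rfl⟩
  · refine tan_of_local (γ := fun t => (D.Xi Φ s τ (γ t)).1) hU (contDiff_fst.comp_contDiffOn hsm)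
      (fun t ht => (hK t ht).1) (by rw [h0]) (hd_fst hd)
  · have e1 := hd_comp (TN.Psi_smooth hΦ) hd h0
    have e2 : (fun t => D.Psi Φ (D.Xi Φ s τ (γ t))) =ᶠ[𝓝 0] γ := by
      filter_upwards [hU] with t ht
      exact (Λ.psi_xi hΦ (h2 t) ht).2
    exact (e1.congr_of_eventuallyEq e2.symm).unique h4

/-- the directions of the middle level are tangent -/
theorem tan_K {m a : E} (hm : m ∈ D.M) (ha : a ∈ tan D.M m) {s τ : ℝ}
    (hκ : 0 < Real.sin s * Real.sin s + τ * τ) (hz : D.Psi Φ (m, (s, τ)) ∈ Λ.L) :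
    ((a, (0, 0)) : E × (ℝ × ℝ)) ∈ tan (Λ.K Φ) (m, (s, τ)) := by
  have hs0 : |s - s| < Real.pi / 2 := by
    rw [sub_self, abs_zero]
    exact Real.pi_div_two_pos
  have hzU : D.Psi Φ (m, (s, τ)) ∈ D.XU s τ := TN.Psi_mem_XU hΦ hm hκ hs0
  obtain ⟨c, c1, c2, c3, c4⟩ := ha
  have ha : a ∈ tan D.M m := ⟨c, c1, c2, c3, c4⟩
  have hc : HasDerivAt (fun t => ((c t, (s, τ)) : E × (ℝ × ℝ))) (a, (0, 0)) 0 :=
    c4.prodMk (hasDerivAt_const _ _)
  have hc0 : ((c 0, (s, τ)) : E × (ℝ × ℝ)) = (m, (s, τ)) := by rw [c3]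
  have hcs : ContDiff ℝ ∞ fun t => ((c t, (s, τ)) : E × (ℝ × ℝ)) := c1.prodMk contDiff_const
  set ξ := fderiv ℝ (D.Psi Φ) (m, (s, τ)) (a, (0, 0)) with hξ
  have e1 : HasDerivAt (fun t => D.Psi Φ (c t, (s, τ))) ξ 0 :=
    hd_comp (TN.Psi_smooth hΦ) hc hc0
  have hξt : ξ ∈ tan (cotangent D.Q) (D.Psi Φ (m, (s, τ))) :=
    ⟨fun t => D.Psi Φ (c t, (s, τ)), (TN.Psi_smooth hΦ).comp hcs,
      fun t => TN.Psi_cot hΦ (c2 t) s τ, by simp only [c3], e1⟩
  have hξL : ξ ∈ tan Λ.L (D.Psi Φ (m, (s, τ))) := by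
    refine Λ.maxi hz hξt ?_
    intro u hu
    obtain ⟨⟨a', b', c'⟩, w1, w2, w3, w4⟩ := Λ.lift hΦ hm hκ hu
    rw [← w3, hξ, TN.om_psi hΦ hm ha w2]
    ring
  obtain ⟨w, w1, w2, w3, w4⟩ := Λ.lift hΦ hm hκ hξL
  have hw : w = (a, (0, 0)) := by
    rw [w4]
    have hfd : HasFDerivAt (D.Xi Φ s τ) (fderiv ℝ (D.Xi Φ s τ) (D.Psi Φ (m, (s, τ))))
        ((fun t => D.Psi Φ (c t, (s, τ))) 0) := by
      simp only [c3]
      exact (((TN.Xi_smooth hΦ s τ).contDiffAt ((D.XU_open s τ).mem_nhds hzU)).differentiableAt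
        (by simp)).hasFDerivAt
    have e2 := hfd.comp_hasDerivAt 0 e1
    have e3 : (D.Xi Φ s τ ∘ fun t => D.Psi Φ (c t, (s, τ))) =
        fun t => ((c t, (s, τ)) : E × (ℝ × ℝ)) :=
      funext fun t => TN.Xi_left hΦ (c2 t) hκ hs0
    rw [e3] at e2
    exact e2.unique hc
  rwa [hw] at w1

/-- moving along a smooth path in the middle level -/
theorem path {c : ℝ → E} (c1 : ContDiff ℝ ∞ c) (c2 : ∀ t, c t ∈ D.M) {s τ : ℝ}
    (hκ : 0 < Real.sin s * Real.sin s + τ * τ) (hz : D.Psi Φ (c 0, (s, τ)) ∈ Λ.L) (t : ℝ) :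
    D.Psi Φ (c t, (s, τ)) ∈ Λ.L := by
  set κ := Real.sin s * Real.sin s + τ * τ with hκd
  set χ : ℝ × ℝ → ℝ := fun p =>
    Real.smoothTransition (2 * (Real.sin p.1 * Real.sin p.1 + p.2 * p.2) / κ - 1) with hχ
  have hχs : ContDiff ℝ ∞ χ := by
    refine Real.smoothTransition.contDiff.comp ?_
    have : ContDiff ℝ ∞ fun p : ℝ × ℝ => Real.sin p.1 := Real.contDiff_sin.comp contDiff_fst
    exact (((contDiff_const.mul ((this.mul this).add (contDiff_snd.mul contDiff_snd)))).div_const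
      κ).sub contDiff_const
  have hdc : ContDiff ℝ ∞ (deriv c) :=
    ((contDiff_infty_iff_deriv (𝕜 := ℝ)).1 c1).2
  set Y : ℝ × (E × (ℝ × ℝ)) → ℝ × (E × (ℝ × ℝ)) := fun p =>
    (1, (χ p.2.2 • PM D p.2.1 (deriv c p.1), ((0 : ℝ), (0 : ℝ)))) with hY
  have hYs : ContDiff ℝ ∞ Y := by
    refine contDiff_const.prodMk (ContDiff.prodMk ?_ contDiff_const)
    have h1 : ContDiff ℝ ∞ fun p : ℝ × (E × (ℝ × ℝ)) => χ p.2.2 :=
      hχs.comp (contDiff_snd.comp contDiff_snd)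
    have h2 : ContDiff ℝ ∞ fun p : ℝ × (E × (ℝ × ℝ)) => PM D p.2.1 (deriv c p.1) :=
      (PM_smooth D).comp ((contDiff_fst.comp contDiff_snd).prodMk (hdc.comp contDiff_fst))
    exact h1.smul h2
  have hcl : IsClosed {p : ℝ × (E × (ℝ × ℝ)) | p.2 ∈ Λ.K Φ} :=
    (Λ.K_closed hΦ).preimage continuous_snd
  have hd : ∀ t, HasDerivAt c (deriv c t) t := fun t =>
    (c1.differentiable (by simp) t).hasDerivAt
  have htanc : ∀ t, deriv c t ∈ tan D.M (c t) := by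
    intro t
    refine ⟨fun r => c (t + r), c1.comp (contDiff_const.add contDiff_id), fun r => c2 _,
      by simp, ?_⟩
    have e0 : HasDerivAt (fun r : ℝ => t + r) 1 0 := (hasDerivAt_id (0 : ℝ)).const_add t
    have e1 : HasDerivAt c (deriv c t) (t + 0) := by
      rw [add_zero]
      exact hd t
    have e2 := e1.scomp 0 e0
    rw [one_smul] at e2
    exact e2
  have htan : ∀ p ∈ {p : ℝ × (E × (ℝ × ℝ)) | p.2 ∈ Λ.K Φ},
      Y p ∈ tan {p : ℝ × (E × (ℝ × ℝ)) | p.2 ∈ Λ.K Φ} p := by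
    rintro ⟨t, m, s', τ'⟩ hp
    have hp' : ((m, (s', τ')) : E × (ℝ × ℝ)) ∈ Λ.K Φ := hp
    have hm : m ∈ D.M := hp'.1
    have key : ((χ (s', τ') • PM D m (deriv c t), (0, 0)) : E × (ℝ × ℝ)) ∈
        tan (Λ.K Φ) (m, (s', τ')) := by
      by_cases h0 : 0 < Real.sin s' * Real.sin s' + τ' * τ'
      · refine Λ.tan_K hΦ hm ?_ h0 hp'.2
        have h1 : PM D m (χ (s', τ') • deriv c t) ∈ tan D.M m := PM_mem hΦ hm _
        have h2 : PM D m (χ (s', τ') • deriv c t) = χ (s', τ') • PM D m (deriv c t) := by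
          unfold PM
          rw [map_smul, real_inner_smul_right]
          module
        rwa [h2] at h1
      · have h1 : Real.sin s' * Real.sin s' + τ' * τ' = 0 := by
          have := mul_self_nonneg (Real.sin s')
          have := mul_self_nonneg τ'
          linarith [not_lt.1 h0]
        have h2 : χ (s', τ') = 0 := by
          simp only [hχ, h1]
          exact Real.smoothTransition.zero_of_nonpos (by norm_num)
        rw [h2, zero_smul]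
        exact ⟨fun _ => (m, (s', τ')), contDiff_const, fun _ => hp', rfl, hasDerivAt_const _ _⟩
    obtain ⟨γ, g1, g2, g3, g4⟩ := key
    refine ⟨fun r => (t + r, γ r), (contDiff_const.add contDiff_id).prodMk g1, fun r => g2 r, ?_, ?_⟩
    · simp only [g3, add_zero]
    · exact ((hasDerivAt_id (0 : ℝ)).const_add t).prodMk g4
  have hγ : ∀ t, HasDerivAt (fun t => ((t, (c t, (s, τ))) : ℝ × (E × (ℝ × ℝ))))
      (Y (t, (c t, (s, τ)))) t := by
    intro t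
    have h1 : χ (s, τ) = 1 := by
      simp only [hχ]
      refine Real.smoothTransition.one_of_one_le ?_
      rw [← hκd, mul_div_assoc, div_self hκ.ne']
      norm_num
    have h2 : Y (t, (c t, (s, τ))) = (1, (deriv c t, (0, 0))) := by
      simp only [hY, h1, one_smul, PM_id (c2 t) (htanc t)]
    rw [h2]
    exact (hasDerivAt_id t).prodMk ((hd t).prodMk (hasDerivAt_const _ _))
  have := invariant hcl hYs htan hγ ⟨c2 0, hz⟩ t
  exact this.2

theorem open_M {m : E} (hm : m ∈ D.M) {s τ : ℝ}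
    (hκ : 0 < Real.sin s * Real.sin s + τ * τ) (hz : D.Psi Φ (m, (s, τ)) ∈ Λ.L) :
    ∃ δ > 0, ∀ m' ∈ D.M, dist m' m < δ → D.Psi Φ (m', (s, τ)) ∈ Λ.L := by
  obtain ⟨δ, hδ, hb⟩ := Metric.isOpen_iff.1 D.OM_open m (D.M_sub_OM hm)
  refine ⟨δ, hδ, fun m' hm' hd => ?_⟩
  set p : ℝ → E := fun t => m + Real.smoothTransition t • (m' - m) with hp
  have hpO : ∀ t, p t ∈ D.OM := by
    intro t
    apply hb
    rw [Metric.mem_ball, dist_eq_norm]
    have : p t - m = Real.smoothTransition t • (m' - m) := by simp [hp]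
    rw [this, norm_smul, Real.norm_of_nonneg (Real.smoothTransition.nonneg t)]
    calc Real.smoothTransition t * ‖m' - m‖ ≤ 1 * ‖m' - m‖ :=
          mul_le_mul_of_nonneg_right (Real.smoothTransition.le_one t) (norm_nonneg _)
      _ < δ := by rwa [one_mul, ← dist_eq_norm]
  have hps : ContDiff ℝ ∞ p :=
    contDiff_const.add (Real.smoothTransition.contDiff.smul contDiff_const)
  have hcs : ContDiff ℝ ∞ fun t => D.rM Φ (p t) :=
    contDiffOn_univ.1 ((TN.rM_smooth hΦ).comp hps.contDiffOn (fun t _ => hpO t))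
  have h0 : D.rM Φ (p 0) = m := by
    simp only [hp, Real.smoothTransition.zero, zero_smul, add_zero]
    exact TN.rM_fix hΦ hm
  have h1 : D.rM Φ (p 1) = m' := by
    simp only [hp, Real.smoothTransition.one, one_smul, add_sub_cancel]
    exact TN.rM_fix hΦ hm'
  have := Λ.path hΦ hcs (fun t => TN.rM_mem hΦ (hpO t)) hκ (by rwa [h0]) 1
  rwa [h1] at this

/-- **Saturation away from the cone points.** -/
theorem sat_reg {m m' : E} (hm : m ∈ D.M) (hm' : m' ∈ D.M) {s τ : ℝ}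
    (hκ : 0 < Real.sin s * Real.sin s + τ * τ) (hz : D.Psi Φ (m, (s, τ)) ∈ Λ.L) :
    D.Psi Φ (m', (s, τ)) ∈ Λ.L := by
  by_contra hno
  set V : Set E := {x | D.Psi Φ (x, (s, τ)) ∉ Λ.L} with hV
  have hVo : IsOpen V := by
    have : Continuous fun x : E => D.Psi Φ (x, (s, τ)) :=
      (TN.Psi_smooth hΦ).continuous.comp (by fun_prop)
    exact (Λ.cL.isClosed.preimage this).isOpen_compl
  set U : Set E := {x | ∃ y ∈ D.M, D.Psi Φ (y, (s, τ)) ∈ Λ.L ∧ ∃ δ > 0,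
    (∀ m' ∈ D.M, dist m' y < δ → D.Psi Φ (m', (s, τ)) ∈ Λ.L) ∧ dist x y < δ} with hU
  have hUo : IsOpen U := by
    rw [Metric.isOpen_iff]
    rintro x ⟨y, hy, h1, δ, hδ, h2, h3⟩
    refine ⟨δ - dist x y, by linarith, fun x' hx' => ⟨y, hy, h1, δ, hδ, h2, ?_⟩⟩
    have := dist_triangle x' x y
    rw [Metric.mem_ball] at hx'
    linarith
  have hcov : D.M ⊆ U ∪ V := by
    intro x hx
    by_cases h : D.Psi Φ (x, (s, τ)) ∈ Λ.L
    · obtain ⟨δ, hδ, h2⟩ := Λ.open_M hΦ hx hκ h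
      exact Or.inl ⟨x, hx, h, δ, hδ, h2, by rwa [dist_self]⟩
    · exact Or.inr h
  have hc : IsPreconnected D.M := Λ.conn.isPreconnected
  obtain ⟨x, hxM, hxU, hxV⟩ := hc U V hUo hVo hcov
    ⟨m, hm, by
      obtain ⟨δ, hδ, h2⟩ := Λ.open_M hΦ hm hκ hz
      exact ⟨m, hm, hz, δ, hδ, h2, by rwa [dist_self]⟩⟩ ⟨m', hm', hno⟩
  obtain ⟨y, hy, h1, δ, hδ, h2, h3⟩ := hxU
  exact hxV (h2 x hxM h3)

end LG

end Vale.Agent.P220.H446
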