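import Vale.Agent.P220.H446.Inv

/-!
# Local inverses of the family of the normal geodesics, continued
-/

open Set Filter Topology
open scoped ContDiff RealInnerProductSpace

set_option linter.unusedSectionVars false

namespace Vale.Agent.P220.H446

open Vale.Agent.P220.R2.H481 Vale.Agent.P220.R2

variable {E : Type} [NormedAddCommGroup E] [InnerProductSpace ℝ E] [FiniteDimensional ℝ E]

namespace TN

variable (D : TN E)

theorem NV.per {D : TN E} {x v : E} {θ : ℝ} (h : D.NV x v θ) (k : ℤ) :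
    D.NV x v (θ + k * (2 * Real.pi)) := by
  refine ⟨h.mem, h.tan, h.norm, ?_, ?_, ?_⟩
  · rw [Real.cos_add_int_mul_two_pi, h.hf]
  · rw [Real.sin_add_int_mul_two_pi, h.hg]
  · rw [Real.cos_add_int_mul_two_pi, h.hA]

/-- a vector in the normal direction -/
noncomputable def yv (s τ : ℝ) (z : E × E) : E := -(Real.sin s) • D.g z.1 + τ • z.2

/-- the unit normal direction -/
noncomputable def vh (s τ : ℝ) (z : E × E) : E := ‖D.yv s τ z‖⁻¹ • D.yv s τ z

/-- the sine of the difference of the parameters -/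
noncomputable def ar (s τ : ℝ) (z : E × E) : ℝ :=
  -⟪D.g z.1, D.vh s τ z⟫ * Real.cos s - D.f z.1 * Real.sin s

/-- the cosine of the difference of the parameters -/
noncomputable def br (s τ : ℝ) (z : E × E) : ℝ :=
  D.f z.1 * Real.cos s - ⟪D.g z.1, D.vh s τ z⟫ * Real.sin s

/-- the parameter of the geodesic -/
noncomputable def sh (s τ : ℝ) (z : E × E) : ℝ := s + Real.arcsin (D.ar s τ z)

/-- the local inverse -/
noncomputable def Xi (Φ : ℝ → E × E → E × E) (s τ : ℝ) (z : E × E) : E × (ℝ × ℝ) :=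
  ((Φ (Real.pi / 2 - D.sh s τ z) (z.1, D.vh s τ z)).1, (D.sh s τ z, ⟪z.2, D.vh s τ z⟫))

/-- the domain of the local inverse -/
def XU (s τ : ℝ) : Set (E × E) :=
  {z | D.yv s τ z ≠ 0} ∩ (fun z => (D.ar s τ z, D.br s τ z)) ⁻¹' {p | -1 < p.1 ∧ p.1 < 1 ∧ 0 < p.2}

theorem yv_smooth (s τ : ℝ) : ContDiff ℝ ∞ (D.yv s τ) :=
  ((D.hg.comp contDiff_fst).const_smul (-(Real.sin s))).add (contDiff_snd.const_smul τ)

theorem vh_smooth (s τ : ℝ) : ContDiffOn ℝ ∞ (D.vh s τ) {z | D.yv s τ z ≠ 0} := by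
  intro z hz
  have h := (D.yv_smooth s τ).contDiffAt (x := z)
  exact (((h.norm ℝ hz).inv (norm_ne_zero_iff.2 hz)).smul h).contDiffWithinAt

theorem gv_smooth (s τ : ℝ) :
    ContDiffOn ℝ ∞ (fun z : E × E => ⟪D.g z.1, D.vh s τ z⟫) {z | D.yv s τ z ≠ 0} :=
  (D.hg.comp contDiff_fst).contDiffOn.inner ℝ (D.vh_smooth s τ)

theorem ar_smooth (s τ : ℝ) : ContDiffOn ℝ ∞ (D.ar s τ) {z | D.yv s τ z ≠ 0} :=
  ((D.gv_smooth s τ).neg.mul contDiffOn_const).sub
    ((D.hf.comp contDiff_fst).mul contDiff_const).contDiffOn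

theorem br_smooth (s τ : ℝ) : ContDiffOn ℝ ∞ (D.br s τ) {z | D.yv s τ z ≠ 0} :=
  ((D.hf.comp contDiff_fst).mul contDiff_const).contDiffOn.sub
    ((D.gv_smooth s τ).mul contDiffOn_const)

theorem XU_open (s τ : ℝ) : IsOpen (D.XU s τ) := by
  refine ((D.ar_smooth s τ).prodMk (D.br_smooth s τ)).continuousOn.isOpen_inter_preimage
    (isOpen_ne_fun (D.yv_smooth s τ).continuous continuous_const) ?_
  exact (isOpen_lt continuous_const continuous_fst).inter
    ((isOpen_lt continuous_fst continuous_const).inter (isOpen_lt continuous_const continuous_snd))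

theorem sh_smooth (s τ : ℝ) : ContDiffOn ℝ ∞ (D.sh s τ) (D.XU s τ) := by
  intro z hz
  have h1 : ContDiffAt ℝ ∞ (D.ar s τ) z :=
    (D.ar_smooth s τ).contDiffAt
      ((isOpen_ne_fun (D.yv_smooth s τ).continuous continuous_const).mem_nhds hz.1)
  exact (contDiffAt_const.add (ContDiffAt.comp (g := Real.arcsin) z
    (Real.contDiffAt_arcsin (ne_of_gt hz.2.1) (ne_of_lt hz.2.2.1)) h1)).contDiffWithinAt

section

variable {D} {Φ : ℝ → E × E → E × E} (hΦ : IsGeo D.Q D.P Φ)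

theorem vh_eq {x v : E} {θ τ' : ℝ} (h : D.NV x v θ) {s τ : ℝ}
    (hp : 0 < Real.sin s * Real.sin θ + τ * τ') : D.vh s τ (x, τ' • v) = v := by
  have h1 : D.yv s τ (x, τ' • v) = (Real.sin s * Real.sin θ + τ * τ') • v := by
    unfold yv
    simp only
    rw [h.hg]
    module
  unfold vh
  rw [h1, norm_smul, h.norm, mul_one, Real.norm_of_nonneg hp.le, smul_smul,
    inv_mul_cancel₀ hp.ne', one_smul]

theorem yv_ne {x v : E} {θ τ' : ℝ} (h : D.NV x v θ) {s τ : ℝ}
    (hp : 0 < Real.sin s * Real.sin θ + τ * τ') : D.yv s τ (x, τ' • v) ≠ 0 := by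
  have h1 : D.yv s τ (x, τ' • v) = (Real.sin s * Real.sin θ + τ * τ') • v := by
    unfold yv
    simp only
    rw [h.hg]
    module
  rw [h1]
  refine smul_ne_zero hp.ne' ?_
  intro h0
  have := h.norm
  rw [h0, norm_zero] at this
  exact zero_ne_one this

theorem gv_eq {x v : E} {θ τ' : ℝ} (h : D.NV x v θ) {s τ : ℝ}
    (hp : 0 < Real.sin s * Real.sin θ + τ * τ') :
    ⟪D.g x, D.vh s τ (x, τ' • v)⟫ = -Real.sin θ := by
  rw [vh_eq h hp, h.hg, inner_neg_left, real_inner_smul_left, real_inner_self_eq_norm_sq, h.norm]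
  ring

theorem ar_eq {x v : E} {θ τ' : ℝ} (h : D.NV x v θ) {s τ : ℝ}
    (hp : 0 < Real.sin s * Real.sin θ + τ * τ') : D.ar s τ (x, τ' • v) = Real.sin (θ - s) := by
  unfold ar
  simp only
  rw [gv_eq h hp, h.hf, Real.sin_sub]
  ring

theorem br_eq {x v : E} {θ τ' : ℝ} (h : D.NV x v θ) {s τ : ℝ}
    (hp : 0 < Real.sin s * Real.sin θ + τ * τ') : D.br s τ (x, τ' • v) = Real.cos (θ - s) := by
  unfold br
  simp only
  rw [gv_eq h hp, h.hf, Real.cos_sub]
  ring

theorem inner_vh {x v : E} {θ τ' : ℝ} (h : D.NV x v θ) {s τ : ℝ}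
    (hp : 0 < Real.sin s * Real.sin θ + τ * τ') :
    ⟪τ' • v, D.vh s τ (x, τ' • v)⟫ = τ' := by
  rw [vh_eq h hp, real_inner_smul_left, real_inner_self_eq_norm_sq, h.norm]
  ring

include hΦ

theorem Xi_smooth (s τ : ℝ) : ContDiffOn ℝ ∞ (D.Xi Φ s τ) (D.XU s τ) := by
  have h1 := D.sh_smooth s τ
  have h2 : ContDiffOn ℝ ∞ (D.vh s τ) (D.XU s τ) := (D.vh_smooth s τ).mono (fun z hz => hz.1)
  refine ContDiffOn.prodMk ?_ (h1.prodMk (contDiffOn_snd.inner ℝ h2))
  exact contDiff_fst.comp_contDiffOn (hΦ.smooth.comp_contDiffOn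
    ((contDiffOn_const.sub h1).prodMk (contDiffOn_fst.prodMk h2)))

/-- a parameter whose difference has a positive cosine -/
theorem exists_shift {α β : ℝ} (hc : 0 < Real.cos (α - β)) :
    ∃ k : ℤ, α + k * (2 * Real.pi) = β + Real.arcsin (Real.sin (α - β)) := by
  have h1 := Real.arcsin_sin' (x := toIocMod Real.two_pi_pos (-Real.pi) (α - β)) ?_
  · obtain ⟨k, hk⟩ : ∃ k : ℤ, toIocMod Real.two_pi_pos (-Real.pi) (α - β) =
        α - β + k * (2 * Real.pi) := by
      refine ⟨-(toIocDiv Real.two_pi_pos (-Real.pi) (α - β)), ?_⟩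
      have := toIocMod_add_toIocDiv_zsmul Real.two_pi_pos (-Real.pi) (α - β)
      rw [zsmul_eq_mul] at this
      push_cast
      linarith
    rw [hk, Real.sin_add_int_mul_two_pi] at h1
    exact ⟨k, by linarith⟩
  · set γ := toIocMod Real.two_pi_pos (-Real.pi) (α - β) with hγ
    have hm := toIocMod_mem_Ioc Real.two_pi_pos (-Real.pi) (α - β)
    have hcγ : 0 < Real.cos γ := by
      have e : γ = α - β - (toIocDiv Real.two_pi_pos (-Real.pi) (α - β)) * (2 * Real.pi) := by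
        have := toIocMod_add_toIocDiv_zsmul Real.two_pi_pos (-Real.pi) (α - β)
        rw [zsmul_eq_mul] at this
        linarith
      rw [e, Real.cos_sub_int_mul_two_pi]
      exact hc
    have h2 : γ ≤ Real.pi := by
      have := hm.2
      linarith
    have h3 : -Real.pi < γ := hm.1
    constructor
    · by_contra hlt
      push Not at hlt
      have : Real.cos γ ≤ 0 := by
        rw [← Real.cos_neg]
        exact Real.cos_nonpos_of_pi_div_two_le_of_le (by linarith) (by linarith [Real.pi_pos])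
      linarith
    · by_contra hlt
      push Not at hlt
      have : Real.cos γ ≤ 0 :=
        Real.cos_nonpos_of_pi_div_two_le_of_le hlt.le (by linarith [Real.pi_pos])
      linarith

theorem Xi_spec_pos {x v : E} {θ τ' : ℝ} (h : D.NV x v θ) {s τ : ℝ}
    (hp : 0 < Real.sin s * Real.sin θ + τ * τ') (hz : ((x, τ' • v) : E × E) ∈ D.XU s τ) :
    (D.Xi Φ s τ (x, τ' • v)).1 ∈ D.M ∧ D.Psi Φ (D.Xi Φ s τ (x, τ' • v)) = (x, τ' • v) := by
  have h3 : 0 < D.br s τ (x, τ' • v) := hz.2.2.2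
  rw [br_eq h hp] at h3
  obtain ⟨k, hk⟩ := exists_shift hΦ h3
  have h4 : D.sh s τ (x, τ' • v) = θ + k * (2 * Real.pi) := by
    unfold sh
    rw [ar_eq h hp, ← hk]
  have h5 : D.NV x v (D.sh s τ (x, τ' • v)) := by
    rw [h4]
    exact h.per k
  have h6 := NV.mh hΦ h5
  have h7 : D.Xi Φ s τ (x, τ' • v) =
      ((Φ (Real.pi / 2 - D.sh s τ (x, τ' • v)) (x, v)).1, (D.sh s τ (x, τ' • v), τ')) := by
    unfold Xi
    simp only
    rw [inner_vh h hp, vh_eq h hp]
  rw [h7]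
  refine ⟨h6.1, ?_⟩
  unfold Psi
  simp only
  rw [h6.2]

theorem Xi_spec {x v : E} {θ τ' : ℝ} (h : D.NV x v θ) {s τ : ℝ}
    (hz : ((x, τ' • v) : E × E) ∈ D.XU s τ) :
    (D.Xi Φ s τ (x, τ' • v)).1 ∈ D.M ∧ D.Psi Φ (D.Xi Φ s τ (x, τ' • v)) = (x, τ' • v) := by
  rcases lt_trichotomy (Real.sin s * Real.sin θ + τ * τ') 0 with hp | hp | hp
  · have h' := h.neg
    have e : τ' • v = (-τ') • (-v) := by simp
    rw [e] at hz ⊢
    refine Xi_spec_pos hΦ h' ?_ hz
    rw [Real.sin_neg]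
    linarith
  · exfalso
    apply hz.1
    unfold yv
    simp only
    rw [h.hg]
    calc -Real.sin s • -(Real.sin θ • v) + τ • τ' • v = (Real.sin s * Real.sin θ + τ * τ') • v := by
          module
      _ = 0 := by rw [hp, zero_smul]
  · exact Xi_spec_pos hΦ h hp hz

theorem Psi_eq {m : E} (s' τ' : ℝ) : D.Psi Φ (m, (s', τ')) =
    ((D.sg Φ (m, s')).1, τ' • (D.sg Φ (m, s')).2) := rfl

theorem Psi_mem_XU {m : E} (hm : m ∈ D.M) {s τ s' τ' : ℝ}
    (hp : 0 < Real.sin s * Real.sin s' + τ * τ') (hs : |s' - s| < Real.pi / 2) :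
    D.Psi Φ (m, (s', τ')) ∈ D.XU s τ := by
  have h := nv_sg hΦ hm s'
  rw [Psi_eq hΦ]
  obtain ⟨h1, h2⟩ := abs_lt.1 hs
  refine ⟨yv_ne h hp, ?_, ?_, ?_⟩
  · change -1 < D.ar s τ _
    rw [ar_eq h hp]
    have := Real.sin_lt_sin_of_lt_of_le_pi_div_two le_rfl h2.le h1
    rwa [Real.sin_neg, Real.sin_pi_div_two] at this
  · change D.ar s τ _ < 1
    rw [ar_eq h hp]
    have := Real.sin_lt_sin_of_lt_of_le_pi_div_two h1.le le_rfl h2
    rwa [Real.sin_pi_div_two] at this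
  · change 0 < D.br s τ _
    rw [br_eq h hp]
    exact Real.cos_pos_of_mem_Ioo ⟨h1, h2⟩

theorem Xi_left {m : E} (hm : m ∈ D.M) {s τ s' τ' : ℝ}
    (hp : 0 < Real.sin s * Real.sin s' + τ * τ') (hs : |s' - s| < Real.pi / 2) :
    D.Xi Φ s τ (D.Psi Φ (m, (s', τ'))) = (m, (s', τ')) := by
  have h := nv_sg hΦ hm s'
  rw [Psi_eq hΦ]
  obtain ⟨h1, h2⟩ := abs_lt.1 hs
  have h4 : D.sh s τ ((D.sg Φ (m, s')).1, τ' • (D.sg Φ (m, s')).2) = s' := by
    unfold sh
    rw [ar_eq h hp, Real.arcsin_sin h1.le h2.le]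
    ring
  unfold Xi
  simp only
  rw [h4, inner_vh h hp, vh_eq h hp]
  congr 1
  have := sg_M (D := D) hΦ (m := m) s'
  rw [Prod.eta] at *
  rw [this]

end

end TN

end Vale.Agent.P220.H446
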